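import Crest.Agent.N250.Gi.Defs
import Crest.Agent.N250.H.Fix

/-!
# Row 250 (helper61): inversion of `hat` up to the tip
-/

set_option autoImplicit false
open Set Filter Topology Metric

noncomputable section

namespace Crest.Agent.N250.Xi

open B1 Gi

namespace Tip

variable {K X : ℝ} {a : ℂ}

theorem re_et (a : ℂ) (X : ℝ) : (et a X).re = 1 + a.re * (X ^ 2 - 2) / 2 := by
  have : et a X = 1 + a * (((X ^ 2 - 2) / 2 : ℝ) : ℂ) := by unfold et; push_cast; ring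
  rw [this, Complex.add_re, Complex.re_mul_ofReal, Complex.one_re]
  ring

theorem norm_w (a : ℂ) (X : ℝ) : ‖a * X ^ 2 / 2‖ = ‖a‖ * X ^ 2 / 2 := by
  simp

theorem norm_le (h : Adm K X a) (hK : 0 ≤ K) : ‖a‖ * X ^ 2 ≤ 5 / 2 := by
  have h1 : ‖a * X ^ 2 / 2‖ ≤ ‖a * X ^ 2 / 2 - 1 / 8‖ + ‖(1 / 8 : ℂ)‖ := by
    have := norm_add_le (a * X ^ 2 / 2 - 1 / 8) (1 / 8)
    rwa [sub_add_cancel] at this
  have h2 : ‖(1 / 8 : ℂ)‖ = 1 / 8 := by simp
  have h3 : 0 ≤ 2 * K / X ^ 2 := by positivity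
  rw [norm_w, h2] at h1
  unfold Adm at h
  linarith

theorem re_ge (h : Adm K X a) (hX : 2 ≤ X) :
    2 / X ^ 2 + 2 * K / X ^ 2 * (1 - 2 / X ^ 2) ≤ (et a X).re := by
  have hY : 4 ≤ X ^ 2 := by nlinarith
  have h1 : -‖a * X ^ 2 / 2 - 1 / 8‖ ≤ (a * X ^ 2 / 2 - 1 / 8).re :=
    (abs_le.1 (Complex.abs_re_le_norm _)).1
  have h2 : (a * X ^ 2 / 2 - 1 / 8).re = a.re * X ^ 2 / 2 - 1 / 8 := by
    have : a * X ^ 2 / 2 - 1 / 8 = a * ((X ^ 2 / 2 : ℝ) : ℂ) - ((1 / 8 : ℝ) : ℂ) := by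
      push_cast; ring
    rw [this, Complex.sub_re, Complex.re_mul_ofReal, Complex.ofReal_re]
    ring
  have h3 : -1 + 2 * K / X ^ 2 ≤ a.re * X ^ 2 / 2 := by unfold Adm at h; linarith
  have h4 : 0 ≤ 1 - 2 / X ^ 2 := by
    rw [sub_nonneg, div_le_one (by positivity)]; linarith
  have h5 := mul_le_mul_of_nonneg_right h3 h4
  have h6 : a.re * (X ^ 2 - 2) / 2 = a.re * X ^ 2 / 2 * (1 - 2 / X ^ 2) := by
    field_simp
  rw [re_et, h6]
  linarith

theorem norm_et (h : Adm K X a) (hK : 0 ≤ K) (hX : 2 ≤ X) : ‖et a X‖ ≤ 9 / 4 := by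
  have hY : 4 ≤ X ^ 2 := by nlinarith
  have e : et a X = 1 + a * (((X ^ 2 - 2) / 2 : ℝ) : ℂ) := by unfold et; push_cast; ring
  have h1 := norm_le h hK
  rw [e]
  refine (norm_add_le _ _).trans ?_
  rw [norm_one, norm_mul, Complex.norm_real, Real.norm_eq_abs, abs_of_nonneg (by linarith)]
  nlinarith [norm_nonneg a]

theorem lam_le' (h : Adm K X a) (hK : 0 ≤ K) (hX : 2 ≤ X) {m : ℝ} (hm : 0 < m)
    (hr : m / X ^ 2 ≤ (et a X).re) :
    ‖Lam X a‖ ≤ 2 * Real.log (X ^ 2) - Real.log m + Real.pi / 2 := by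
  have hY : 4 ≤ X ^ 2 := by nlinarith
  have h0 : 0 < m / X ^ 2 := by positivity
  have h1 : m / X ^ 2 ≤ ‖et a X‖ := hr.trans (Complex.re_le_norm _)
  have h2 := Real.log_le_log h0 h1
  rw [Real.log_div hm.ne' (by positivity)] at h2
  have h3 : Real.log ‖et a X‖ ≤ Real.log (X ^ 2) :=
    Real.log_le_log (h0.trans_le h1) ((norm_et h hK hX).trans (by linarith))
  have h4 : |(et a X).arg| ≤ Real.pi / 2 := Complex.abs_arg_le_pi_div_two_iff.2 (h0.le.trans hr)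
  refine (Complex.norm_le_abs_re_add_abs_im _).trans ?_
  have e1 : (Lam X a).re = Real.log (X ^ 2) - Real.log ‖et a X‖ := by
    rw [Lam, Complex.sub_re, Complex.ofReal_re, Complex.log_re]
  have e2 : (Lam X a).im = -(et a X).arg := by
    rw [Lam, Complex.sub_im, Complex.ofReal_im, Complex.log_im, zero_sub]
  rw [e1, e2, abs_neg, abs_of_nonneg (by linarith)]
  linarith

theorem convex_adm (K X : ℝ) : Convex ℝ {a : ℂ | Adm K X a} := by
  intro a ha b hb s t hs ht hst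
  have e : (s • a + t • b) * X ^ 2 / 2 - 1 / 8 =
      s • (a * X ^ 2 / 2 - 1 / 8) + t • (b * X ^ 2 / 2 - 1 / 8) := by
    have : (t : ℂ) = 1 - s := by
      have : t = 1 - s := by linarith
      rw [this]; push_cast; ring
    simp only [Complex.real_smul, this]
    ring
  have ha' : Adm K X a := ha
  have hb' : Adm K X b := hb
  unfold Adm at ha' hb'
  have := (convex_ball (0 : ℂ) (9 / 8 - 2 * K / X ^ 2)) (x := a * X ^ 2 / 2 - 1 / 8)
    (mem_ball_zero_iff.2 (by linarith)) (y := b * X ^ 2 / 2 - 1 / 8)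
    (mem_ball_zero_iff.2 (by linarith)) hs ht hst
  rw [mem_ball_zero_iff, ← e] at this
  show Adm K X _
  unfold Adm
  linarith

theorem geo {w : ℂ} {t : ℝ} (ht0 : 0 < t) (ht : t ≤ 1) (h : ‖w - (t / 16 : ℝ)‖ < 17 * t / 16) :
    ∃ e, 0 ≤ e ∧ e ≤ 3 ∧ ‖w‖ ^ 2 ≤ 1 + e / 8 ∧ ‖w - 1 / 8‖ ≤ t + 1 / 8 - e / 20 := by
  have h1 : (w.re - t / 16) ^ 2 + w.im ^ 2 ≤ (17 * t / 16) ^ 2 := by
    have := pow_le_pow_left₀ (norm_nonneg _) h.le 2
    rw [Complex.sq_norm, Complex.normSq_apply] at this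
    simp only [Complex.sub_re, Complex.ofReal_re, Complex.sub_im, Complex.ofReal_im] at this
    nlinarith
  have h2 : |w.re - t / 16| ≤ 17 * t / 16 :=
    abs_le_of_sq_le_sq' (by nlinarith [sq_nonneg w.im]) (by positivity) |> abs_le.2
  obtain ⟨h3, h4⟩ := abs_le.1 h2
  have h5 : w.re ^ 2 + w.im ^ 2 ≤ t ^ 2 + t * (t + w.re) / 8 := by nlinarith
  refine ⟨t + w.re, by linarith, by linarith, ?_, ?_⟩
  · rw [Complex.sq_norm, Complex.normSq_apply]
    nlinarith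
  · refine (sq_le_sq₀ (norm_nonneg _) (by linarith)).1 ?_
    rw [Complex.sq_norm, Complex.normSq_apply]
    have e1 : (w - 1 / 8).re = w.re - 1 / 8 := by simp
    have e2 : (w - 1 / 8).im = w.im := by simp
    rw [e1, e2]
    nlinarith [mul_nonneg (by linarith : 0 ≤ t + w.re) (by linarith : 0 ≤ 1 - t),
      sq_nonneg (t + w.re)]

theorem num {Y q u e s L n W d k : ℝ} (hY : 0 < Y) (hu : 1 ≤ u) (huY : 200 * u ^ 2 ≤ Y)
    (hq0 : 0 ≤ q) (hq : q ≤ 4 * u) (he : 0 ≤ e) (he3 : e ≤ 3) (hs0 : 0 ≤ s) (hs : s * Y ≤ 7 * u)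
    (hL0 : 0 ≤ L) (hL : L ≤ 2 * u) (hn0 : 0 ≤ n) (hn : n ≤ W + s) (hW0 : 0 ≤ W)
    (hW : W ^ 2 ≤ 1 + e / 8) (hd : d ≤ Y / (Y + q) + 1 / 8 - e / 20) (hk : k + 1 ≤ q - 2 * L) :
    d + 2 / Y * n ^ 2 * L ≤ 9 / 8 - k / Y := by
  have hs1 : s ≤ 1 := by nlinarith
  have hW1 : W ≤ 3 / 2 := by nlinarith
  have h1 : n ^ 2 ≤ 1 + e / 8 + 4 * s := by nlinarith
  have h2 : Y / (Y + q) ≤ 1 - q / Y + q ^ 2 / Y ^ 2 := by
    rw [div_le_iff₀ (by positivity)]
    have : (1 - q / Y + q ^ 2 / Y ^ 2) * (Y + q) = Y + q ^ 3 / Y ^ 2 := by field_simp; ring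
    rw [this]
    have : 0 ≤ q ^ 3 / Y ^ 2 := by positivity
    linarith
  have h3 : q ^ 2 / Y ≤ 1 / 4 := by rw [div_le_iff₀ hY]; nlinarith
  have h4 : 8 * (s * L) ≤ 3 / 4 := by
    have : s * L * Y ≤ 7 * u * (2 * u) := by
      calc s * L * Y = s * Y * L := by ring
        _ ≤ _ := by gcongr
    have h5 : 8 * (s * L) * Y ≤ 3 / 4 * Y := by nlinarith
    exact le_of_mul_le_mul_right h5 hY
  have h5 : e * (L / 4) ≤ e * (Y / 20) := mul_le_mul_of_nonneg_left (by nlinarith) he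
  have h6 : 2 * n ^ 2 * L ≤ 2 * (1 + e / 8 + 4 * s) * L := by gcongr
  have h7 : (d + 2 / Y * n ^ 2 * L) * Y ≤ (9 / 8 - k / Y) * Y := by
    have e1 : (d + 2 / Y * n ^ 2 * L) * Y = d * Y + 2 * n ^ 2 * L := by field_simp
    have e2 : (9 / 8 - k / Y) * Y = 9 / 8 * Y - k := by field_simp
    have e3 : (1 - q / Y + q ^ 2 / Y ^ 2 + 1 / 8 - e / 20) * Y =
        9 / 8 * Y - q + q ^ 2 / Y - e * (Y / 20) := by field_simp; ring
    have h8 : d * Y ≤ (1 - q / Y + q ^ 2 / Y ^ 2 + 1 / 8 - e / 20) * Y := by gcongr; linarith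
    rw [e1, e2]
    nlinarith
  exact le_of_mul_le_mul_right h7 hY

theorem ev (c : ℝ) : ∀ᶠ X : ℝ in atTop, 200 * (Real.log (X ^ 2) + c) ^ 2 ≤ X ^ 2 := by
  filter_upwards [(Real.isLittleO_log_id_atTop.def (c := 1 / 60) (by norm_num)),
    eventually_ge_atTop (30 * |c|), eventually_ge_atTop 1] with X h1 h2 h3
  simp only [id, Real.norm_eq_abs] at h1
  rw [abs_of_nonneg (Real.log_nonneg h3), abs_of_nonneg (by linarith)] at h1
  have h4 : |Real.log (X ^ 2) + c| ≤ X / 15 := by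
    refine (abs_add_le _ _).trans ?_
    rw [Real.log_pow, abs_of_nonneg (by have := Real.log_nonneg h3; positivity)]
    push_cast
    linarith
  have h5 := pow_le_pow_left₀ (abs_nonneg _) h4 2
  rw [sq_abs] at h5
  nlinarith

end Tip

open Tip

variable {K X : ℝ} {a a' : ℂ}

theorem lam_le (h : Adm K X a) (hK : 0 ≤ K) (hX : 2 ≤ X) :
    ‖Lam X a‖ ≤ 2 * Real.log (X ^ 2) + 2 := by
  have hY : 4 ≤ X ^ 2 := by nlinarith
  have h4 : 0 ≤ 1 - 2 / X ^ 2 := by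
    rw [sub_nonneg, div_le_one (by positivity)]; linarith
  have h1 := lam_le' h hK hX (m := 2) two_pos
    (le_trans (le_add_of_nonneg_right (by positivity)) (re_ge h hX))
  have h2 := Real.log_nonneg (x := 2) one_le_two
  linarith [Real.pi_le_four]

theorem hasDerivAt_q (h : 0 < (et a X).re) : HasDerivAt (fun a => a ^ 2 * Lam X a)
    (2 * a * Lam X a - a ^ 2 * (((X : ℂ) ^ 2 - 2) / 2 / et a X)) a := by
  have h1 : HasDerivAt (fun a => et a X) (((X : ℂ) ^ 2 - 2) / 2) a := by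
    simpa [et] using (((hasDerivAt_id a).mul_const ((X : ℂ) ^ 2 - 2)).div_const 2).const_add 1
  have h2 := (h1.clog (Or.inl h)).const_sub ((Real.log (X ^ 2) : ℝ) : ℂ)
  exact ((hasDerivAt_pow 2 a).mul h2).congr_deriv (by simp [Lam]; ring)

theorem q_lip (h : Adm K X a) (h' : Adm K X a') (hK : 10 ≤ K) (hX : 200 ≤ X) :
    ‖a ^ 2 * Lam X a - a' ^ 2 * Lam X a'‖ ≤ ‖a - a'‖ / 2 := by
  have hY : 40000 ≤ X ^ 2 := by nlinarith
  have hre : ∀ b, Adm K X b → K / X ^ 2 ≤ (et b X).re := by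
    intro b hb
    refine le_trans ?_ (re_ge hb (by linarith))
    have h1 : 2 / X ^ 2 ≤ 1 / 2 := by rw [div_le_iff₀ (by positivity)]; linarith
    have h2 : 0 ≤ K / X ^ 2 := by positivity
    have h3 : 0 ≤ 2 / X ^ 2 := by positivity
    rw [mul_div_assoc]
    nlinarith
  have hpos : 0 < K / X ^ 2 := by positivity
  have := (convex_adm K X).norm_image_sub_le_of_norm_hasDerivWithin_le (C := 1 / 2)
    (f := fun a => a ^ 2 * Lam X a)
    (f' := fun a => 2 * a * Lam X a - a ^ 2 * (((X : ℂ) ^ 2 - 2) / 2 / et a X))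
    (fun b hb => (hasDerivAt_q (hpos.trans_le (hre b hb))).hasDerivWithinAt) (fun b hb => ?_) h' h
  · linarith
  have h1 := norm_le hb (by linarith)
  have h2 := lam_le hb (by linarith) (by linarith)
  have h3 : Real.log (X ^ 2) ≤ 2 * X - 2 := by
    rw [Real.log_pow]; push_cast
    linarith [Real.log_le_sub_one_of_pos (x := X) (by linarith)]
  have h4 : K / X ^ 2 ≤ ‖et b X‖ := (hre b hb).trans (Complex.re_le_norm _)
  have h5 : ‖((X : ℂ) ^ 2 - 2) / 2‖ ≤ X ^ 2 / 2 := by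
    have : ((X : ℂ) ^ 2 - 2) / 2 = (((X ^ 2 - 2) / 2 : ℝ) : ℂ) := by push_cast; ring
    rw [this, Complex.norm_real, Real.norm_eq_abs, abs_of_nonneg (by linarith)]
    linarith
  have hb0 := norm_nonneg b
  have h6 : ‖2 * b * Lam X b‖ ≤ 1 / 10 := by
    rw [norm_mul, norm_mul, Complex.norm_ofNat]
    have h7 : ‖b‖ * X ≤ 1 / 80 := by
      have : ‖b‖ * X * 200 ≤ ‖b‖ * X * X := by gcongr
      nlinarith
    calc 2 * ‖b‖ * ‖Lam X b‖ ≤ 2 * ‖b‖ * (4 * X) := by gcongr; linarith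
      _ ≤ _ := by nlinarith
  have h8 : ‖b ^ 2 * (((X : ℂ) ^ 2 - 2) / 2 / et b X)‖ ≤ 2 / 5 := by
    rw [norm_mul, norm_pow, norm_div]
    calc ‖b‖ ^ 2 * (‖((X : ℂ) ^ 2 - 2) / 2‖ / ‖et b X‖) ≤ ‖b‖ ^ 2 * (X ^ 2 / 2 / (K / X ^ 2)) := by
          gcongr
      _ = (‖b‖ * X ^ 2) ^ 2 / (2 * K) := by field_simp
      _ ≤ (5 / 2) ^ 2 / (2 * 10) := by gcongr
      _ ≤ _ := by norm_num
  linarith [norm_sub_le (2 * b * Lam X b) (b ^ 2 * (((X : ℂ) ^ 2 - 2) / 2 / et b X))]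

/-- `hat X` is onto the disc of the level `TL N X - 1` -/
theorem tip : ∃ N0 : ℕ, ∀ N, N0 ≤ N → ∃ X1 : ℝ, ∀ X, X1 ≤ X →
    ∀ a ∈ B2.DB (1 / 16) (TL N X - 0 - 1), ∃ a0, Adm (KK N + 2) X a0 ∧ hat X a0 = a := by
  refine ⟨30, fun N hN => ?_⟩
  have hM : (30 : ℝ) ≤ N := by exact_mod_cast hN
  obtain ⟨X1, hX1⟩ := eventually_atTop.1 ((ev (|c0 N| + 1)).and
    ((eventually_ge_atTop (200 : ℝ)).and (eventually_ge_atTop (KK N + 2))))
  refine ⟨X1, fun X hX a ha => ?_⟩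
  obtain ⟨hu, hX2, hXK⟩ := hX1 X hX
  set K := KK N + 2 with hKdef
  have hK : 2 * K = 7 * ((N : ℝ) + 1) / 2 + 4 := by rw [hKdef, KK]; ring
  have hY : 40000 ≤ X ^ 2 := by nlinarith
  have hY0 : 0 < X ^ 2 := by positivity
  have hl : 0 ≤ Real.log (X ^ 2) := Real.log_nonneg (by linarith)
  set l := Real.log (X ^ 2) with hldef
  set L := 2 * l - Real.log (2 * K) + Real.pi / 2 with hL
  set q := 4 * l + c0 N - 1 with hq
  have hlog : Real.log (4 * ((N : ℝ) + 1)) ≤ Real.log (2 * K) + 1 := by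
    have h1 : Real.log (4 * ((N : ℝ) + 1)) ≤ Real.log (2 * K * 2) :=
      Real.log_le_log (by positivity) (by linarith)
    rw [Real.log_mul (by linarith) two_ne_zero] at h1
    linarith [Real.log_le_sub_one_of_pos (x := 2) two_pos]
  have hk : 2 * K + 1 + 1 ≤ q - 2 * L := by
    rw [hq, hL, c0]; linarith [Real.pi_le_four]
  have hKY : 2 * K ≤ X ^ 2 := by nlinarith
  have hL0 : 0 ≤ L := by
    have := Real.log_le_log (by linarith) hKY
    linarith [Real.pi_pos]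
  have hL1 : L ≤ 2 * l + 2 := by
    linarith [Real.pi_le_four, Real.log_nonneg (x := 2 * K) (by linarith)]
  have hq0 : 0 ≤ q := by linarith
  have hB : TL N X - 0 - 1 = X ^ 2 + q := by rw [TL, hq]; ring
  have hw : ‖a * X ^ 2 / 2 - (X ^ 2 / (X ^ 2 + q) / 16 : ℝ)‖ < 17 * (X ^ 2 / (X ^ 2 + q)) / 16 := by
    rw [hB, B2.DB, mem_ball, dist_eq_norm] at ha
    have e : a * X ^ 2 / 2 - (X ^ 2 / (X ^ 2 + q) / 16 : ℝ) =
        (a - (2 * (1 / 16) / (X ^ 2 + q) : ℝ)) * ((X ^ 2 / 2 : ℝ) : ℂ) := by push_cast; ring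
    rw [e, norm_mul, Complex.norm_real, Real.norm_eq_abs, abs_of_pos (by positivity)]
    calc _ < 2 * (1 + 1 / 16) / (X ^ 2 + q) * (X ^ 2 / 2) := by gcongr
      _ = _ := by ring
  obtain ⟨e, he0, he3, hW, hd⟩ := geo (by positivity)
    (by rw [div_le_one (by positivity)]; linarith) hw
  set σ := 7 * (2 * l + 2) / (X ^ 2) ^ 2 with hσ
  have hσ0 : 0 ≤ σ := by positivity
  have key : ∀ n, 0 ≤ n → n ≤ ‖a * X ^ 2 / 2‖ + σ * X ^ 2 / 2 →
      ‖a * X ^ 2 / 2 - 1 / 8‖ + 2 / X ^ 2 * n ^ 2 * L ≤ 9 / 8 - (2 * K + 1) / X ^ 2 := fun n h0 h1 =>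
    num (u := l + (|c0 N| + 1)) hY0 (by linarith [abs_nonneg (c0 N)]) hu hq0
      (by linarith [le_abs_self (c0 N), abs_nonneg (c0 N)]) he0 he3 (by positivity)
      (by
        have : σ * X ^ 2 / 2 * X ^ 2 = 7 * (l + 1) := by rw [hσ]; field_simp
        rw [this]; linarith [abs_nonneg (c0 N)]) hL0 (by linarith [abs_nonneg (c0 N)]) h0 h1
      (norm_nonneg _) hW hd hk
  set S : Set ℂ := {b | ‖b * X ^ 2 / 2 - 1 / 8‖ ≤ 9 / 8 - (2 * K + 1) / X ^ 2} ∩ closedBall a σ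
    with hS
  have hadm : ∀ b ∈ S, Adm K X b := by
    intro b hb
    have h1 : ‖b * X ^ 2 / 2 - 1 / 8‖ ≤ 9 / 8 - (2 * K + 1) / X ^ 2 := hb.1
    have h2 : 0 < 1 / X ^ 2 := by positivity
    rw [add_div] at h1
    unfold Adm
    linarith
  have hT : H.Ctr (fun b => a - b ^ 2 * Lam X b) S (1 / 2) := by
    refine ⟨fun b hb => ⟨?_, ?_⟩, fun b hb b' hb' => ?_⟩
    · have h1 : ‖Lam X b‖ ≤ L := by
        refine lam_le' (hadm b hb) (by linarith) (by linarith) (by linarith) ?_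
        refine le_trans ?_ (re_ge (hadm b hb) (by linarith))
        have h2 : 2 * K / X ^ 2 ≤ 1 := by rw [div_le_one hY0]; exact hKY
        have h3 : 0 ≤ 2 / X ^ 2 := by positivity
        nlinarith
      have h2 := key (‖b‖ * X ^ 2 / 2) (by positivity) (by
        have h3 : ‖b‖ ≤ ‖a‖ + σ := by
          have := mem_closedBall_iff_norm.1 hb.2
          linarith [norm_le_insert' b a]
        rw [norm_w]
        nlinarith)
      have e1 : (a - b ^ 2 * Lam X b) * X ^ 2 / 2 - 1 / 8 =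
          (a * X ^ 2 / 2 - 1 / 8) - b ^ 2 * Lam X b * X ^ 2 / 2 := by ring
      show ‖(a - b ^ 2 * Lam X b) * X ^ 2 / 2 - 1 / 8‖ ≤ _
      rw [e1]
      refine (norm_sub_le _ _).trans (le_trans (add_le_add le_rfl ?_) h2)
      rw [norm_w, norm_mul, norm_pow]
      calc ‖b‖ ^ 2 * ‖Lam X b‖ * X ^ 2 / 2 ≤ ‖b‖ ^ 2 * L * X ^ 2 / 2 := by gcongr
        _ = _ := by field_simp
    · rw [mem_closedBall_iff_norm, sub_sub_cancel_left, norm_neg, norm_mul, norm_pow]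
      have h1 := norm_le (hadm b hb) (by linarith)
      have h2 := lam_le (hadm b hb) (by linarith) (by linarith)
      calc ‖b‖ ^ 2 * ‖Lam X b‖ = (‖b‖ * X ^ 2) ^ 2 * ‖Lam X b‖ / (X ^ 2) ^ 2 := by field_simp
        _ ≤ (5 / 2) ^ 2 * (2 * l + 2) / (X ^ 2) ^ 2 := by gcongr
        _ ≤ σ := by rw [hσ]; gcongr; norm_num
    · rw [sub_sub_sub_cancel_left]
      have := q_lip (hadm b' hb') (hadm b hb) (by linarith) hX2
      rw [norm_sub_rev b' b] at this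
      linarith
  have hcl : IsClosed S := (isClosed_le (by fun_prop) continuous_const).inter isClosed_closedBall
  have hne : a ∈ S := by
    refine ⟨?_, mem_closedBall_self hσ0⟩
    simpa using key 0 le_rfl (by positivity)
  obtain ⟨b, hb, hfix⟩ := hT.exists_fix hcl (by norm_num) (by norm_num) ⟨a, hne⟩
  exact ⟨b, hadm b hb, by rw [hat]; exact (eq_sub_iff_add_eq.1 hfix.symm)⟩

end Crest.Agent.N250.Xi

end
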