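import Crest.Agent.N250.Gi.Defs
import Crest.Agent.N250.H.Fix

/-!
# Row 250 (helper12): scalar facts on `hat X a = a + a² Λ` in the easy regime
-/

set_option autoImplicit false

open Metric Set Filter Topology Complex

noncomputable section

namespace Crest.Agent.N250.Xi

open Gi B1

/-- the correction -/
def qq (X : ℝ) (a : ℂ) : ℂ := a ^ 2 * Lam X a

theorem hat_eq (X : ℝ) (a : ℂ) : hat X a = a + qq X a := rfl

/-- the approximate inverse of `hat X` -/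
def ph (X : ℝ) (a : ℂ) : ℂ := a - qq X a

theorem log_le {X : ℝ} (hX : 1 ≤ X) : 2 * Real.log (X ^ 2) + 2 ≤ 18 * X ^ (1 / 4 : ℝ) := by
  have h1 := Real.log_le_rpow_div (x := X) (ε := 1 / 4) (by linarith) (by norm_num)
  have h2 : 1 ≤ X ^ (1 / 4 : ℝ) := Real.one_le_rpow hX (by norm_num)
  rw [Real.log_pow]
  push_cast
  linarith

theorem et_sub_one {X : ℝ} (hX : 2 ≤ X) {a : ℂ} (ha : ‖a‖ ≤ 1 / X ^ 2) :
    ‖a * ((X : ℂ) ^ 2 - 2) / 2‖ ≤ 1 / 2 := by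
  have h1 : (4 : ℝ) ≤ X ^ 2 := by nlinarith
  have e : ((X : ℂ) ^ 2 - 2) = ((X ^ 2 - 2 : ℝ) : ℂ) := by push_cast; ring
  rw [norm_div, norm_mul, e, norm_real, Real.norm_of_nonneg (by linarith), Complex.norm_two]
  rw [le_div_iff₀ (by positivity)] at ha
  nlinarith [norm_nonneg a]

theorem re_et {X : ℝ} (hX : 2 ≤ X) {a : ℂ} (ha : ‖a‖ ≤ 1 / X ^ 2) : 1 / 2 ≤ (et a X).re := by
  have := (abs_re_le_norm _).trans (et_sub_one hX ha)
  rw [et, add_re, one_re]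
  linarith [(abs_le.1 this).1]

theorem lam_le0 {X : ℝ} (hX : 2 ≤ X) {a : ℂ} (ha : ‖a‖ ≤ 1 / X ^ 2) :
    ‖Lam X a‖ ≤ 18 * X ^ (1 / 4 : ℝ) := by
  have h1 := et_sub_one hX ha
  have h2 := Complex.norm_log_one_add_half_le_self h1
  have h3 : 0 ≤ Real.log (X ^ 2) := Real.log_nonneg (by nlinarith)
  have h4 := log_le (X := X) (by linarith)
  refine (norm_sub_le _ _).trans ?_
  rw [norm_real, Real.norm_of_nonneg h3, et]
  linarith

theorem qq_le {X : ℝ} (hX : 2 ≤ X) {a : ℂ} (ha : ‖a‖ ≤ 1 / X ^ 2) :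
    ‖qq X a‖ ≤ ‖a‖ ^ 2 * (18 * X ^ (1 / 4 : ℝ)) := by
  rw [qq, norm_mul, norm_pow]
  exact mul_le_mul_of_nonneg_left (lam_le0 hX ha) (by positivity)

theorem qq_diff {X : ℝ} (hX : 2 ≤ X) {a : ℂ} (ha : ‖a‖ ≤ 1 / X ^ 2) :
    DifferentiableAt ℂ (qq X) a := by
  have h1 : et a X ∈ slitPlane := Or.inl (by linarith [re_et hX ha])
  have h2 : DifferentiableAt ℂ (fun a => et a X) a := by unfold et; fun_prop
  exact (differentiableAt_id.pow 2).mul ((differentiableAt_const _).sub (h2.clog h1))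

theorem quarter {X : ℝ} (hX : 1 ≤ X) : X ^ (1 / 4 : ℝ) * X ^ (1 / 4 : ℝ) ≤ X := by
  rw [← Real.rpow_add (by linarith)]
  have := Real.rpow_le_rpow_of_exponent_le hX (show (1 / 4 + 1 / 4 : ℝ) ≤ 1 by norm_num)
  rwa [Real.rpow_one] at this

theorem quarter' {X : ℝ} (hX : 1 ≤ X) : X ^ (1 / 4 : ℝ) ≤ X := by
  have := Real.rpow_le_rpow_of_exponent_le hX (show (1 / 4 : ℝ) ≤ 1 by norm_num)
  rwa [Real.rpow_one] at this

theorem qq_lip {X : ℝ} (hX : 2 ≤ X) {a b : ℂ} (ha : ‖a‖ ≤ 1 / (2 * X ^ 2))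
    (hb : ‖b‖ ≤ 1 / (2 * X ^ 2)) :
    ‖qq X a - qq X b‖ ≤ 72 * X ^ (1 / 4 : ℝ) / X ^ 2 * ‖a - b‖ := by
  have hp : 0 < 1 / (2 * X ^ 2) := by positivity
  have e : 1 / X ^ 2 = 1 / (2 * X ^ 2) + 1 / (2 * X ^ 2) := by field_simp; norm_num
  have hs : ∀ w ∈ closedBall (0 : ℂ) (1 / (2 * X ^ 2)), ∀ v ∈ ball w (1 / (2 * X ^ 2)),
      ‖v‖ ≤ 1 / X ^ 2 := fun w hw v hv => by
    have := norm_add_le (v - w) w
    rw [mem_ball, dist_eq_norm] at hv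
    rw [mem_closedBall_zero_iff] at hw
    rw [sub_add_cancel] at this
    linarith
  refine (convex_closedBall (0 : ℂ) (1 / (2 * X ^ 2))).norm_image_sub_le_of_norm_fderiv_le (𝕜 := ℂ)
    (fun w hw => qq_diff hX (hs w hw w (mem_ball_self hp))) (fun w hw => ?_)
    (mem_closedBall_zero_iff.2 hb) (mem_closedBall_zero_iff.2 ha)
  refine (H.fd_le (M := (1 / X ^ 2) ^ 2 * (18 * X ^ (1 / 4 : ℝ))) hp
    (fun v hv => (qq_diff hX (hs w hw v hv)).differentiableWithinAt) fun v hv => ?_).trans_eq ?_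
  · refine (qq_le hX (hs w hw v hv)).trans ?_
    gcongr
    exact hs w hw v hv
  · field_simp; ring

theorem qq_lip' {X : ℝ} (hX : 2 ≤ X) {a b : ℂ} (ha : ‖a‖ ≤ 1 / (2 * X ^ 2))
    (hb : ‖b‖ ≤ 1 / (2 * X ^ 2)) : ‖qq X a - qq X b‖ ≤ 72 / X * ‖a - b‖ := by
  refine (qq_lip hX ha hb).trans (mul_le_mul_of_nonneg_right ?_ (norm_nonneg _))
  rw [div_le_div_iff₀ (by positivity) (by positivity)]
  nlinarith [quarter' (X := X) (by linarith)]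

theorem qq_le' {X : ℝ} (hX : 18 ≤ X) {a : ℂ} (ha : ‖a‖ ≤ 1 / X ^ 2) : ‖qq X a‖ ≤ ‖a‖ := by
  refine (qq_le (by linarith) ha).trans ?_
  have h1 := quarter' (X := X) (by linarith)
  rw [le_div_iff₀ (by positivity)] at ha
  have h2 : ‖a‖ * (18 * X ^ (1 / 4 : ℝ)) ≤ 1 :=
    (mul_le_mul_of_nonneg_left (by nlinarith) (norm_nonneg a)).trans ha
  nlinarith [norm_nonneg a]

theorem ph_le {X : ℝ} (hX : 18 ≤ X) {a : ℂ} (ha : ‖a‖ ≤ 1 / X ^ 2) : ‖ph X a‖ ≤ 2 * ‖a‖ := by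
  have := norm_sub_le a (qq X a)
  linarith [qq_le' hX ha, show ‖ph X a‖ = ‖a - qq X a‖ from rfl]

theorem hat_le {X : ℝ} (hX : 18 ≤ X) {a : ℂ} (ha : ‖a‖ ≤ 1 / X ^ 2) : ‖hat X a‖ ≤ 2 * ‖a‖ := by
  have := norm_add_le a (qq X a)
  linarith [qq_le' hX ha, show ‖hat X a‖ = ‖a + qq X a‖ from rfl]

theorem small_le {X : ℝ} (hX : 18 ≤ X) {a b : ℂ} (ha : ‖a‖ ≤ 1 / (2 * X ^ 2))
    (hb : ‖b‖ ≤ 1 / (2 * X ^ 2)) {c : ℂ} (hc : ‖c‖ ≤ 1 / X ^ 2) (e : ‖a - b‖ = ‖qq X c‖) :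
    ‖qq X a - qq X b‖ ≤ 1296 / X ^ 5 := by
  have h1 := qq_lip (by linarith) ha hb
  have h2 := qq_le (by linarith) hc
  have h3 := quarter (X := X) (by linarith)
  have h4 : 0 ≤ X ^ (1 / 4 : ℝ) := by positivity
  rw [e] at h1
  calc _ ≤ 72 * X ^ (1 / 4 : ℝ) / X ^ 2 * ((1 / X ^ 2) ^ 2 * (18 * X ^ (1 / 4 : ℝ))) :=
        h1.trans (by gcongr; exact h2.trans (by gcongr))
    _ = 1296 * (X ^ (1 / 4 : ℝ) * X ^ (1 / 4 : ℝ)) / X ^ 6 := by field_simp; ring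
    _ ≤ 1296 * X / X ^ 6 := by gcongr
    _ = _ := by field_simp

theorem half_le {X : ℝ} (hX : 18 ≤ X) : 1 / (4 * X ^ 2) ≤ 1 / (2 * X ^ 2) ∧
    1 / (2 * X ^ 2) ≤ 1 / X ^ 2 ∧ 2 * (1 / (4 * X ^ 2)) = 1 / (2 * X ^ 2) := by
  refine ⟨?_, ?_, by field_simp; norm_num⟩ <;>
    exact one_div_le_one_div_of_le (by positivity) (by nlinarith)

theorem hat_ph {X : ℝ} (hX : 18 ≤ X) {a : ℂ} (ha : ‖a‖ ≤ 1 / (4 * X ^ 2)) :
    ‖hat X (ph X a) - a‖ ≤ 1296 / X ^ 5 := by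
  obtain ⟨h1, h2, h3⟩ := half_le hX
  have e : hat X (ph X a) - a = qq X (ph X a) - qq X a := by rw [hat_eq, ph]; ring
  rw [e]
  exact small_le hX ((ph_le hX (by linarith)).trans (by linarith)) (by linarith) (c := a)
    (by linarith) (by rw [ph, sub_sub_cancel_left, norm_neg])

theorem ph_hat {X : ℝ} (hX : 18 ≤ X) {a : ℂ} (ha : ‖a‖ ≤ 1 / (4 * X ^ 2)) :
    ‖ph X (hat X a) - a‖ ≤ 1296 / X ^ 5 := by
  obtain ⟨h1, h2, h3⟩ := half_le hX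
  have e : ph X (hat X a) - a = -(qq X (hat X a) - qq X a) := by rw [ph, hat_eq X a]; ring
  rw [e, norm_neg]
  exact small_le hX ((hat_le hX (by linarith)).trans (by linarith)) (by linarith) (c := a)
    (by linarith) (by rw [hat_eq, add_sub_cancel_left])

theorem hat_low {X : ℝ} (hX : 144 ≤ X) {a b : ℂ} (ha : ‖a‖ ≤ 1 / (2 * X ^ 2))
    (hb : ‖b‖ ≤ 1 / (2 * X ^ 2)) : ‖a - b‖ ≤ 2 * ‖hat X a - hat X b‖ := by
  have h1 := qq_lip' (by linarith) ha hb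
  have h2 : 72 / X ≤ 1 / 2 := by rw [div_le_iff₀ (by linarith)]; linarith
  have h3 := norm_sub_le (hat X a - hat X b) (qq X a - qq X b)
  rw [show hat X a - hat X b - (qq X a - qq X b) = a - b by simp only [hat_eq]; ring] at h3
  nlinarith [norm_nonneg (a - b)]

theorem adm_small {K X : ℝ} (hX : 0 < X) (hK : 4 * K < X ^ 2) {a : ℂ} (ha : ‖a‖ ≤ 1 / X ^ 2) :
    Adm K X a := by
  have h1 := norm_sub_le (a * X ^ 2 / 2) (1 / 8)
  have h2 : ‖a * (X : ℂ) ^ 2 / 2‖ ≤ 1 / 2 := by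
    rw [le_div_iff₀ (by positivity)] at ha
    rw [norm_div, norm_mul, norm_pow, norm_real, Real.norm_of_nonneg hX.le, Complex.norm_two]
    linarith
  have h3 : 2 * K / X ^ 2 < 1 / 2 := by rw [div_lt_iff₀ (by positivity)]; linarith
  have h4 : ‖(1 / 8 : ℂ)‖ = 1 / 8 := by simp
  unfold Adm
  linarith

theorem qq_conj {X : ℝ} (hX : 2 ≤ X) {a : ℂ} (ha : ‖a‖ ≤ 1 / X ^ 2) :
    qq X (starRingEnd ℂ a) = starRingEnd ℂ (qq X a) := by
  have h1 : (et a X).arg ≠ Real.pi := by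
    rw [Ne, arg_eq_pi_iff]
    exact fun h => by linarith [h.1, re_et hX ha]
  have h2 : et (starRingEnd ℂ a) X = starRingEnd ℂ (et a X) := by
    simp [et, map_ofNat]
  simp only [qq, Lam, h2, log_conj _ h1, map_mul, map_pow, map_sub, conj_ofReal]

end Crest.Agent.N250.Xi

end
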