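import Crest.Agent.N250.Gi.Tip
import Crest.Agent.N250.H.Hol

/-!
# Row 250 (helper79): consequences of the expansion of an end map in the renormalised parameter
-/

set_option autoImplicit false
set_option linter.unusedSectionVars false
open Set Filter Topology Metric

noncomputable section

namespace Crest.Agent.N250.Xi.EC

open B1 Gi Gi.T

variable {K K' X : ℝ} {a : ℂ}

theorem adm_iff (hX : 0 < X) :
    Adm K X a ↔ a ∈ ball ((1 / (4 * X ^ 2) : ℝ) : ℂ) ((9 / 8 - 2 * K / X ^ 2) * (2 / X ^ 2)) := by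
  have h0 : (X : ℂ) ≠ 0 := by exact_mod_cast hX.ne'
  have e : a * X ^ 2 / 2 - 1 / 8 = ((X ^ 2 / 2 : ℝ) : ℂ) * (a - ((1 / (4 * X ^ 2) : ℝ) : ℂ)) := by
    push_cast; field_simp; ring
  rw [Adm, e, norm_mul, Complex.norm_real, Real.norm_of_nonneg (by positivity), mem_ball_iff_norm,
    ← lt_sub_iff_add_lt, ← lt_div_iff₀' (by positivity), div_div_eq_mul_div, mul_div_assoc]

theorem adm_eq (K : ℝ) (hX : 0 < X) : {a | Adm K X a} =
    ball ((1 / (4 * X ^ 2) : ℝ) : ℂ) ((9 / 8 - 2 * K / X ^ 2) * (2 / X ^ 2)) :=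
  Set.ext fun _ => adm_iff hX

theorem isOpen_adm (K : ℝ) (hX : 0 < X) : IsOpen {a | Adm K X a} := adm_eq K hX ▸ isOpen_ball

theorem convex_adm (K : ℝ) (hX : 0 < X) : Convex ℝ {a | Adm K X a} :=
  adm_eq K hX ▸ convex_ball _ _

theorem adm_mono (h : Adm K X a) (hK : K' ≤ K) : Adm K' X a := by
  have : 2 * K' / X ^ 2 ≤ 2 * K / X ^ 2 := by gcongr
  unfold Adm at h ⊢
  linarith

theorem adm_ball (h : Adm K X a) (hX : 0 < X) (d : ℝ) :
    ball a (4 * d / X ^ 4) ⊆ {a | Adm (K - d) X a} := by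
  rw [adm_iff hX, mem_ball] at h
  rw [adm_eq _ hX]
  refine ball_subset_ball' ?_
  have : (9 / 8 - 2 * (K - d) / X ^ 2) * (2 / X ^ 2) =
      4 * d / X ^ 4 + (9 / 8 - 2 * K / X ^ 2) * (2 / X ^ 2) := by field_simp; ring
  linarith

theorem adm_small (hX : 0 < X) (hK : 4 * K ≤ X ^ 2) (h : ‖a‖ * X ^ 2 ≤ 1 / 2) : Adm K X a := by
  have h1 := norm_sub_le (a * X ^ 2 / 2) (1 / 8)
  have h2 : ‖a * X ^ 2 / 2‖ = ‖a‖ * X ^ 2 / 2 := by simp
  have h3 : ‖(1 / 8 : ℂ)‖ = 1 / 8 := by simp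
  have h4 : 2 * K / X ^ 2 ≤ 1 / 2 := by rw [div_le_iff₀ (by positivity)]; linarith
  unfold Adm
  linarith

theorem re_small (hX : 2 ≤ X) (h : ‖a‖ * X ^ 2 ≤ 1 / 2) : 3 / 4 ≤ (et a X).re := by
  have x0 : 0 < X ^ 2 := by positivity
  have h1 := Complex.abs_re_le_norm (a * X ^ 2 / 2)
  have h2 : ‖a * X ^ 2 / 2‖ = ‖a‖ * X ^ 2 / 2 := by simp
  have h3 : 2 / X ^ 2 ≤ 1 / 2 := by rw [div_le_iff₀ x0]; nlinarith
  have h5 : 0 < 2 / X ^ 2 := by positivity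
  rw [et_eq (by linarith), Complex.add_re, Complex.re_mul_ofReal, Complex.one_re]
  nlinarith [neg_abs_le (a * X ^ 2 / 2 : ℂ).re, abs_nonneg (a * X ^ 2 / 2 : ℂ).re]

theorem norm_a (h : Adm K X a) (hK : 0 ≤ K) (hX : 0 < X) : ‖a‖ ≤ 5 / 2 / X ^ 2 := by
  have h1 := adm_norm h hK
  have h2 : ‖a * X ^ 2 / 2‖ = ‖a‖ * X ^ 2 / 2 := by simp
  rw [le_div_iff₀ (by positivity)]
  linarith

/-- the margin `1/2` is free -/
theorem adm_re' (h : Adm (K - 1 / 2) X a) (hX : 2 ≤ X) (hK : 4 * K ≤ X ^ 2) :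
    2 * K / X ^ 2 ≤ (et a X).re := by
  have x0 : 0 < X ^ 2 := by positivity
  have h1 := Complex.abs_re_le_norm (a * X ^ 2 / 2 - 1 / 8)
  have h2 : (a * X ^ 2 / 2 - 1 / 8 : ℂ).re = (a * X ^ 2 / 2 : ℂ).re - 1 / 8 := by
    rw [Complex.sub_re]; norm_num
  have h3 : 1 / X ^ 2 ≤ 1 / 4 := by rw [div_le_iff₀ x0]; nlinarith
  have h4 : 2 * K / X ^ 2 ≤ 1 / 2 := by rw [div_le_iff₀ x0]; linarith
  have h5 : 0 < 1 / X ^ 2 := by positivity
  have e1 : 2 * (K - 1 / 2) / X ^ 2 = 2 * K / X ^ 2 - 1 / X ^ 2 := by ring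
  have e2 : 2 / X ^ 2 = 2 * (1 / X ^ 2) := by ring
  rw [et_eq (by linarith), Complex.add_re, Complex.re_mul_ofReal, Complex.one_re, e2]
  unfold Adm at h
  rw [h2] at h1
  rw [e1] at h
  nlinarith [neg_abs_le ((a * X ^ 2 / 2 : ℂ).re - 1 / 8)]

/-! ### the far slope -/

/-- the correction of the far slope of the mode `0` -/
def hN (N : ℕ) (X a : ℂ) : ℂ := HJ.slope N X (et a X) - a * X

theorem KK_ge (N : ℕ) : 7 / 4 ≤ KK N := by
  unfold KK; linarith [Nat.cast_nonneg (α := ℝ) N]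

theorem hj_adm {N : ℕ} (h : Adm (KK N - 1 / 2) X a) (hX : 2 ≤ X) (hK : 4 * KK N ≤ X ^ 2) :
    HJ.Adm N X (et a X) := by
  have h0 := KK_ge N
  have x0 : 0 < X ^ 2 := by positivity
  have h1 := adm_re' h hX hK
  have h2 : 0 < 2 * KK N / X ^ 2 := by positivity
  refine ⟨by exact_mod_cast (by linarith : X ≠ 0), h2.trans_le h1,
    (adm_le h hX (by linarith)).trans (by norm_num), ?_⟩
  have h3 := h1.trans (Complex.re_le_norm _)
  rw [div_le_iff₀ x0, KK] at h3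
  have : ‖HJ.ww X (et a X)‖ = 1 / (2 * ‖et a X‖ * X ^ 2) := by simp [HJ.ww]
  rw [this]
  exact one_div_le_one_div_of_le (by positivity) (by linarith)

theorem hN_le {N : ℕ} (hN0 : HJ.N0 ≤ N) (h : Adm (KK N - 1 / 2) X a) (hX : 2 ≤ X)
    (hK : 4 * KK N ≤ X ^ 2) : ‖hN N X a‖ ≤ 6015 / (X ^ 3 * ‖et a X‖) := by
  have h0 := KK_ge N
  have hA := hj_adm h hX hK
  have hV : 0 < ‖et a X‖ := norm_pos_iff.2 hA.hV0
  have x0 : 0 < X := by linarith
  have h1 := hA.slope_sub hN0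
  have e : (X : ℂ) * hN N X a = (X * HJ.slope N X (et a X) - 2 * (et a X - 1)) - 2 * a := by
    unfold hN et; ring
  have h2 : X * ‖hN N X a‖ ≤ 12000 * ‖HJ.ww X (et a X)‖ + 2 * ‖a‖ := by
    have := norm_sub_le (X * HJ.slope N X (et a X) - 2 * (et a X - 1)) (2 * a)
    rw [← e, norm_mul, norm_mul, Complex.norm_real, Real.norm_of_nonneg x0.le,
      Complex.norm_two] at this
    linarith
  have h3 : ‖HJ.ww X (et a X)‖ * (X ^ 2 * ‖et a X‖) = 1 / 2 := by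
    simp only [HJ.ww, norm_div, norm_mul, norm_pow, Complex.norm_real, norm_one, Complex.norm_two,
      Real.norm_of_nonneg x0.le]
    field_simp
  have h4 : ‖a‖ * X ^ 2 ≤ 5 / 2 := (le_div_iff₀ (by positivity)).1 (norm_a h (by linarith) x0)
  have h5 := adm_le h hX (by linarith)
  rw [le_div_iff₀ (by positivity)]
  have h6 := mul_le_mul_of_nonneg_right h2 (show 0 ≤ X ^ 2 * ‖et a X‖ by positivity)
  have h7 : ‖a‖ * X ^ 2 * ‖et a X‖ ≤ 5 / 2 * (9 / 4) := by gcongr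
  nlinarith

theorem hN_diffAt {N : ℕ} (hN0 : HJ.N0 ≤ N) {X a : ℂ} (h : HJ.Adm N X (et a X)) :
    DifferentiableAt ℂ (fun p : ℂ × ℂ => hN N p.1 p.2) (X, a) := by
  have h1 : DifferentiableAt ℂ (fun p : ℂ × ℂ => ((p.1, et p.2 p.1) : ℂ × ℂ)) (X, a) := by
    unfold et; fun_prop
  exact ((h.differentiableAt_slope hN0).comp (X, a) h1).fun_sub
    (differentiableAt_snd.fun_mul differentiableAt_fst)

theorem hN_diffOn {N : ℕ} (hN0 : HJ.N0 ≤ N) (hX : 2 ≤ X) (hK : 4 * KK N ≤ X ^ 2) :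
    DifferentiableOn ℂ (hN N X) {a | Adm (KK N - 1 / 2) X a} := fun a ha =>
  ((hN_diffAt hN0 (hj_adm ha hX hK)).comp a
    (f := fun a : ℂ => (((X : ℂ), a) : ℂ × ℂ)) (by fun_prop)).differentiableWithinAt

/-! ### the renormalised parameter -/

/-- the derivative of `hat X` -/
def dhat (X : ℝ) (a : ℂ) : ℂ := 1 + 2 * a * Lam X a - a ^ 2 * ((X ^ 2 - 2) / 2 / et a X)

theorem hasDerivAt_hat (h : 0 < (et a X).re) : HasDerivAt (hat X) (dhat X a) a := by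
  have h1 : HasDerivAt (fun a : ℂ => et a X) (((X : ℂ) ^ 2 - 2) / 2) a := by
    unfold et
    simpa using (((hasDerivAt_id a).mul_const ((X : ℂ) ^ 2 - 2)).div_const 2).const_add 1
  have h2 := (h1.clog (Or.inl h)).const_sub ((Real.log (X ^ 2) : ℝ) : ℂ)
  have h3 := (hasDerivAt_id' a).fun_add ((hasDerivAt_pow 2 a).fun_mul h2)
  refine h3.congr_deriv ?_
  simp only [dhat, Lam]
  push_cast
  ring

theorem lam_le (h : Adm K X a) (hX : 2 ≤ X) (hK : 2 * K ≤ X ^ 2) (hK1 : 1 ≤ K) :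
    ‖a‖ * ‖Lam X a‖ ≤ 15 / X := by
  have x0 : 0 < X := by linarith
  have h1 := adm_lam h hX hK hK1
  have h2 : Real.log (X ^ 2) ≤ 2 * X := by
    rw [Real.log_pow]; push_cast; linarith [Real.log_le_sub_one_of_pos x0]
  have h3 : ‖Lam X a‖ ≤ 6 * X := by linarith [Real.pi_le_four]
  refine (mul_le_mul (norm_a h (by linarith) x0) h3 (norm_nonneg _) (by positivity)).trans
    (le_of_eq ?_)
  field_simp
  norm_num

theorem hat_le (h : Adm K X a) (hX : 15 ≤ X) (hK : 2 * K ≤ X ^ 2) (hK1 : 1 ≤ K) :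
    ‖hat X a‖ ≤ 5 / X ^ 2 := by
  have x0 : 0 < X := by linarith
  have h1 := (lam_le h (by linarith) hK hK1).trans ((div_le_one x0).2 hX)
  have h2 := norm_a h (by linarith) x0
  have h3 := norm_add_le a (a ^ 2 * Lam X a)
  rw [norm_mul, norm_pow] at h3
  have h4 : 5 / X ^ 2 = 2 * (5 / 2 / X ^ 2) := by ring
  unfold hat
  nlinarith [norm_nonneg a]

theorem dhat_le (h : Adm K X a) (hX : 2 ≤ X) (hK : 2 * K ≤ X ^ 2) (hK1 : 1 ≤ K) :
    ‖dhat X a - 1‖ ≤ 30 / X + 2 / K := by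
  have x0 : 0 < X := by linarith
  have h1 := lam_le h hX hK hK1
  have h2 := norm_a h (by linarith) x0
  have h3 := (adm_re h hX hK).trans (Complex.re_le_norm _)
  have h4 : ‖((X : ℂ) ^ 2 - 2) / 2‖ ≤ X ^ 2 / 2 := by
    rw [show ((X : ℂ) ^ 2 - 2) / 2 = (((X ^ 2 - 2) / 2 : ℝ) : ℂ) by push_cast; ring,
      Complex.norm_real, Real.norm_of_nonneg (by nlinarith)]
    linarith
  have h5 : ‖a ^ 2 * (((X : ℂ) ^ 2 - 2) / 2 / et a X)‖ ≤
      (5 / 2 / X ^ 2) ^ 2 * (X ^ 2 / 2 / (2 * K / X ^ 2)) := by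
    rw [norm_mul, norm_pow, norm_div]
    gcongr
  have h6 : (5 / 2 / X ^ 2) ^ 2 * (X ^ 2 / 2 / (2 * K / X ^ 2)) = 25 / 16 / K := by
    field_simp; norm_num
  have h7 : 25 / 16 / K ≤ 2 / K := by gcongr; norm_num
  rw [show dhat X a - 1 = 2 * a * Lam X a - a ^ 2 * (((X : ℂ) ^ 2 - 2) / 2 / et a X) by
    unfold dhat; ring]
  refine (norm_sub_le _ _).trans ?_
  rw [norm_mul, norm_mul, Complex.norm_two, show 30 / X = 2 * (15 / X) by ring]
  linarith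

theorem hat_zero (X : ℝ) : hat X 0 = 0 := by simp [hat]

theorem dhat_zero (X : ℝ) : dhat X 0 = 1 := by simp [dhat]

/-- the real value of `hat` at real points -/
def hatR (X s : ℝ) : ℝ := s + s ^ 2 * (Real.log (X ^ 2) - Real.log (1 + s * (X ^ 2 - 2) / 2))

theorem hat_real {s : ℝ} (h : 0 < (et s X).re) : hat X s = hatR X s := by
  have e : et s X = ((1 + s * (X ^ 2 - 2) / 2 : ℝ) : ℂ) := by unfold et; push_cast; ring
  rw [e, Complex.ofReal_re] at h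
  rw [hat, Lam, e, ← Complex.ofReal_log h.le, hatR]
  push_cast
  ring

/-! ### consequences of the expansion -/

variable {B W V : Type*} [NormedAddCommGroup B] [NormedSpace ℂ B] [NormedAddCommGroup W]
  [NormedSpace ℂ W]

/-- the expansion of an end map (`h` already substituted) -/
structure Ap (e : ℝ → ℂ → B → W) (E0 E1 E2 : B → W) (U : Set B) (K M CD C k X1 : ℝ) : Prop where
  k_pos : 0 < k
  bd : ∀ b ∈ U, ‖E1 b‖ ≤ M ∧ ‖E2 b‖ ≤ M
  est : ∀ X, X1 ≤ X → ∀ a, Adm K X a → ∀ b ∈ U,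
    ‖e X a b - (E0 b + hat X a • E1 b + hat X a ^ 2 • E2 b)‖ ≤
      CD / (X ^ 6 * (et a X).re) + C * X ^ (-(4 + k))

variable {e : ℝ → ℂ → B → W} {E0 E1 E2 : B → W} {U : Set B} {M CD C k X1 : ℝ}

theorem Ap.mono (h : Ap e E0 E1 E2 U K M CD C k X1) (hK : K ≤ K') :
    Ap e E0 E1 E2 U K' M CD C k X1 :=
  ⟨h.k_pos, h.bd, fun X hX a ha => h.est X hX a (adm_mono ha hK)⟩

theorem rpow_eq (hX : 0 < X) (k : ℝ) : X ^ (-(4 + k)) = X ^ (-k) / X ^ 4 := by
  rw [show -(4 + k) = -k - (4 : ℕ) by push_cast; ring, Real.rpow_sub_natCast hX.ne']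

/-- the error in units of `X⁻⁴` -/
theorem Ap.err (h : Ap e E0 E1 E2 U K M CD C k X1) (hX : X1 ≤ X) (h0 : 0 < X) (ha : Adm K X a)
    {b : B} (hb : b ∈ U) {m : ℝ} (hm : 0 < m) (hre : m / X ^ 2 ≤ (et a X).re) :
    ‖e X a b - (E0 b + hat X a • E1 b + hat X a ^ 2 • E2 b)‖ ≤
      (|CD| / m + |C| * X ^ (-k)) / X ^ 4 := by
  refine (h.est X hX a ha b hb).trans ?_
  have h1 : 0 < m / X ^ 2 := by positivity
  have h2 : CD / (X ^ 6 * (et a X).re) ≤ |CD| / (X ^ 6 * (m / X ^ 2)) :=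
    (div_le_div_of_nonneg_right (le_abs_self _) (mul_pos (by positivity) (h1.trans_le hre)).le).trans
      (by gcongr)
  have h3 : C * X ^ (-(4 + k)) ≤ |C| * X ^ (-(4 + k)) := by gcongr; exact le_abs_self _
  rw [rpow_eq h0] at h3 ⊢
  refine (add_le_add h2 h3).trans (le_of_eq ?_)
  field_simp

theorem t_rpow (hk : 0 < k) (c : ℝ) : Tendsto (fun X : ℝ => c * X ^ (-k)) atTop (𝓝 0) := by
  simpa using (tendsto_rpow_neg_atTop hk).const_mul c

theorem t_pow (c : ℝ) {n : ℕ} (hn : n ≠ 0) : Tendsto (fun X : ℝ => c / X ^ n) atTop (𝓝 0) :=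
  tendsto_const_nhds.div_atTop (tendsto_pow_atTop hn)

theorem ev_big (c X1 : ℝ) : ∀ᶠ X : ℝ in atTop, X1 ≤ X ∧ 15 ≤ X ∧ c ≤ X ^ 2 :=
  (eventually_ge_atTop X1).and ((eventually_ge_atTop 15).and
    ((tendsto_pow_atTop two_ne_zero).eventually_ge_atTop c))

/-- `e X a b → E0 b` uniformly -/
theorem Ap.lim0 (h : Ap e E0 E1 E2 U K M CD C k X1) (hK : 1 ≤ K) {t : ℝ} (ht : 0 < t) :
    ∃ X0, ∀ X, X0 ≤ X → ∀ a, Adm K X a → ∀ b ∈ U, ‖e X a b - E0 b‖ ≤ t := by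
  have t1 : Tendsto (fun X : ℝ => (|CD| / (2 * K) + |C| * X ^ (-k)) + 10 * |M| / X ^ 2) atTop
      (𝓝 (|CD| / (2 * K) + 0 + 0)) :=
    (tendsto_const_nhds.add (t_rpow h.k_pos _)).add (t_pow _ two_ne_zero)
  have t2 : Tendsto (fun X : ℝ => (|CD| / (2 * K) + |C| * X ^ (-k)) * (1 / X ^ 4) +
      10 * |M| / X ^ 2) atTop (𝓝 ((|CD| / (2 * K) + 0) * 0 + 0)) :=
    ((tendsto_const_nhds.add (t_rpow h.k_pos _)).mul (t_pow 1 (by norm_num))).add
      (t_pow _ two_ne_zero)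
  rw [mul_zero, add_zero] at t2
  refine eventually_atTop.1 ?_
  filter_upwards [ev_big (2 * K) X1, t2.eventually (ge_mem_nhds ht)] with X hX h1 a ha b hb
  obtain ⟨x1, x2, x3⟩ := hX
  have h2 := h.err x1 (by linarith) ha hb (by positivity) (adm_re ha (by linarith) x3)
  have h3 := hat_le ha x2 x3 hK
  have h4 : 5 / X ^ 2 ≤ 1 := by rw [div_le_one (by positivity)]; nlinarith
  have h5 : ‖hat X a • E1 b‖ ≤ 5 / X ^ 2 * |M| := by
    rw [norm_smul]
    exact mul_le_mul h3 ((h.bd b hb).1.trans (le_abs_self _)) (norm_nonneg _) (by positivity)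
  have h6 : ‖hat X a ^ 2 • E2 b‖ ≤ 5 / X ^ 2 * |M| := by
    rw [norm_smul, norm_pow]
    exact mul_le_mul (by nlinarith [norm_nonneg (hat X a)]) ((h.bd b hb).2.trans (le_abs_self _))
      (norm_nonneg _) (by positivity)
  have h7 : e X a b - E0 b = e X a b - (E0 b + hat X a • E1 b + hat X a ^ 2 • E2 b) +
      hat X a • E1 b + hat X a ^ 2 • E2 b := by abel
  rw [h7]
  refine norm_add₃_le.trans (le_trans ?_ h1)
  rw [mul_one_div, show 10 * |M| / X ^ 2 = 5 / X ^ 2 * |M| + 5 / X ^ 2 * |M| by ring]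
  linarith

/-- (E2), real cut -/
theorem e2 {P0 : B →L[ℂ] W} (hP : HasFDerivAt E0 P0 0) (h0 : E0 0 = 0) {t : ℝ} (ht : 0 < t) :
    ∃ r, 0 < r ∧ ∀ (e : ℝ → ℂ → B → W) (E1 E2 : B → W) (U : Set B) (K M CD C k X1 : ℝ), 1 ≤ K →
      Ap e E0 E1 E2 U K M CD C k X1 → ∀ t', 0 < t' → ∃ X0, ∀ X, X0 ≤ X → ∀ a, Adm K X a →
        ∀ b ∈ U, ‖b‖ < r → ‖e X a b - P0 b‖ ≤ t * ‖b‖ + t' := by
  obtain ⟨r, hr, h1⟩ := Metric.eventually_nhds_iff_ball.1
    ((hasFDerivAt_iff_isLittleO.1 hP).def ht)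
  refine ⟨r, hr, fun e E1 E2 U K M CD C k X1 hK h t' ht' => ?_⟩
  obtain ⟨X0, h2⟩ := h.lim0 hK ht'
  refine ⟨X0, fun X hX a ha b hb hbr => ?_⟩
  have h3 := h1 b (mem_ball_zero_iff.2 hbr)
  rw [h0, sub_zero, sub_zero] at h3
  linarith [h2 X hX a ha b hb, norm_sub_le_norm_sub_add_norm_sub (e X a b) (E0 b) (P0 b)]

/-- Cauchy estimate for the error -/
theorem der_sub {f : ℂ → W} {w0 w1 w2 : W} {ρ D : ℝ} (hρ : 0 < ρ)
    (hf : DifferentiableOn ℂ f (ball a ρ)) (hre : ∀ z ∈ ball a ρ, 0 < (et z X).re)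
    (hD : ∀ z ∈ ball a ρ, ‖f z - (w0 + hat X z • w1 + hat X z ^ 2 • w2)‖ ≤ D) :
    ‖deriv f a - w1‖ ≤ 2 * D / ρ + ‖dhat X a - 1‖ * ‖w1‖ + 2 * ‖hat X a‖ * ‖dhat X a‖ * ‖w2‖ := by
  have hg : ∀ z ∈ ball a ρ, HasDerivAt (fun z => w0 + hat X z • w1 + hat X z ^ 2 • w2)
      (dhat X z • w1 + (2 * hat X z * dhat X z) • w2) z := fun z hz => by
    have h1 := hasDerivAt_hat (hre z hz)
    have h2 := (h1.fun_pow 2).smul_const w2
    simp only [Nat.cast_ofNat, Nat.add_one_sub_one, pow_one] at h2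
    exact ((h1.smul_const w1).const_add w0).fun_add h2
  have h1 := H.fd_le hρ (hf.fun_sub fun z hz => (hg z hz).differentiableAt.differentiableWithinAt) hD
  have h2 := ((hf.differentiableAt (ball_mem_nhds a hρ)).hasDerivAt).fun_sub
    (hg a (mem_ball_self hρ))
  rw [← norm_deriv_eq_norm_fderiv, h2.deriv] at h1
  have h3 : deriv f a - w1 = deriv f a - (dhat X a • w1 + (2 * hat X a * dhat X a) • w2) +
      (dhat X a - 1) • w1 + (2 * hat X a * dhat X a) • w2 := by rw [sub_smul, one_smul]; abel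
  rw [h3]
  refine norm_add₃_le.trans ?_
  simp only [norm_smul, norm_mul, Complex.norm_two]
  linarith

/-- the derivative in `a` on the whole admissible disc -/
theorem Ap.der (h : Ap e E0 E1 E2 U (K - 1 / 2) M CD C k X1) (hK : 2 ≤ K)
    (hd : ∀ X, X1 ≤ X → ∀ b ∈ U, DifferentiableOn ℂ (fun a => e X a b) {a | Adm (K - 1 / 2) X a})
    {t : ℝ} (ht : 0 < t) : ∃ X0, ∀ X, X0 ≤ X → ∀ a, Adm K X a → ∀ b ∈ U,
      ‖deriv (fun a => e X a b) a - E1 b‖ ≤ (|CD| + 2 * |M|) / K + t := by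
  have t1 : Tendsto (fun X : ℝ => |C| * X ^ (-k) + 30 * |M| / X ^ 1 + 40 * |M| / X ^ 2) atTop
      (𝓝 (0 + 0 + 0)) :=
    ((t_rpow h.k_pos _).add (t_pow _ one_ne_zero)).add (t_pow _ two_ne_zero)
  simp only [add_zero, pow_one] at t1
  refine eventually_atTop.1 ?_
  filter_upwards [ev_big (4 * K) X1, t1.eventually (ge_mem_nhds ht)] with X hX h1 a ha b hb
  obtain ⟨x1, x2, x3⟩ := hX
  have x0 : 0 < X := by linarith
  have hs := adm_ball ha x0 (1 / 2)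
  have hre := fun z (hz : z ∈ ball a (4 * (1 / 2) / X ^ 4)) => adm_re' (hs hz) (by linarith) x3
  have h2 := der_sub (by positivity) ((hd X x1 b hb).mono hs)
    (fun z hz => lt_of_lt_of_le (by positivity) (hre z hz))
    fun z hz => h.err x1 x0 (hs hz) hb (by positivity) (hre z hz)
  have h3 := hat_le ha x2 (by linarith) (by linarith)
  have h4 := dhat_le ha (by linarith) (by linarith) (by linarith)
  have h5 : ‖dhat X a‖ ≤ 4 := by
    have a1 : 30 / X ≤ 2 := by rw [div_le_iff₀ x0]; linarith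
    have a2 : 2 / K ≤ 1 := by rw [div_le_one (by linarith)]; exact hK
    have := norm_add_le (dhat X a - 1) 1
    rw [sub_add_cancel, norm_one] at this
    linarith
  have h6 := (h.bd b hb).1.trans (le_abs_self M)
  have h7 := (h.bd b hb).2.trans (le_abs_self M)
  have h8 : ‖dhat X a - 1‖ * ‖E1 b‖ ≤ (30 / X + 2 / K) * |M| := by gcongr
  have h9 : 2 * ‖hat X a‖ * ‖dhat X a‖ * ‖E2 b‖ ≤ 2 * (5 / X ^ 2) * 4 * |M| := by gcongr
  have e1 : 2 * ((|CD| / (2 * K) + |C| * X ^ (-k)) / X ^ 4) / (4 * (1 / 2) / X ^ 4) =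
      |CD| / (2 * K) + |C| * X ^ (-k) := by field_simp; ring
  have e2 : |CD| / (2 * K) ≤ |CD| / K := by gcongr; linarith
  have e3 : (|CD| + 2 * |M|) / K + (|C| * X ^ (-k) + 30 * |M| / X + 40 * |M| / X ^ 2) =
      |CD| / K + |C| * X ^ (-k) + (30 / X + 2 / K) * |M| + 2 * (5 / X ^ 2) * 4 * |M| := by ring
  linarith

/-- (E3), real cut -/
theorem e3 (h1 : ContinuousAt E1 0) (M CD : ℝ) {t : ℝ} (ht : 0 < t) :
    ∃ r K0 : ℝ, 0 < r ∧ ∀ K, K0 ≤ K → ∀ (e : ℝ → ℂ → B → W) (E0 E2 : B → W) (U : Set B)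
      (C k X1 : ℝ), Ap e E0 E1 E2 U (K - 1 / 2) M CD C k X1 →
      (∀ X, X1 ≤ X → ∀ b ∈ U, DifferentiableOn ℂ (fun a => e X a b) {a | Adm (K - 1 / 2) X a}) →
      ∃ X0, ∀ X, X0 ≤ X → ∀ a a', Adm K X a → Adm K X a' → ∀ b ∈ U, ‖b‖ < r →
        ‖e X a b - e X a' b - (a - a') • E1 0‖ ≤ t * ‖a - a'‖ := by
  obtain ⟨r, hr, h2⟩ := Metric.continuousAt_iff.1 h1 (t / 3) (by positivity)
  refine ⟨r, 2 + (|CD| + 2 * |M|) / (t / 3), hr, fun K hK e E0 E2 U C k X1 h hd => ?_⟩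
  have k0 : 0 ≤ (|CD| + 2 * |M|) / (t / 3) := by positivity
  have k1 : (|CD| + 2 * |M|) / K ≤ t / 3 := by
    rw [div_le_comm₀ (by linarith) (by positivity)]; linarith
  obtain ⟨X0, h3⟩ := h.der (by linarith) hd (show 0 < t / 3 by positivity)
  refine ⟨max X0 (max X1 1), fun X hX a a' ha ha' b hb hbr => ?_⟩
  rw [max_le_iff, max_le_iff] at hX
  have x0 : 0 < X := by linarith [hX.2.2]
  have h4 : ∀ z ∈ {z | Adm K X z}, HasDerivWithinAt (fun z => e X z b - z • E1 0)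
      (deriv (fun a => e X a b) z - E1 0) {z | Adm K X z} z := fun z hz => by
    have := ((hd X hX.2.1 b hb).differentiableAt ((isOpen_adm _ x0).mem_nhds
      (adm_mono hz (by linarith)))).hasDerivAt.fun_sub ((hasDerivAt_id' z).smul_const (E1 0))
    rw [one_smul] at this
    exact this.hasDerivWithinAt
  have h5 := (convex_adm K x0).norm_image_sub_le_of_norm_hasDerivWithin_le h4 (C := t)
    (fun z hz => by
      have a1 := h3 X hX.1 z hz b hb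
      have a2 := h2 (show dist b 0 < r by simpa using hbr)
      rw [dist_eq_norm] at a2
      linarith [norm_sub_le_norm_sub_add_norm_sub (deriv (fun a => e X a b) z) (E1 b) (E1 0)])
    ha' ha
  rwa [show e X a b - a • E1 0 - (e X a' b - a' • E1 0) = e X a b - e X a' b - (a - a') • E1 0 by
    rw [sub_smul]; abel] at h5

/-- away from the tip the error is `o(X⁻⁴)` -/
theorem Ap.err0 (h : Ap e E0 E1 E2 U K M CD C k X1) {t : ℝ} (ht : 0 < t) :
    ∀ᶠ X in atTop, ∀ a, ‖a‖ * X ^ 2 ≤ 1 / 2 → ∀ b ∈ U,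
      ‖e X a b - (E0 b + hat X a • E1 b + hat X a ^ 2 • E2 b)‖ ≤ t / X ^ 4 := by
  have t1 : Tendsto (fun X : ℝ => |CD| * (4 / 3) / X ^ 2 + |C| * X ^ (-k)) atTop (𝓝 (0 + 0)) :=
    (t_pow _ two_ne_zero).add (t_rpow h.k_pos _)
  rw [add_zero] at t1
  filter_upwards [ev_big (4 * K) X1, t1.eventually (ge_mem_nhds ht)] with X hX h1 a ha b hb
  obtain ⟨x1, x2, x3⟩ := hX
  have x0 : 0 < X := by linarith
  refine (h.err x1 x0 (adm_small x0 x3 ha) hb (m := 3 / 4 * X ^ 2) (by positivity) ?_).trans ?_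
  · rw [mul_div_cancel_right₀ _ (by positivity)]; exact re_small (by linarith) ha
  · rw [show |CD| / (3 / 4 * X ^ 2) = |CD| * (4 / 3) / X ^ 2 by field_simp]
    gcongr

/-- `∂_a e X 0 b → E1 b` uniformly -/
theorem Ap.lim1 (h : Ap e E0 E1 E2 U K M CD C k X1)
    (hd : ∀ X, X1 ≤ X → ∀ b ∈ U, DifferentiableOn ℂ (fun a => e X a b) {a | Adm K X a})
    {t : ℝ} (ht : 0 < t) : ∃ X0, ∀ X, X0 ≤ X → ∀ b ∈ U,
      ‖deriv (fun a => e X a b) 0 - E1 b‖ ≤ t := by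
  refine eventually_atTop.1 ?_
  filter_upwards [ev_big (4 * K) X1, h.err0 (show 0 < t / 4 by positivity),
    eventually_ge_atTop (16 : ℝ)] with X hX h1 h16 b hb
  obtain ⟨x1, x2, x3⟩ := hX
  have x0 : 0 < X := by linarith
  have hs : ∀ z ∈ ball (0 : ℂ) (1 / 2 / X ^ 2), ‖z‖ * X ^ 2 ≤ 1 / 2 := fun z hz =>
    (le_div_iff₀ (by positivity)).1 (mem_ball_zero_iff.1 hz).le
  have h2 := der_sub (by positivity) ((hd X x1 b hb).mono fun z hz => adm_small x0 x3 (hs z hz))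
    (fun z hz => lt_of_lt_of_le (by norm_num) (re_small (by linarith) (hs z hz)))
    fun z hz => h1 z (hs z hz) b hb
  rw [hat_zero, dhat_zero, sub_self, norm_zero, zero_mul, mul_zero, zero_mul, zero_mul, add_zero,
    add_zero] at h2
  refine h2.trans ?_
  rw [show 2 * (t / 4 / X ^ 4) / (1 / 2 / X ^ 2) = t / X ^ 2 by field_simp; norm_num]
  exact div_le_self ht.le (by nlinarith)

theorem hatR_mem (hX : 30 ≤ X) :
    1 / 8 / X ^ 2 ≤ hatR X (1 / 4 / X ^ 2) ∧ hatR X (1 / 4 / X ^ 2) ≤ 3 / 8 / X ^ 2 := by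
  have x0 : 0 < X := by linarith
  set s : ℝ := 1 / 4 / X ^ 2 with hs
  have s0 : 0 < s := by positivity
  have hn : ‖(s : ℂ)‖ = s := by rw [Complex.norm_real, Real.norm_of_nonneg s0.le]
  have h1 : ‖(s : ℂ)‖ * X ^ 2 ≤ 1 / 2 := by
    rw [hn, hs, div_mul_cancel₀ _ (by positivity)]; norm_num
  have h2 := lam_le (adm_small (K := 1) x0 (by nlinarith) h1) (by linarith) (by nlinarith) le_rfl
  have h3 : 15 / X ≤ 1 / 2 := by rw [div_le_iff₀ x0]; linarith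
  have h4 : ‖hat X s - s‖ ≤ s / 2 := by
    rw [hat, add_sub_cancel_left, norm_mul, norm_pow]
    rw [hn] at h2 ⊢
    nlinarith
  rw [hat_real (lt_of_lt_of_le (by norm_num) (re_small (by linarith) h1)), ← Complex.ofReal_sub,
    Complex.norm_real, Real.norm_eq_abs, abs_le] at h4
  have e1 : 1 / 8 / X ^ 2 = s / 2 := by rw [hs]; ring
  have e2 : 3 / 8 / X ^ 2 = 3 * s / 2 := by rw [hs]; ring
  constructor <;> linarith [h4.1, h4.2]

variable [NormedAddCommGroup V] [NormedSpace ℝ V]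

/-- real linear relations pass to the coefficients -/
theorem Ap.rel (h : Ap e E0 E1 E2 U K M CD C k X1) (T T' : W →L[ℝ] V) {b b' : B} (hb : b ∈ U)
    (hb' : b' ∈ U) (hT : ∀ᶠ X : ℝ in atTop, ∀ s : ℝ, |s| * X ^ 2 ≤ 1 / 2 →
      T (e X s b) = T' (e X s b')) :
    T (E0 b) = T' (E0 b') ∧ T (E1 b) = T' (E1 b') ∧ T (E2 b) = T' (E2 b') := by
  set c := ‖T‖ + ‖T'‖ + 1 with hc
  have c0 : 0 < c := by positivity
  set d0 := T (E0 b) - T' (E0 b')
  set d1 := T (E1 b) - T' (E1 b')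
  set d2 := T (E2 b) - T' (E2 b')
  have key : ∀ t, 0 < t → ∀ᶠ X : ℝ in atTop, 30 ≤ X ∧ ∀ s : ℝ, |s| * X ^ 2 ≤ 1 / 2 →
      ‖d0 + hatR X s • d1 + hatR X s ^ 2 • d2‖ ≤ t / X ^ 4 := fun t ht => by
    filter_upwards [h.err0 (show 0 < t / c by positivity), hT, eventually_ge_atTop 30]
      with X h1 h2 h3
    refine ⟨h3, fun s hs => ?_⟩
    have hs' : ‖(s : ℂ)‖ * X ^ 2 ≤ 1 / 2 := by simpa using hs
    have a1 := T.le_opNorm_of_le (h1 s hs' b hb)
    have a2 := T'.le_opNorm_of_le (h1 s hs' b' hb')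
    rw [hat_real (lt_of_lt_of_le (by norm_num) (re_small (by linarith) hs')),
      ← Complex.ofReal_pow, Complex.coe_smul, Complex.coe_smul] at a1 a2
    simp only [map_sub, map_add, map_smul] at a1 a2
    rw [h2 s hs] at a1
    have a3 := norm_sub_le (T' (e X s b') - (T' (E0 b') + hatR X s • T' (E1 b') +
      hatR X s ^ 2 • T' (E2 b'))) (T' (e X s b') - (T (E0 b) + hatR X s • T (E1 b) +
      hatR X s ^ 2 • T (E2 b)))
    have e1 : d0 + hatR X s • d1 + hatR X s ^ 2 • d2 = T' (e X s b') - (T' (E0 b') +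
        hatR X s • T' (E1 b') + hatR X s ^ 2 • T' (E2 b')) - (T' (e X s b') - (T (E0 b) +
        hatR X s • T (E1 b) + hatR X s ^ 2 • T (E2 b))) := by
      simp only [d0, d1, d2, smul_sub]; abel
    have e2 : t / X ^ 4 = c * (t / c / X ^ 4) := by field_simp
    have e3 : 0 ≤ t / c / X ^ 4 := by positivity
    rw [e1, e2, hc]
    nlinarith
  have hs : ∀ X : ℝ, 30 ≤ X → |1 / 4 / X ^ 2| * X ^ 2 ≤ 1 / 2 := fun X hX => by
    rw [abs_of_pos (by positivity), div_mul_cancel₀ _ (by positivity)]; norm_num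
  have z0 : d0 = 0 := by
    refine norm_le_zero_iff.1 (le_of_forall_pos_le_add fun t ht => ?_)
    obtain ⟨X, h1, h2⟩ := (key t ht).exists
    have := h2 0 (by simp)
    simp only [hatR, ne_eq, OfNat.ofNat_ne_zero, not_false_eq_true, zero_pow, zero_mul, add_zero,
      zero_smul] at this
    rw [zero_add]
    exact this.trans (div_le_self ht.le (one_le_pow₀ (by linarith)))
  have z1 : d1 = 0 := by
    refine norm_le_zero_iff.1 (ge_of_tendsto (t_pow (8 + ‖d2‖) two_ne_zero) ?_)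
    filter_upwards [key 1 one_pos] with X ⟨h1, h2⟩
    have h3 := h2 _ (hs X h1)
    obtain ⟨h4, h5⟩ := hatR_mem h1
    set σ := hatR X (1 / 4 / X ^ 2)
    have x0 : 0 < X ^ 2 := by positivity
    have s0 : 0 < σ := lt_of_lt_of_le (by positivity) h4
    have h6 := norm_sub_le (σ • d1 + σ ^ 2 • d2) (σ ^ 2 • d2)
    rw [add_sub_cancel_right, norm_smul, norm_smul, Real.norm_of_nonneg s0.le,
      Real.norm_of_nonneg (sq_nonneg σ)] at h6
    rw [z0, zero_add] at h3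
    have h7 : 1 / X ^ 4 ≤ σ * (8 / X ^ 2) :=
      le_trans (le_of_eq (by field_simp)) (mul_le_mul_of_nonneg_right h4 (by positivity))
    have h8 : σ * ‖d2‖ ≤ ‖d2‖ / X ^ 2 := by
      rw [div_eq_inv_mul]
      refine mul_le_mul_of_nonneg_right (h5.trans ?_) (norm_nonneg _)
      rw [inv_eq_one_div]; gcongr; norm_num
    refine le_of_mul_le_mul_left ?_ s0
    rw [add_div, mul_add]
    nlinarith [mul_le_mul_of_nonneg_left h8 s0.le]
  have z2 : d2 = 0 := by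
    refine norm_le_zero_iff.1 (le_of_forall_pos_le_add fun t ht => ?_)
    obtain ⟨X, h1, h2⟩ := (key (t / 64) (by positivity)).exists
    have h3 := h2 _ (hs X h1)
    have h4 := (hatR_mem h1).1
    rw [z0, z1, smul_zero, zero_add, zero_add, norm_smul, Real.norm_of_nonneg (sq_nonneg _)] at h3
    have h5 : (1 / 8 / X ^ 2) ^ 2 * ‖d2‖ ≤ hatR X (1 / 4 / X ^ 2) ^ 2 * ‖d2‖ := by gcongr
    have h6 : t / 64 / X ^ 4 = (1 / 8 / X ^ 2) ^ 2 * t := by field_simp; norm_num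
    rw [zero_add]
    exact le_of_mul_le_mul_left (by linarith) (show 0 < (1 / 8 / X ^ 2) ^ 2 by positivity)
  exact ⟨sub_eq_zero.1 z0, sub_eq_zero.1 z1, sub_eq_zero.1 z2⟩

/-- reality of the coefficients -/
theorem Ap.real (h : Ap e E0 E1 E2 U K M CD C k X1) (κ : W →L[ℝ] W) {b b' : B} (hb : b ∈ U)
    (hb' : b' ∈ U) (hT : ∀ᶠ X : ℝ in atTop, ∀ s : ℝ, |s| * X ^ 2 ≤ 1 / 2 →
      e X s b' = κ (e X s b)) :
    E0 b' = κ (E0 b) ∧ E1 b' = κ (E1 b) ∧ E2 b' = κ (E2 b) :=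
  h.rel (ContinuousLinearMap.id ℝ W) κ hb' hb hT

end Crest.Agent.N250.Xi.EC

end
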