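import Crest.Agent.N250.Xi.Defs

/-!
# Row 250 (helper12): `XiS` from its four parts
-/

set_option autoImplicit false
open Set Filter Topology Metric

noncomputable section

namespace Crest.Agent.N250.Xi

open Crest.Agent.N250.B2 (aa ofR)
open Crest.Agent.N250.Gi (KK hat TL DX Fx)
open R0

theorem adm_mono {K K' X : ℝ} {a : ℂ} (h : B1.Adm K X a) (hK : K' ≤ K) : B1.Adm K' X a := by
  have : 2 * K' / X ^ 2 ≤ 2 * K / X ^ 2 := by gcongr
  unfold B1.Adm at *
  linarith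

theorem xiS_of (hE : EstS) (hA : AlS) (hD : DerS) (hS : SoftS) : XiS := by
  intro C0
  obtain ⟨C1, N0, h0⟩ := hA (C0 ^ 2)
  refine ⟨C1, max N0 6, fun N hN ι κ _ _ FF Z cc Θ A0 r X0 θ C k hG => ?_⟩
  obtain ⟨A, r', C', hr, he⟩ := hE C0 N ι κ FF Z cc Θ A0 r X0 θ C k hG
  obtain ⟨σ, X1, C1', hX1, ha⟩ := h0 N ((le_max_left _ _).trans hN) ι κ Z Θ A r' _ θ C' k he
  have hr' : r' / 2 ≤ r := by linarith [he.r_pos]
  have hX : X0 ≤ X1 := (le_max_left _ _).trans hX1
  obtain ⟨X2, C2, hC2, hd⟩ := hD C0 C1 N ι κ FF Z cc Θ σ A0 r X0 θ C k _ X1 k C1' hG ha hr' hX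
  obtain ⟨X3, s1, s2, s3, s4, s5, s6, s7⟩ := hS C0 C1 N ι κ FF Z cc Θ σ A0 r X0 θ C k _ X1 k C1'
    hG ha hr' hX hG.k_pos ((le_max_right _ _).trans hN)
  set Y := max (max X1 1) (max X2 X3)
  have y1 : ∀ X, Y < X → X1 < X := fun X h => ((le_max_left _ _).trans (le_max_left _ _)).trans_lt h
  have y0 : ∀ X, Y < X → 1 < X := fun X h => ((le_max_right _ _).trans (le_max_left _ _)).trans_lt h
  have y2 : ∀ X, Y < X → X2 < X := fun X h => ((le_max_left _ _).trans (le_max_right _ _)).trans_lt h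
  have y3 : ∀ X, Y < X → X3 < X := fun X h => ((le_max_right _ _).trans (le_max_right _ _)).trans_lt h
  set D := max C (max C1' C2)
  have d1 : C ≤ D := le_max_left _ _
  have d2 : C1' ≤ D := (le_max_left _ _).trans (le_max_right _ _)
  have d3 : C2 ≤ D := (le_max_right _ _).trans (le_max_right _ _)
  have hk := hG.k_pos
  refine ⟨ff FF σ, fun X z => σ (X, z), r' / 2, 1 / 16, Y, k / 2, D,
    ⟨ha.r_pos, by norm_num, by norm_num, by positivity, fun X h => s1 X (y3 X h),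
      fun X h z hz => (s2 X (y3 X h) z hz).trans d1, fun X h => s3 X (y3 X h),
      s4.mono fun p hp => ⟨y3 _ hp.1, hp.2⟩, fun j => (s5 j).mono fun p hp => ⟨y3 _ hp.1, hp.2⟩,
      fun X h z hz j => adm_mono (ha.adm X (y1 X h) z hz j) (by linarith), fun X h z hz j => ?_,
      fun X h z hz => (hd X (y2 X h) z hz).1.trans ?_⟩,
    ⟨ha.r_pos, fun X h => s6 X (y3 X h), fun _ _ _ _ => rfl,
      fun X h z hz => (ha.eq X (y1 X h) z hz).self_of_nhds, he.onto,
      fun X h => ha.real X (y1 X h), fun X h z hz => (hd X (y2 X h) z hz).2.trans ?_, s7⟩⟩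
  · refine (ha.pos X (y1 X h) z hz j).trans ?_
    have h1 := y0 X h
    have h2 : X ^ (-k) ≤ X ^ (-(k / 2)) := Real.rpow_le_rpow_of_exponent_le h1.le (by linarith)
    have h3 := ha.C_nn
    have : C1' * X ^ (-k) ≤ D * X ^ (-(k / 2)) := mul_le_mul d2 h2 (by positivity) (h3.trans d2)
    gcongr
  · have h1 := y0 X h
    gcongr
  · gcongr

end Crest.Agent.N250.Xi

end
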