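import Crest.Agent.N250.Xi.Defs

/-!
# Row 250 (helper75): the derivatives of the reduced function (`DerS`)
-/

set_option autoImplicit false
open Set Filter Topology Metric

noncomputable section

namespace Crest.Agent.N250.Xi

open Crest.Agent.N250.B2 (aa ofR)
open Crest.Agent.N250.Gi (KK hat TL DX Fx)
open R0

variable {ι κ : Type} [Fintype ι] [Fintype κ]

namespace Dr

theorem norm_mk_le (z : ι ⊕ κ → ℂ) (a : κ → ℂ) : ‖mk z a‖ ≤ ‖z‖ + ‖a‖ :=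
  (pi_norm_le_iff_of_nonneg (by positivity)).2 fun l => by
    rcases l with i | j
    · exact (norm_le_pi_norm z _).trans (le_add_of_nonneg_right (norm_nonneg _))
    · exact (norm_le_pi_norm a _).trans (le_add_of_nonneg_left (norm_nonneg _))

/-- `mk` as a linear map -/
def mkL : (ι ⊕ κ → ℂ) × (κ → ℂ) →L[ℂ] (ι ⊕ κ → ℂ) :=
  ContinuousLinearMap.pi fun l => Sum.elim
    (fun i => (ContinuousLinearMap.proj (Sum.inl i)).comp (ContinuousLinearMap.fst ℂ _ _))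
    (fun j => (ContinuousLinearMap.proj j).comp (ContinuousLinearMap.snd ℂ _ _)) l

omit [Fintype ι] [Fintype κ] in
theorem mkL_apply (z : ι ⊕ κ → ℂ) (a : κ → ℂ) : mkL (z, a) = mk z a := by
  funext l; rcases l with i | j <;> rfl

theorem om_nhds {r K X0 θ X : ℝ} {w : ι ⊕ κ → ℂ} (h0 : X0 < X) (hX : 0 < X) (hθ : 0 < θ)
    (hw : w ∈ DomA r K X) : Om r K X0 θ ∈ 𝓝 ((X : ℂ), w) := by
  have c1 : ContinuousAt (fun q : ℂ × (ι ⊕ κ → ℂ) => q.1.re) (X, w) := by fun_prop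
  have hX' : ((X : ℂ), w).1.re ≠ 0 := by simpa using hX.ne'
  have h1 : ∀ᶠ q : ℂ × (ι ⊕ κ → ℂ) in 𝓝 ((X : ℂ), w), X0 < q.1.re :=
    continuousAt_const.eventually_lt c1 (by simpa using h0)
  have h2 : ∀ᶠ q : ℂ × (ι ⊕ κ → ℂ) in 𝓝 ((X : ℂ), w), |q.1.im| < θ / q.1.re :=
    ContinuousAt.eventually_lt (by fun_prop) (continuousAt_const.div c1 hX')
      (by simpa using div_pos hθ hX)
  have h3 : ∀ᶠ q : ℂ × (ι ⊕ κ → ℂ) in 𝓝 ((X : ℂ), w), ∀ i, ‖q.2 (Sum.inl i)‖ < r :=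
    eventually_all.2 fun i => ContinuousAt.eventually_lt (by fun_prop) continuousAt_const (hw.1 i)
  have h4 : ∀ᶠ q : ℂ × (ι ⊕ κ → ℂ) in 𝓝 ((X : ℂ), w), ∀ j, B1.Adm K q.1.re (q.2 (Sum.inr j)) :=
    eventually_all.2 fun j => ContinuousAt.eventually_lt
      (ContinuousAt.add (by fun_prop) (continuousAt_const.div (c1.pow 2) (pow_ne_zero _ hX')))
      continuousAt_const (hw.2 j)
  filter_upwards [h1, h2, h3, h4] with q a b c d
  exact ⟨a, b, c, d⟩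

theorem pow_exp {X : ℝ} (hX : 1 ≤ X) :
    Real.exp (-X ^ 2 / 4) * X ^ 7 ≤ 3840000 * Real.exp (-X ^ 2 / 5) := by
  have h1 := Real.pow_div_factorial_le_exp (X ^ 2 / 20) (by positivity) 4
  have h2 : X ^ 7 ≤ X ^ 8 := pow_le_pow_right₀ hX (by norm_num)
  have e : Real.exp (-X ^ 2 / 5) = Real.exp (-X ^ 2 / 4) * Real.exp (X ^ 2 / 20) := by
    rw [← Real.exp_add]; congr 1; ring
  have h3 : X ^ 8 ≤ 3840000 * Real.exp (X ^ 2 / 20) := by
    norm_num [Nat.factorial] at h1; nlinarith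
  rw [e, mul_left_comm]
  exact mul_le_mul_of_nonneg_left (h2.trans h3) (Real.exp_pos _).le

variable {N : ℕ} {C0 C1 A0 r X0 θ C k r' X1 k1 C' X : ℝ} {FF : ℂ × (ι ⊕ κ → ℂ) → ℂ}
  {Z cc : ℂ × (ι ⊕ κ → ℂ) → ι ⊕ κ → ℂ} {Θ : (ι ⊕ κ → ℂ) → ι ⊕ κ → ℂ}
  {σ : ℂ × (ι ⊕ κ → ℂ) → κ → ℂ} {z : ι ⊕ κ → ℂ}

/-- the total derivative of the reduced function -/
theorem key (G : Glued N C0 FF Z cc Θ A0 r X0 θ C k) (A : Al N C1 Z Θ σ r' X1 k1 C') (hr : r' ≤ r)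
    (h01 : X0 ≤ X1) (h1 : X1 < X) (hX : 0 < X) (hz : z ∈ DX N r' (1 / 16) X) :
    ∃ D : ℂ × (ι ⊕ κ → ℂ) →L[ℂ] ℂ,
      HasFDerivAt (fun q : ℂ × (ι ⊕ κ → ℂ) => FF (q.1, mk q.2 (σ q))) D (X, z) ∧ ∀ ξ v,
      ‖D (ξ, v) - ∑ l, cc (X, mk z (σ (X, z))) l * fderiv ℂ Θ z v l +
          2 * Real.pi * ξ * ∑ j, HJ.R N X (B1.et (σ (X, z) j) X)‖ ≤
        Fintype.card κ * |C| * Real.exp (-X ^ 2 / 4) * X ^ (-(2 + k)) *
          (‖ξ‖ + X ^ 3 * (‖v‖ + ‖fderiv ℂ σ (X, z) (ξ, v)‖)) := by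
  have hw : mk z (σ (X, z)) ∈ DomA r (KK N) X := ⟨fun i => (hz.1 i).trans_le hr, fun j => by
    have h := A.adm X h1 z hz j
    have : 2 * KK N / X ^ 2 ≤ 2 * (KK N + 1) / X ^ 2 := by gcongr; linarith
    unfold B1.Adm at h ⊢
    exact lt_of_le_of_lt (add_le_add le_rfl this) h⟩
  have hn := om_nhds (θ := θ) (h01.trans_lt h1) hX G.θ_pos hw
  have hσ := (A.hol X h1 z hz).self_of_nhds.hasFDerivAt
  have hΦ : HasFDerivAt (fun q : ℂ × (ι ⊕ κ → ℂ) => (q.1, mk q.2 (σ q)))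
      ((ContinuousLinearMap.fst ℂ _ _).prod (mkL.comp ((ContinuousLinearMap.snd ℂ _ _).prod
        (fderiv ℂ σ (X, z))))) (X, z) := by
    simpa only [Function.comp_def, mkL_apply] using
      hasFDerivAt_fst.prodMk (mkL.hasFDerivAt.comp _ (hasFDerivAt_snd.prodMk hσ))
  have hF := (G.hF.differentiableAt hn).hasFDerivAt.comp ((X : ℂ), z) hΦ
  have hZ := (G.hZ.differentiableAt hn).hasFDerivAt.comp ((X : ℂ), z) hΦ
  have hΘ : HasFDerivAt (fun q : ℂ × (ι ⊕ κ → ℂ) => Θ q.2)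
      ((fderiv ℂ Θ z).comp (ContinuousLinearMap.snd ℂ ℂ _)) (X, z) :=
    HasFDerivAt.comp (g := Θ) (f := Prod.snd) ((X : ℂ), z)
      (A.dΘ z (A.sub X h1 hz)).1.hasFDerivAt hasFDerivAt_snd
  have e := (hZ.congr_of_eventuallyEq (f₁ := fun q => Θ q.2)
    ((A.eq X h1 z hz).mono fun q hq => hq.symm)).unique hΘ
  refine ⟨_, hF, fun ξ v => ?_⟩
  have e' : fderiv ℂ Z (X, mk z (σ (X, z))) (ξ, mk v (fderiv ℂ σ (X, z) (ξ, v))) =
      fderiv ℂ Θ z v := by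
    simpa [mkL_apply] using congrArg (fun L => L (ξ, v)) e
  have h := G.form X (h01.trans_lt h1) _ hw ξ (mk v (fderiv ℂ σ (X, z) (ξ, v)))
  rw [e'] at h
  refine le_trans (le_of_eq ?_) (h.trans ?_)
  · simp [mkL_apply, R0.mk]
  · have := norm_mk_le v (fderiv ℂ σ (X, z) (ξ, v))
    gcongr
    exact le_abs_self C

end Dr

theorem derS_holds : DerS := by
  intro C0 C1 N ι κ _ _ FF Z cc Θ σ A0 r X0 θ C k r' X1 k1 C' G A hr h01
  obtain ⟨C3, X3, h3⟩ := A.dX (k / 2) (half_pos G.k_pos)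
  have hC' := A.C_nn
  have hk := G.k_pos
  refine ⟨max (max X1 X3) 1, |C| * (1 + |C3|) + Fintype.card (ι ⊕ κ) * C' +
    Fintype.card κ * |C| * (1 + C') * 3840000, by positivity, fun X hX z hz => ?_⟩
  simp only [max_lt_iff] at hX
  obtain ⟨⟨h1, h2⟩, h4⟩ := hX
  have X0' : 0 < X := by linarith
  obtain ⟨D, hD, hb⟩ := Dr.key G A hr h01 h1 X0' hz
  have hE := Real.exp_pos (-X ^ 2 / 4)
  constructor
  · have d1 : HasDerivAt (fun s : ℝ => ((s : ℂ), z)) (1, 0) X :=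
      (Complex.ofRealCLM.hasDerivAt (x := X)).prodMk (hasDerivAt_const X z)
    have d2 : HasDerivAt (fun s : ℝ => ff FF σ s z) (D (1, 0)) X :=
      ((hD.restrictScalars ℝ).comp_hasDerivAt X d1 :)
    have h := hb 1 0
    simp only [map_zero, Pi.zero_apply, mul_zero, Finset.sum_const_zero, sub_zero, mul_one,
      norm_one, norm_zero, zero_add] at h
    rw [d2.deriv]
    refine h.trans ?_
    have e1 : X ^ 3 * ‖fderiv ℂ σ (X, z) (1, 0)‖ ≤ |C3| * X ^ (k / 2) := by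
      rw [← le_div_iff₀' (by positivity)]
      exact (h3 X h2 z hz).trans (by gcongr; exact le_abs_self _)
    have e2 : 1 ≤ X ^ (k / 2) := Real.one_le_rpow h4.le (by linarith)
    have e3 : X ^ (-(2 + k)) * X ^ (k / 2) = X ^ (-(2 + k / 2)) := by
      rw [← Real.rpow_add X0']; congr 1; ring
    calc _ ≤ Fintype.card κ * |C| * Real.exp (-X ^ 2 / 4) * X ^ (-(2 + k)) *
          ((1 + |C3|) * X ^ (k / 2)) := by gcongr; linarith
      _ = Fintype.card κ * (|C| * (1 + |C3|) * Real.exp (-X ^ 2 / 4) * X ^ (-(2 + k / 2))) := by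
          rw [← e3]; ring
      _ ≤ _ := by
          gcongr
          rw [add_assoc]
          exact le_add_of_nonneg_right (by positivity)
  · have d1 : HasFDerivAt (fun y : ι ⊕ κ → ℂ => ((X : ℂ), y))
        (ContinuousLinearMap.inr ℂ ℂ _) z := hasFDerivAt_prodMk_right _ _
    have d2 : HasFDerivAt (ff FF σ X) (D.comp (ContinuousLinearMap.inr ℂ ℂ _)) z := hD.comp z d1
    rw [d2.fderiv]
    refine ContinuousLinearMap.opNorm_le_bound _ (by positivity) fun v => ?_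
    have h := hb 0 v
    simp only [mul_zero, zero_mul, add_zero, norm_zero, zero_add] at h
    set c := cc (X, mk z (σ (X, z)))
    have e1 : ‖∑ l, c l * fderiv ℂ Θ z v l‖ ≤ Fintype.card (ι ⊕ κ) * (‖c‖ * (C' * ‖v‖)) := by
      refine (norm_sum_le _ _).trans ?_
      rw [← nsmul_eq_mul, ← Finset.card_univ]
      refine Finset.sum_le_card_nsmul _ _ _ fun l _ => ?_
      rw [norm_mul]
      refine mul_le_mul (norm_le_pi_norm c l) ((norm_le_pi_norm _ l).trans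
        ((fderiv ℂ Θ z).le_of_opNorm_le (A.dΘ z (A.sub X h1 hz)).2 v)) (norm_nonneg _)
        (norm_nonneg _)
    have e2 : ‖v‖ + ‖fderiv ℂ σ (X, z) (0, v)‖ ≤ (1 + C') * X ^ 4 * ‖v‖ := by
      have := A.dz X h1 z hz v
      have h5 : 1 * ‖v‖ ≤ X ^ 4 * ‖v‖ := by gcongr; exact one_le_pow₀ h4.le
      linarith
    have e3 : X ^ (-(2 + k)) ≤ 1 := Real.rpow_le_one_of_one_le_of_nonpos h4.le (by linarith)
    have e4 : ‖D (0, v) - ∑ l, c l * fderiv ℂ Θ z v l‖ ≤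
        Fintype.card κ * |C| * (1 + C') * 3840000 * Real.exp (-X ^ 2 / 5) * ‖v‖ :=
      calc _ ≤ Fintype.card κ * |C| * Real.exp (-X ^ 2 / 4) * 1 *
            (X ^ 3 * ((1 + C') * X ^ 4 * ‖v‖)) := h.trans (by gcongr)
        _ = Fintype.card κ * |C| * (1 + C') * (Real.exp (-X ^ 2 / 4) * X ^ 7) * ‖v‖ := by ring
        _ ≤ Fintype.card κ * |C| * (1 + C') * (3840000 * Real.exp (-X ^ 2 / 5)) * ‖v‖ := by
            have := Dr.pow_exp h4.le
            gcongr ?_ * ?_ * _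
        _ = _ := by ring
    have e5 := norm_le_norm_sub_add (D (0, v)) (∑ l, c l * fderiv ℂ Θ z v l)
    change ‖D (0, v)‖ ≤ _
    have p1 : 0 ≤ |C| * (1 + |C3|) * (‖c‖ + Real.exp (-X ^ 2 / 5)) * ‖v‖ := by positivity
    have p2 : 0 ≤ Fintype.card (ι ⊕ κ) * C' * Real.exp (-X ^ 2 / 5) * ‖v‖ := by positivity
    have p3 : 0 ≤ Fintype.card κ * |C| * (1 + C') * 3840000 * ‖c‖ * ‖v‖ := by positivity
    linarith

end Crest.Agent.N250.Xi

end
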