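import Crest.Agent.N250.R0.Stm
import Crest.Agent.N250.Gl.Sys

/-!
# Row 250 (helper61): the linearisation of `Θ` in the end parameters, and `Xi.onto`
-/

set_option autoImplicit false
set_option linter.unusedSectionVars false
open Set Filter Topology Metric

noncomputable section

namespace Crest.Agent.N250.Xi

open B2 (aa ofR)

namespace Th

variable {ι κ : Type} [Fintype ι] [Fintype κ]

/-- `a ↦ R0.mk 0 a` -/
def mkL : (κ → ℂ) →L[ℂ] (ι ⊕ κ → ℂ) :=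
  ContinuousLinearMap.pi fun l => Sum.elim (fun _ => 0) (fun j => ContinuousLinearMap.proj j) l

/-- `aa` -/
def aaL : (ι ⊕ κ → ℂ) →L[ℂ] (κ → ℂ) :=
  ContinuousLinearMap.pi fun j => ContinuousLinearMap.proj (Sum.inr j)

theorem aaL_apply (z : ι ⊕ κ → ℂ) : aaL z = aa z := rfl

theorem mkL_apply (a : κ → ℂ) : (mkL a : ι ⊕ κ → ℂ) = R0.mk 0 a := by
  funext l; cases l <;> rfl

theorem mk_eq (z : ι ⊕ κ → ℂ) (a : κ → ℂ) : R0.mk z a = R0.mk z 0 + mkL a := by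
  funext l; cases l <;> simp [R0.mk, mkL_apply]

theorem mk_aa (z : ι ⊕ κ → ℂ) : R0.mk z (aa z) = z := by
  funext l; cases l <;> rfl

theorem norm_mk_le (z : ι ⊕ κ → ℂ) (a : κ → ℂ) : ‖R0.mk z a‖ ≤ max ‖z‖ ‖a‖ :=
  (pi_norm_le_iff_of_nonneg (by positivity)).2 fun l => by
    cases l
    · exact (norm_le_pi_norm z _).trans (le_max_left _ _)
    · exact (norm_le_pi_norm a _).trans (le_max_right _ _)

theorem norm_mkL (a : κ → ℂ) : ‖(mkL a : ι ⊕ κ → ℂ)‖ ≤ ‖a‖ := by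
  rw [mkL_apply]; simpa using norm_mk_le (0 : ι ⊕ κ → ℂ) a

theorem norm_aa (z : ι ⊕ κ → ℂ) : ‖aa z‖ ≤ ‖z‖ :=
  (pi_norm_le_iff_of_nonneg (norm_nonneg _)).2 fun _ => norm_le_pi_norm z _

theorem norm_ofR' {σ : Type} [Fintype σ] (x : σ → ℝ) : ‖ofR x‖ = ‖x‖ := by
  simp [Pi.norm_def, ofR]

theorem hasF_mk (z : ι ⊕ κ → ℂ) (a : κ → ℂ) : HasFDerivAt (R0.mk z) mkL a := by
  have : R0.mk z = fun a => R0.mk z 0 + mkL a := funext (mk_eq z)
  rw [this]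
  exact mkL.hasFDerivAt.const_add _

variable {Θ : (ι ⊕ κ → ℂ) → ι ⊕ κ → ℂ} {r C0 : ℝ}

theorem fd_inl (hr : 0 < r) (hΘ : DifferentiableOn ℂ Θ (ball 0 r))
    (hi : ∀ z ∈ ball (0 : ι ⊕ κ → ℂ) r, ∀ i, Θ z (Sum.inl i) = z (Sum.inl i)) (v : ι ⊕ κ → ℂ)
    (i : ι) : fderiv ℂ Θ 0 v (Sum.inl i) = v (Sum.inl i) := by
  have h1 := (hΘ.differentiableAt (ball_mem_nhds _ hr)).hasFDerivAt
  have h2 := (ContinuousLinearMap.proj (R := ℂ) (φ := fun _ : ι ⊕ κ => ℂ)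
    (Sum.inl i)).hasFDerivAt.comp 0 h1
  have h3 := (ContinuousLinearMap.proj (R := ℂ) (φ := fun _ : ι ⊕ κ => ℂ)
    (Sum.inl i)).hasFDerivAt (x := 0)
  have h4 := h2.unique (h3.congr_of_eventuallyEq (by
    filter_upwards [ball_mem_nhds _ hr] with z hz using hi z hz i))
  exact congrArg (fun L => L v) h4

theorem fd_real (hr : 0 < r) (hΘ : DifferentiableOn ℂ Θ (ball 0 r))
    (hR : ∀ x : ι ⊕ κ → ℝ, ‖x‖ < r → ∀ l, (Θ (ofR x) l).im = 0) (v : ι ⊕ κ → ℂ)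
    (hv : ∀ l, (v l).im = 0) (l : ι ⊕ κ) : (fderiv ℂ Θ 0 v l).im = 0 := by
  have h1 := ((hΘ.differentiableAt (ball_mem_nhds _ hr)).hasFDerivAt).restrictScalars ℝ
  have h2 : HasDerivAt (fun t : ℝ => t • v) v 0 := by
    simpa using (hasDerivAt_id (0 : ℝ)).smul_const v
  have h3 := HasFDerivAt.comp_hasDerivAt_of_eq (0 : ℝ) h1 h2 (by simp)
  have h4 := Complex.imCLM.hasFDerivAt.comp_hasDerivAt (0 : ℝ) (hasDerivAt_pi.1 h3 l)
  have h5 : ∀ᶠ t : ℝ in 𝓝 0, t • v ∈ ball (0 : ι ⊕ κ → ℂ) r :=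
    h2.continuousAt.eventually_mem (by rw [zero_smul]; exact ball_mem_nhds _ hr)
  refine h4.unique ((hasDerivAt_const (0 : ℝ) (0 : ℝ)).congr_of_eventuallyEq ?_)
  filter_upwards [h5] with t ht
  have e : ofR (fun l => t * (v l).re) = t • v := by
    funext l
    apply Complex.ext <;> simp [ofR, hv l]
  have := hR (fun l => t * (v l).re) (by rw [← norm_ofR', e]; simpa using ht) l
  rw [e] at this
  exact this

end Th

open Th

variable {ι κ : Type} [Fintype ι] [Fintype κ] {Θ : (ι ⊕ κ → ℂ) → ι ⊕ κ → ℂ} {r C0 : ℝ}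

theorem th_lin (hr : 0 < r) (hΘ : DifferentiableOn ℂ Θ (ball 0 r))
    (hi : ∀ z ∈ ball (0 : ι ⊕ κ → ℂ) r, ∀ i, Θ z (Sum.inl i) = z (Sum.inl i))
    (hR : ∀ x : ι ⊕ κ → ℝ, ‖x‖ < r → ∀ l, (Θ (ofR x) l).im = 0)
    (jac : ∀ α : κ → ℂ, ‖α‖ ≤ C0 * ‖fderiv ℂ Θ 0 (R0.mk 0 α)‖) :
    ∃ A : (κ → ℂ) ≃L[ℂ] (κ → ℂ), (∀ g, ‖A.symm g‖ ≤ C0 * ‖g‖) ∧
      (∀ α, A α = aa (fderiv ℂ Θ 0 (R0.mk 0 α))) ∧
      (∀ g, (∀ j, (g j).im = 0) → ∀ j, (A.symm g j).im = 0) ∧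
      ∀ s, 0 < s → ∃ r2, 0 < r2 ∧ r2 ≤ r ∧ ∀ z a a', R0.mk z a ∈ ball (0 : ι ⊕ κ → ℂ) r2 →
        R0.mk z a' ∈ ball (0 : ι ⊕ κ → ℂ) r2 →
        ‖a - a' - A.symm (aa (Θ (R0.mk z a)) - aa (Θ (R0.mk z a')))‖ ≤ s * ‖a - a'‖ := by
  set A0 : (κ → ℂ) →L[ℂ] (κ → ℂ) := aaL ∘L fderiv ℂ Θ 0 ∘L mkL with hA0
  have hA : ∀ α, A0 α = aa (fderiv ℂ Θ 0 (R0.mk 0 α)) := fun α => by rw [← mkL_apply]; rfl
  have hlow : ∀ α, ‖α‖ ≤ C0 * ‖A0 α‖ := by
    intro α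
    have e : fderiv ℂ Θ 0 (R0.mk 0 α) = mkL (A0 α) := by
      funext l
      cases l
      · rw [fd_inl hr hΘ hi, mkL_apply]; rfl
      · rw [mkL_apply, hA]; rfl
    have h1 : ‖fderiv ℂ Θ 0 (R0.mk 0 α)‖ = ‖A0 α‖ :=
      le_antisymm (e ▸ norm_mkL _) (hA α ▸ norm_aa _)
    exact h1 ▸ jac α
  have hinj : Function.Injective A0 := (injective_iff_map_eq_zero A0).2 fun α h => by
    have := hlow α
    rw [h, norm_zero, mul_zero] at this
    exact norm_le_zero_iff.1 this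
  set A := (LinearEquiv.ofInjectiveEndo (A0 : (κ → ℂ) →ₗ[ℂ] (κ → ℂ)) hinj).toContinuousLinearEquiv
    with hAdef
  have hAA : ∀ α, A α = A0 α := fun α => rfl
  have hinv : ∀ g, ‖A.symm g‖ ≤ C0 * ‖g‖ := fun g => by
    have := hlow (A.symm g)
    rwa [← hAA, A.apply_symm_apply] at this
  refine ⟨A, hinv, fun α => (hAA α).trans (hA α), fun g hg => ?_, fun s hs => ?_⟩
  · have hre : ∀ x : κ → ℝ, ∀ j, (A (ofR x) j).im = 0 := fun x j => by
      rw [hAA, hA]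
      exact fd_real hr hΘ hR _ (fun l => by cases l <;> simp [R0.mk, ofR]) _
    have e : A.symm g = ofR (fun j => (A.symm g j).re) + Complex.I • ofR fun j => (A.symm g j).im := by
      funext j
      simp [ofR, mul_comm Complex.I]
    have e2 := congrArg A e
    rw [A.apply_symm_apply, map_add, map_smul] at e2
    have e3 : A (ofR fun j => (A.symm g j).im) = 0 := by
      funext j
      have h1 := congrArg Complex.im (congrFun e2 j)
      simp only [Pi.add_apply, Pi.smul_apply, smul_eq_mul, Complex.add_im, Complex.mul_im,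
        Complex.I_re, Complex.I_im, hg, hre, zero_mul, one_mul, zero_add] at h1
      exact Complex.ext h1.symm (hre _ _)
    intro j
    simpa [ofR] using congrFun (A.map_eq_zero_iff.1 e3) j
  · have hH : Gl.HolAt Θ := by
      filter_upwards [isOpen_ball.eventually_mem (mem_ball_self hr)] with z hz
      exact hΘ.differentiableAt (isOpen_ball.mem_nhds hz)
    have hc : 0 < |C0| + 1 := by positivity
    obtain ⟨r1, hr1, h1⟩ := Metric.eventually_nhds_iff_ball.1 (hH.fd_near (div_pos hs hc))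
    refine ⟨min r1 r, lt_min hr1 hr, min_le_right _ _, fun z a a' ha ha' => ?_⟩
    have hconv : Convex ℝ {b : κ → ℂ | R0.mk z b ∈ ball (0 : ι ⊕ κ → ℂ) (min r1 r)} := by
      have : {b : κ → ℂ | R0.mk z b ∈ ball (0 : ι ⊕ κ → ℂ) (min r1 r)} =
          (mkL.restrictScalars ℝ : (κ → ℂ) →L[ℝ] (ι ⊕ κ → ℂ)) ⁻¹' ball (-R0.mk z 0) (min r1 r) := by
        ext b
        simp only [mem_preimage, mem_ball_iff_norm, mem_ofPred_eq, sub_zero, sub_neg_eq_add]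
        rw [mk_eq, add_comm]
        rfl
      rw [this]
      exact (convex_ball _ _).linear_preimage
        (mkL.restrictScalars ℝ : (κ → ℂ) →L[ℝ] (ι ⊕ κ → ℂ)).toLinearMap
    have := hconv.norm_image_sub_le_of_norm_hasFDerivWithin_le (𝕜 := ℂ) (C := s)
      (f := fun b => b - A.symm (aa (Θ (R0.mk z b))))
      (f' := fun b => ContinuousLinearMap.id ℂ _ - (A.symm : (κ → ℂ) →L[ℂ] (κ → ℂ)) ∘L aaL ∘L
        fderiv ℂ Θ (R0.mk z b) ∘L mkL) (fun b hb => ?_) (fun b hb => ?_) ha' ha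
    · refine le_of_eq_of_le (congrArg norm ?_) this
      rw [map_sub]
      abel
    · have h2 := (hΘ.differentiableAt (isOpen_ball.mem_nhds
        (ball_subset_ball (min_le_right _ _) hb))).hasFDerivAt
      exact ((hasFDerivAt_id b).sub ((A.symm : (κ → ℂ) →L[ℂ] (κ → ℂ)).hasFDerivAt.comp b
        (aaL.hasFDerivAt.comp b (h2.comp b (hasF_mk z b))))).hasFDerivWithinAt
    · refine ContinuousLinearMap.opNorm_le_bound _ hs.le fun v => ?_
      have h2 := h1 _ (ball_subset_ball (min_le_left _ _) hb)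
      have e : (ContinuousLinearMap.id ℂ (κ → ℂ) - (A.symm : (κ → ℂ) →L[ℂ] (κ → ℂ)) ∘L aaL ∘L
          fderiv ℂ Θ (R0.mk z b) ∘L mkL) v =
          -A.symm (aa ((fderiv ℂ Θ (R0.mk z b) - fderiv ℂ Θ 0) (mkL v))) := by
        have : A.symm (aaL (fderiv ℂ Θ 0 (mkL v))) = v := A.symm_apply_apply v
        rw [← aaL_apply, sub_apply, sub_apply, map_sub,
          map_sub, this, neg_sub]
        rfl
      rw [e, norm_neg]
      calc _ ≤ (|C0| + 1) * ‖aa ((fderiv ℂ Θ (R0.mk z b) - fderiv ℂ Θ 0) (mkL v))‖ :=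
            (hinv _).trans (by gcongr; linarith [le_abs_self C0])
        _ ≤ (|C0| + 1) * (s / (|C0| + 1) * ‖v‖) := by
            gcongr
            refine (norm_aa _).trans ((ContinuousLinearMap.le_opNorm _ _).trans ?_)
            exact mul_le_mul h2 (norm_mkL v) (norm_nonneg _) (by positivity)
        _ = _ := by field_simp

theorem th_onto (hr : 0 < r) (hΘ : DifferentiableOn ℂ Θ (ball 0 r))
    (hi : ∀ z ∈ ball (0 : ι ⊕ κ → ℂ) r, ∀ i, Θ z (Sum.inl i) = z (Sum.inl i)) (h0 : Θ 0 = 0)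
    (hR : ∀ x : ι ⊕ κ → ℝ, ‖x‖ < r → ∀ l, (Θ (ofR x) l).im = 0)
    (jac : ∀ α : κ → ℂ, ‖α‖ ≤ C0 * ‖fderiv ℂ Θ 0 (R0.mk 0 α)‖) :
    ∀ ε : ℝ, 0 < ε → ∃ η : ℝ, 0 < η ∧ ∀ ζ : ι ⊕ κ → ℝ, ‖ζ‖ < η →
      ∃ x : ι ⊕ κ → ℝ, ‖x‖ < ε ∧ Θ (ofR x) = ofR ζ := by
  intro ε hε
  obtain ⟨A, hinv, -, hreal, hlin⟩ := th_lin hr hΘ hi hR jac
  obtain ⟨r2, hr2, hr2r, hl⟩ := hlin (1 / 2) (by norm_num)
  set ρ := min r2 ε / 2 with hρ
  have hρ0 : 0 < ρ := by positivity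
  have hρ1 : ρ < min r2 ε := by linarith [lt_min hr2 hε]
  have hcont : ContinuousAt (fun z : ι ⊕ κ → ℂ => A.symm (aa (Θ (R0.mk z 0)) - aa z)) 0 := by
    have h1 : Continuous fun z : ι ⊕ κ → ℂ => R0.mk z (0 : κ → ℂ) :=
      continuous_pi fun l => by cases l <;> simp only [R0.mk, Sum.elim_inl, Sum.elim_inr] <;> fun_prop
    have h2 : ContinuousAt Θ (R0.mk (0 : ι ⊕ κ → ℂ) 0) := by
      rw [← mkL_apply, map_zero]
      exact (hΘ.differentiableAt (ball_mem_nhds _ hr)).continuousAt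
    exact A.symm.continuous.continuousAt.comp ((aaL.continuous.continuousAt.comp
      (ContinuousAt.comp (f := fun z : ι ⊕ κ → ℂ => R0.mk z (0 : κ → ℂ)) h2 h1.continuousAt)).sub
        aaL.continuous.continuousAt)
  obtain ⟨η, hη, hc⟩ := Metric.continuousAt_iff.1 hcont (ρ / 2) (by positivity)
  refine ⟨min η ρ, lt_min hη hρ0, fun ζ hζ => ?_⟩
  have hz : ‖ofR ζ‖ < ρ := by rw [norm_ofR']; exact hζ.trans_le (min_le_right _ _)
  have h1 : ‖A.symm (aa (Θ (R0.mk (ofR ζ) 0)) - aa (ofR ζ))‖ ≤ ρ / 2 := by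
    have := hc (x := ofR ζ) (by rw [dist_zero_right, norm_ofR']; exact hζ.trans_le (min_le_left _ _))
    rw [← mkL_apply, map_zero, h0, sub_self, map_zero, dist_zero_right] at this
    exact this.le
  set S : Set (κ → ℂ) := closedBall 0 ρ ∩ {a | ∀ j, (a j).im = 0} with hS
  have hn : ∀ a ∈ S, ‖R0.mk (ofR ζ) a‖ < min r2 ε := fun a ha =>
    ((norm_mk_le _ _).trans (max_le hz.le (mem_closedBall_zero_iff.1 ha.1))).trans_lt hρ1
  have hb : ∀ a ∈ S, R0.mk (ofR ζ) a ∈ ball (0 : ι ⊕ κ → ℂ) r2 := fun a ha =>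
    mem_ball_zero_iff.2 ((hn a ha).trans_le (min_le_left _ _))
  have hx : ∀ a ∈ S, ofR (fun l => (R0.mk (ofR ζ) a l).re) = R0.mk (ofR ζ) a := fun a ha => by
    funext l
    cases l
    · simp [ofR, R0.mk]
    · exact Complex.ext (by simp [ofR]) (by simp [ofR, R0.mk, ha.2 _])
  have h0S : (0 : κ → ℂ) ∈ S := ⟨mem_closedBall_self hρ0.le, fun _ => rfl⟩
  have hlip : ∀ a ∈ S, ∀ a' ∈ S, ‖(a - A.symm (aa (Θ (R0.mk (ofR ζ) a)) - aa (ofR ζ))) -
      (a' - A.symm (aa (Θ (R0.mk (ofR ζ) a')) - aa (ofR ζ)))‖ ≤ 1 / 2 * ‖a - a'‖ := fun a ha a' ha' => by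
    refine le_of_eq_of_le (congrArg norm ?_) (hl _ a a' (hb a ha) (hb a' ha'))
    simp only [map_sub]
    abel
  have hT : H.Ctr (fun a => a - A.symm (aa (Θ (R0.mk (ofR ζ) a)) - aa (ofR ζ))) S (1 / 2) := by
    refine ⟨fun a ha => ⟨mem_closedBall_zero_iff.2 ?_, fun j => ?_⟩, hlip⟩
    · have h2 := hlip a ha 0 h0S
      have h3 := mem_closedBall_zero_iff.1 ha.1
      have h4 := norm_le_insert' (a - A.symm (aa (Θ (R0.mk (ofR ζ) a)) - aa (ofR ζ)))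
        (0 - A.symm (aa (Θ (R0.mk (ofR ζ) 0)) - aa (ofR ζ)))
      rw [zero_sub, norm_neg] at h4
      rw [zero_sub, sub_zero] at h2
      linarith
    · have h2 := hR (fun l => (R0.mk (ofR ζ) a l).re)
        (by rw [← norm_ofR', hx a ha]; exact (mem_ball_zero_iff.1 (hb a ha)).trans_le hr2r)
      rw [hx a ha] at h2
      have h3 := hreal (aa (Θ (R0.mk (ofR ζ) a)) - aa (ofR ζ)) (fun j => by simp [aa, ofR, h2]) j
      rw [Pi.sub_apply, Complex.sub_im, h3, ha.2 j, sub_zero]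
  have hcl : IsClosed S := isClosed_closedBall.inter (by
    simp only [ofPred_forall]
    exact isClosed_iInter fun j => isClosed_eq (by fun_prop) continuous_const)
  obtain ⟨a, ha, hfix⟩ := hT.exists_fix hcl (by norm_num) (by norm_num) ⟨0, h0S⟩
  refine ⟨fun l => (R0.mk (ofR ζ) a l).re, ?_, ?_⟩
  · rw [← norm_ofR', hx a ha]
    exact (hn a ha).trans_le (min_le_right _ _)
  · rw [hx a ha]
    have h2 := sub_eq_zero.1 (A.symm.map_eq_zero_iff.1 (sub_eq_self.1 hfix))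
    funext l
    cases l
    · exact hi _ (ball_subset_ball hr2r (hb a ha)) _
    · exact congrFun h2 _

end Crest.Agent.N250.Xi

end
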