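import Crest.Agent.N250.Xi.Defs
import Crest.Agent.N250.Xi.Th

/-!
# Row 250 (helper61): `EstS`
-/

set_option autoImplicit false
open Set Filter Topology Metric

noncomputable section

namespace Crest.Agent.N250.Xi

open B2 (aa ofR)
open R0 (DomA Om hz)

theorem estS_holds : EstS := by
  intro C0 N ι κ _ _ FF Z cc Θ A0 r X0 θ C k h
  obtain ⟨A, hinv, -, hreal, hlin⟩ := th_lin h.r_pos h.hΘ h.Θ_inl h.Θ_real h.jac
  obtain ⟨r2, hr2, hr2r, hl⟩ := hlin (1 / 8) (by norm_num)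
  obtain ⟨r3, hr3, hb⟩ := Metric.continuousAt_iff.1
    (h.hΘ.differentiableAt (ball_mem_nhds _ h.r_pos)).continuousAt 1 one_pos
  have hr : min r2 r3 ≤ r := (min_le_left _ _).trans hr2r
  have hD : ∀ {K X : ℝ} {w : ι ⊕ κ → ℂ}, w ∈ DomA (min r2 r3) K X → w ∈ DomA r K X :=
    fun hw => ⟨fun i => (hw.1 i).trans_le hr, hw.2⟩
  have hO : Om (min r2 r3) (Gi.KK N) (max X0 1) θ ⊆ (Om r (Gi.KK N) X0 θ : Set (ℂ × (ι ⊕ κ → ℂ))) :=
    fun q hq => ⟨(le_max_left _ _).trans_lt hq.1, hq.2.1, hD hq.2.2⟩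
  have a1 := abs_nonneg C
  have a2 := abs_nonneg C0
  have a3 := norm_nonneg (A : (κ → ℂ) →L[ℂ] (κ → ℂ))
  have a4 := mul_nonneg a2 a1
  have a5 := le_abs_self C
  have a6 := le_abs_self C0
  refine ⟨A, min r2 r3, |C| + 1 + |C0| + ‖(A : (κ → ℂ) →L[ℂ] (κ → ℂ))‖ + |C0| * |C|, hr,
    lt_min hr2 hr3, h.θ_pos, h.k_pos, sq_nonneg _, by positivity, h.hZ.mono hO,
    fun q hq => (h.bd q (hO hq)).2.trans (by linarith), fun q hq => h.inl q (hO hq),
    fun X hX x hx => (h.real X ((le_max_left _ _).trans_lt hX) x (hD hx)).2,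
    h.hΘ.mono (ball_subset_ball hr), fun z hz => ?_, fun x hx => h.Θ_real x (hx.trans_le hr),
    fun z hz => h.Θ_inl z (ball_subset_ball hr hz),
    fun v => (hinv v).trans (by gcongr; linarith),
    fun v => ((A : (κ → ℂ) →L[ℂ] (κ → ℂ)).le_opNorm v).trans (by gcongr; linarith), hreal,
    fun z hz a ha a' ha' => ?_, fun X hX w hw => ?_,
    th_onto h.r_pos h.hΘ h.Θ_inl h.Θ_zero h.Θ_real h.jac⟩
  · have := hb (x := z) (ball_subset_ball (min_le_right _ _) hz)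
    rw [h.Θ_zero, dist_zero_right] at this
    linarith
  · have hm : ∀ b ∈ ball (0 : κ → ℂ) (min r2 r3), R0.mk z b ∈ ball (0 : ι ⊕ κ → ℂ) r2 := fun b hb =>
      mem_ball_zero_iff.2 (((Th.norm_mk_le z b).trans_lt (max_lt (mem_ball_zero_iff.1 hz)
        (mem_ball_zero_iff.1 hb))).trans_le (min_le_left _ _))
    linarith [hl z a a' (hm a ha) (hm a' ha')]
  · have hX0 : 0 < X := one_pos.trans ((le_max_right _ _).trans_lt hX)
    have h1 := (Th.norm_aa _).trans (h.est X ((le_max_left _ _).trans_lt hX) w (hD hw))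
    have h2 : 0 ≤ X ^ (-k) := by positivity
    have h3 : |C0| * C0 ≤ C0 ^ 2 := by nlinarith [sq_abs C0]
    calc _ ≤ |C0| * ‖aa (Z (X, w) - Θ (hz X w))‖ :=
          (hinv _).trans (mul_le_mul_of_nonneg_right a6 (norm_nonneg _))
      _ ≤ |C0| * ((C0 / ((N : ℝ) + 1) + C * X ^ (-k)) / X ^ 4) := by gcongr
      _ = (|C0| * C0 / ((N : ℝ) + 1) + |C0| * C * X ^ (-k)) / X ^ 4 := by ring
      _ ≤ _ := by
          gcongr
          nlinarith [mul_le_mul_of_nonneg_left a5 a2]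

end Crest.Agent.N250.Xi

end
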