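import Crest.Agent.N250.Xi.Defs
import Crest.Agent.N250.Xi.Tip
import Crest.Agent.N250.Xi.Sc

/-!
# Row 250 (helper36): the soft properties of the reduced function
-/

set_option autoImplicit false
set_option linter.unusedSectionVars false
open Set Filter Topology Metric

noncomputable section

namespace Crest.Agent.N250.Xi

open Crest.Agent.N250.B2 (aa ofR)
open Crest.Agent.N250.Gi (KK hat TL DX Fx)
open R0

namespace Sf

theorem contDiffAt_of_ev {E Y : Type*} [NormedAddCommGroup E] [NormedSpace ℂ E]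
    [NormedAddCommGroup Y] [NormedSpace ℂ Y] [CompleteSpace Y] {f : E → Y} {c : E}
    (h : ∀ᶠ q in 𝓝 c, DifferentiableAt ℂ f q) : ContDiffAt ℂ 1 f c := by
  have h1 : ∀ᶠ q in 𝓝 c, ‖f q‖ < ‖f c‖ + 1 :=
    h.self_of_nhds.continuousAt.norm.eventually_lt continuousAt_const (lt_add_one _)
  obtain ⟨U, hU, hUo, hc⟩ := _root_.eventually_nhds_iff.1 (h.and h1)
  have hd : DifferentiableOn ℂ f U := fun q hq => (hU q hq).1.differentiableWithinAt
  exact contDiffAt_one_iff.2 ⟨fderiv ℂ f, U, hUo.mem_nhds hc,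
    (H.diffOn_fderiv hUo (fun q hq => (hU q hq).2.le) hd).continuousOn,
    fun q hq => (hU q hq).1.hasFDerivAt⟩

variable {ι κ : Type} [Fintype ι] [Fintype κ]

theorem isOpen_Om (r K X0 θ : ℝ) : IsOpen (Om (ι := ι) (κ := κ) r K X0 θ) := by
  refine isOpen_iff_mem_nhds.2 fun q hq => ?_
  have hq0 : q.1.re ≠ 0 := by
    intro h
    have := hq.2.1
    rw [h, div_zero] at this
    exact absurd this (not_lt.2 (abs_nonneg _))
  have cre : Continuous fun p : ℂ × (ι ⊕ κ → ℂ) => p.1.re := by fun_prop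
  have e1 : ∀ᶠ p : ℂ × (ι ⊕ κ → ℂ) in 𝓝 q, X0 < p.1.re :=
    continuousAt_const.eventually_lt cre.continuousAt hq.1
  have e2 : ∀ᶠ p : ℂ × (ι ⊕ κ → ℂ) in 𝓝 q, |p.1.im| < θ / p.1.re :=
    ContinuousAt.eventually_lt (by fun_prop) (continuousAt_const.div cre.continuousAt hq0) hq.2.1
  have e3 : ∀ᶠ p : ℂ × (ι ⊕ κ → ℂ) in 𝓝 q, ∀ i, ‖p.2 (Sum.inl i)‖ < r :=
    eventually_all.2 fun i => ContinuousAt.eventually_lt (by fun_prop) continuousAt_const (hq.2.2.1 i)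
  have e4 : ∀ᶠ p : ℂ × (ι ⊕ κ → ℂ) in 𝓝 q, ∀ j, B1.Adm K p.1.re (p.2 (Sum.inr j)) :=
    eventually_all.2 fun j => ContinuousAt.eventually_lt (ContinuousAt.add (by fun_prop)
      (continuousAt_const.div (cre.continuousAt.pow 2) (pow_ne_zero 2 hq0))) continuousAt_const
      (hq.2.2.2 j)
  filter_upwards [e1, e2, e3, e4] with p h1 h2 h3 h4 using ⟨h1, h2, h3, h4⟩

theorem diff_mk {E : Type*} [NormedAddCommGroup E] [NormedSpace ℂ E] {u : E → ι ⊕ κ → ℂ}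
    {v : E → κ → ℂ} {c : E} (hu : DifferentiableAt ℂ u c) (hv : DifferentiableAt ℂ v c) :
    DifferentiableAt ℂ (fun q => mk (u q) (v q)) c := by
  refine differentiableAt_pi.2 fun l => ?_
  rcases l with i | j
  · exact differentiableAt_pi.1 hu (Sum.inl i)
  · exact differentiableAt_pi.1 hv j

omit [Fintype ι] [Fintype κ] in
theorem mem_Om {r K X0 θ X : ℝ} (hθ : 0 < θ) (hX : X0 < X) (hX0 : 0 < X) {w : ι ⊕ κ → ℂ}
    (hw : w ∈ DomA r K X) : ((X : ℂ), w) ∈ Om r K X0 θ :=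
  ⟨hX, by simp only [Complex.ofReal_im, abs_zero, Complex.ofReal_re]; positivity, hw⟩

theorem KK_nn (N : ℕ) : 0 ≤ KK N := by unfold KK; positivity

theorem adm_of_succ {K X : ℝ} {a : ℂ} (h : B1.Adm (K + 1) X a) : B1.Adm K X a := by
  unfold B1.Adm at h ⊢
  have : 2 * K / X ^ 2 ≤ 2 * (K + 1) / X ^ 2 := by gcongr; linarith
  linarith

theorem TL_bd (N : ℕ) {X : ℝ} (hX : |Gi.c0 N| + 9 ≤ X) :
    0 < TL N X - 0 - 1 ∧ TL N X - 0 - 1 < 4 * X ^ 2 := by
  have h0 := abs_nonneg (Gi.c0 N)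
  have h1 := neg_abs_le (Gi.c0 N)
  have h2 := le_abs_self (Gi.c0 N)
  have h3 : 0 ≤ Real.log X := Real.log_nonneg (by linarith)
  have h4 : Real.log X ≤ X - 1 := Real.log_le_sub_one_of_pos (by linarith)
  unfold TL
  rw [Real.log_pow]
  push_cast
  constructor <;> nlinarith

omit [Fintype ι] in
theorem mem_DX (N : ℕ) {r X : ℝ} (hX : |Gi.c0 N| + 9 ≤ X) {z : ι ⊕ κ → ℂ}
    (h1 : ∀ i, ‖z (Sum.inl i)‖ < r) (h2 : ‖aa z‖ * X ^ 2 ≤ 1 / 2) : z ∈ DX N r (1 / 16) X := by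
  refine ⟨h1, fun j => ?_⟩
  obtain ⟨hB, hB'⟩ := TL_bd N hX
  have hX0 : 0 < X := by linarith [abs_nonneg (Gi.c0 N)]
  set B := TL N X - 0 - 1
  have h3 : ‖z (Sum.inr j)‖ * X ^ 2 ≤ 1 / 2 :=
    (mul_le_mul_of_nonneg_right (norm_le_pi_norm (aa z) j) (by positivity)).trans h2
  have h4 : ‖z (Sum.inr j)‖ < 2 / B := by
    rw [lt_div_iff₀ hB]
    rcases (norm_nonneg (z (Sum.inr j))).eq_or_lt with h | h
    · rw [← h]; norm_num
    · nlinarith
  show dist _ _ < _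
  rw [dist_eq_norm]
  refine (norm_sub_le _ _).trans_lt ?_
  rw [Complex.norm_real, Real.norm_of_nonneg (by positivity)]
  calc _ < 2 / B + 2 * (1 / 16) / B := by linarith
    _ = _ := by ring

variable {N : ℕ} {C1 : ℝ} {Z : ℂ × (ι ⊕ κ → ℂ) → ι ⊕ κ → ℂ} {Θ : (ι ⊕ κ → ℂ) → ι ⊕ κ → ℂ}
  {σ : ℂ × (ι ⊕ κ → ℂ) → κ → ℂ} {r' X1 k1 C' : ℝ}

theorem sig_le (h : Al N C1 Z Θ σ r' X1 k1 C') (hk : 0 < k1) {X : ℝ} (hX : X1 < X) (hX2 : 2 ≤ X)
    {z : ι ⊕ κ → ℂ} (hz : z ∈ DX N r' (1 / 16) X) :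
    ‖σ (X, z)‖ * X ^ 2 ≤ ‖aa z‖ * X ^ 2 + (|C1| + C' + 113) / X := by
  have hX0 : 0 < X := by linarith
  have hC := h.C_nn
  have hD : 0 ≤ (|C1| + C' + 113) / X := by positivity
  rw [← le_div_iff₀ (by positivity), pi_norm_le_iff_of_nonneg (by positivity)]
  intro j
  rw [le_div_iff₀ (by positivity)]
  have ha := adm_of_succ (h.adm X hX z hz j)
  have h1 := Tip.norm_le ha (KK_nn N)
  have h2 := (lam_le ha (KK_nn N) hX2).trans
    ((log_le (by linarith)).trans (mul_le_mul_of_nonneg_left (quarter' (by linarith)) (by norm_num)))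
  have h3 := h.pos X hX z hz j
  have h4 : C1 / ((N : ℝ) + 1) + C' * X ^ (-k1) ≤ (|C1| + C') * X := by
    have a1 : C1 / ((N : ℝ) + 1) ≤ |C1| :=
      (div_le_div_of_nonneg_right (le_abs_self _) (by positivity)).trans
        (div_le_self (abs_nonneg _) (by linarith [Nat.cast_nonneg (α := ℝ) N]))
    have a2 : X ^ (-k1) ≤ 1 := Real.rpow_le_one_of_one_le_of_nonpos (by linarith) (by linarith)
    nlinarith [abs_nonneg C1]
  set s := σ (X, z) j
  have h5 : ‖s‖ ≤ ‖hat X s - aa z j‖ + ‖aa z j‖ + ‖s‖ ^ 2 * ‖Gi.Lam X s‖ := by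
    have e : s = hat X s - aa z j + aa z j - s ^ 2 * Gi.Lam X s := by unfold hat; ring
    calc ‖s‖ = ‖hat X s - aa z j + aa z j - s ^ 2 * Gi.Lam X s‖ := by rw [← e]
      _ ≤ _ := by
        refine (norm_sub_le _ _).trans (add_le_add (norm_add_le _ _) ?_)
        rw [norm_mul, norm_pow]
  have h6 : ‖hat X s - aa z j‖ * X ^ 2 ≤ (|C1| + C') / X :=
    calc _ ≤ (|C1| + C') * X / X ^ 4 * X ^ 2 := by
          gcongr; exact h3.trans (div_le_div_of_nonneg_right h4 (by positivity))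
      _ = _ := by field_simp
  have h7 : ‖s‖ ^ 2 * ‖Gi.Lam X s‖ * X ^ 2 ≤ 113 / X :=
    calc _ = (‖s‖ * X ^ 2) ^ 2 * ‖Gi.Lam X s‖ / X ^ 2 := by field_simp
      _ ≤ (5 / 2) ^ 2 * (18 * X) / X ^ 2 := by gcongr
      _ = 225 / 2 / X := by field_simp; norm_num
      _ ≤ 113 / X := by gcongr; norm_num
  have h8 : ‖aa z j‖ * X ^ 2 ≤ ‖aa z‖ * X ^ 2 :=
    mul_le_mul_of_nonneg_right (norm_le_pi_norm _ j) (by positivity)
  have h9 : (|C1| + C' + 113) / X = (|C1| + C') / X + 113 / X := by ring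
  nlinarith [mul_le_mul_of_nonneg_right h5 (show 0 ≤ X ^ 2 by positivity)]

variable {C0 : ℝ} {FF : ℂ × (ι ⊕ κ → ℂ) → ℂ} {cc : ℂ × (ι ⊕ κ → ℂ) → ι ⊕ κ → ℂ}
  {A0 r X0 θ C k : ℝ}

theorem domA (h : Al N C1 Z Θ σ r' X1 k1 C') (hr : r' ≤ r) {X : ℝ} (hX : X1 < X)
    {z : ι ⊕ κ → ℂ} (hz : z ∈ DX N r' (1 / 16) X) : mk z (σ (X, z)) ∈ DomA r (KK N) X :=
  ⟨fun i => (hz.1 i).trans_le hr, fun j => adm_of_succ (h.adm X hX z hz j)⟩

theorem ev_diff (hG : Glued N C0 FF Z cc Θ A0 r X0 θ C k) (h : Al N C1 Z Θ σ r' X1 k1 C')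
    (hr : r' ≤ r) (h01 : X0 ≤ X1) {X : ℝ} (hX : X1 < X) (hX0 : 0 < X) {z : ι ⊕ κ → ℂ}
    (hz : z ∈ DX N r' (1 / 16) X) :
    ∀ᶠ q in 𝓝 ((X : ℂ), z), DifferentiableAt ℂ (fun q => FF (q.1, mk q.2 (σ q))) q := by
  have ho := isOpen_Om (ι := ι) (κ := κ) r (KK N) X0 θ
  have hd : ∀ q, DifferentiableAt ℂ σ q →
      DifferentiableAt ℂ (fun q : ℂ × (ι ⊕ κ → ℂ) => (q.1, mk q.2 (σ q))) q := fun q hq =>
    differentiableAt_fst.prodMk (diff_mk differentiableAt_snd hq)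
  have h1 := h.hol X hX z hz
  have h2 := (hd _ h1.self_of_nhds).continuousAt.eventually
    (ho.mem_nhds (mem_Om hG.θ_pos (h01.trans_lt hX) hX0 (domA h hr hX hz)))
  filter_upwards [h1, h2] with q a1 a2
  exact (hG.hF.differentiableAt (ho.mem_nhds a2)).comp q (hd q a1)

theorem lip0 (hG : Glued N C0 FF Z cc Θ A0 r X0 θ C k) {X : ℝ} (hX : X0 < X) (hX0 : 0 < X)
    (hK : 4 * KK N < X ^ 2) {a : κ → ℂ} (ha : ‖a‖ * X ^ 2 < 1) :
    ‖FF (X, mk 0 a) - FF (X, mk 0 0)‖ ≤ 2 * C * (‖a‖ * X ^ 2) := by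
  have ho := isOpen_Om (ι := ι) (κ := κ) r (KK N) X0 θ
  have hm : ∀ b ∈ ball (0 : κ → ℂ) (1 / X ^ 2), ((X : ℂ), mk (0 : ι ⊕ κ → ℂ) b) ∈
      Om r (KK N) X0 θ := fun b hb => mem_Om hG.θ_pos hX hX0
    ⟨fun i => by simpa [R0.mk] using hG.r_pos, fun j => adm_small hX0 hK
      ((norm_le_pi_norm b j).trans (mem_ball_zero_iff.1 hb).le)⟩
  have hd : DifferentiableOn ℂ (fun b : κ → ℂ => FF (X, mk 0 b)) (ball 0 (1 / X ^ 2)) := fun b hb =>
    ((hG.hF.differentiableAt (ho.mem_nhds (hm b hb))).comp b ((differentiableAt_const _).prodMk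
      (diff_mk (differentiableAt_const _) differentiableAt_id))).differentiableWithinAt
  have := H.lip_le hd (fun b hb => (hG.bd _ (hm b hb)).1) (z := a)
    (by rw [mem_ball_zero_iff, lt_div_iff₀ (by positivity)]; exact ha)
  refine this.trans_eq ?_
  rw [sub_zero]; field_simp

end Sf

open Sf in
theorem softS_holds : SoftS := by
  intro C0 C1 N ι κ _ _ FF Z cc Θ σ A0 r X0 θ C k r' X1 k1 C' hG h hr h01 hk _
  set D := |C1| + C' + 113 with hD
  have hD0 : 0 ≤ D := by have := h.C_nn; positivity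
  set X2 := max X1 (|Gi.c0 N| + 9 + 2 * D) with hX2
  have g1 : ∀ X, X2 < X → X1 < X := fun X hX => (le_max_left _ _).trans_lt hX
  have g2 : ∀ X, X2 < X → |Gi.c0 N| + 9 + 2 * D < X := fun X hX => (le_max_right _ _).trans_lt hX
  have g3 : ∀ X, X2 < X → 2 ≤ X := fun X hX => by linarith [g2 X hX, abs_nonneg (Gi.c0 N)]
  have g4 : ∀ X, X2 < X → 0 < X := fun X hX => by linarith [g3 X hX]
  have hin : ∀ p : ℝ × (ι ⊕ κ → ℂ), ContDiffAt ℝ 1 (fun p : ℝ × (ι ⊕ κ → ℂ) => ((p.1 : ℂ), p.2)) p :=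
    fun p => ((Complex.ofRealCLM.contDiff.comp contDiff_fst).prodMk contDiff_snd).contDiffAt
  refine ⟨X2, fun X hX z hz => ?_, fun X hX z hz => ?_, fun X hX x hx => ?_, fun p hp => ?_,
    fun j p hp => ?_, fun X hX z h1 h2 => ?_, ?_⟩
  · exact ((ev_diff hG h hr h01 (g1 X hX) (g4 X hX) hz).self_of_nhds.comp z
      ((differentiableAt_const _).prodMk differentiableAt_id)).differentiableWithinAt
  · exact (hG.bd _ (mem_Om hG.θ_pos (h01.trans_lt (g1 X hX)) (g4 X hX)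
      (domA h hr (g1 X hX) hz))).1
  · have e : mk (ofR x) (σ (X, ofR x)) =
        ofR (Sum.elim (fun i => x (Sum.inl i)) fun j => (σ (X, ofR x) j).re) := by
      funext l
      rcases l with i | j
      · rfl
      · exact Complex.ext (by simp [R0.mk, ofR]) (by simpa [R0.mk, ofR] using h.real X (g1 X hX) x hx j)
    unfold ff
    rw [e]
    exact (hG.real X (h01.trans_lt (g1 X hX)) _ (e ▸ domA h hr (g1 X hX) hx)).1
  · exact (((contDiffAt_of_ev (ev_diff hG h hr h01 (g1 _ hp.1) (g4 _ hp.1) hp.2)).restrict_scalars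
      ℝ).comp p (hin p)).contDiffWithinAt
  · exact ((continuous_apply j).continuousAt.comp
      (ContinuousAt.comp (f := fun p : ℝ × (ι ⊕ κ → ℂ) => ((p.1 : ℂ), p.2))
        (h.hol _ (g1 _ hp.1) _ hp.2).self_of_nhds.continuousAt
        (hin p).continuousAt)).continuousWithinAt
  · have hz := mem_DX N (by linarith [g2 X hX]) h1 h2
    refine ⟨hz, (sig_le h hk (g1 X hX) (g3 X hX) hz).trans ?_⟩
    have : D / X ≤ 1 / 2 := by
      rw [div_le_iff₀ (g4 X hX)]; linarith [g2 X hX, abs_nonneg (Gi.c0 N)]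
    linarith
  · obtain ⟨a0, ha0, hb⟩ := hG.base
    have t1 : Tendsto (fun X : ℝ => ‖a0 X‖ * X ^ 2) atTop (𝓝 0) := by
      have := ha0.norm
      rw [norm_zero] at this
      refine this.congr fun X => ?_
      rw [norm_smul, norm_pow, Complex.norm_real, Real.norm_eq_abs, sq_abs, mul_comm]
    have t2 : Tendsto (fun X : ℝ => D / X) atTop (𝓝 0) := tendsto_const_nhds.div_atTop tendsto_id
    have t3 : Tendsto (fun X : ℝ => 2 * |C| * (D / X) + 2 * |C| * (‖a0 X‖ * X ^ 2)) atTop (𝓝 0) := by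
      simpa using (t2.const_mul (2 * |C|)).add (t1.const_mul (2 * |C|))
    have t4 : Tendsto (fun X : ℝ => ff FF σ X 0 - FF (X, mk (0 : ι ⊕ κ → ℂ) (a0 X))) atTop (𝓝 0) := by
      refine squeeze_zero_norm' ?_ t3
      filter_upwards [eventually_gt_atTop X2, t1.eventually (gt_mem_nhds zero_lt_one),
        t2.eventually (gt_mem_nhds zero_lt_one), eventually_gt_atTop (4 * KK N)] with X hX e1 e2 e3
      have hz : (0 : ι ⊕ κ → ℂ) ∈ DX N r' (1 / 16) X := mem_DX N (by linarith [g2 X hX])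
        (fun i => by simpa using h.r_pos) (by rw [show aa (0 : ι ⊕ κ → ℂ) = 0 from rfl]; simp)
      have s1 := sig_le h hk (g1 X hX) (g3 X hX) hz
      rw [show aa (0 : ι ⊕ κ → ℂ) = 0 from rfl, norm_zero, zero_mul, zero_add] at s1
      have hK : 4 * KK N < X ^ 2 := by nlinarith [g3 X hX]
      have l1 := lip0 hG (h01.trans_lt (g1 X hX)) (g4 X hX) hK (s1.trans_lt e2)
      have l2 := lip0 hG (h01.trans_lt (g1 X hX)) (g4 X hX) hK e1
      have c1 : 2 * C ≤ 2 * |C| := by linarith [le_abs_self C]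
      have := norm_sub_le_norm_sub_add_norm_sub (ff FF σ X 0) (FF (X, mk 0 0))
        (FF (X, mk (0 : ι ⊕ κ → ℂ) (a0 X)))
      rw [norm_sub_rev (FF (X, mk 0 0))] at this
      refine this.trans (add_le_add (l1.trans ?_) (l2.trans ?_))
      · exact mul_le_mul c1 s1 (by positivity) (by positivity)
      · exact mul_le_mul_of_nonneg_right c1 (by positivity)
    simpa using t4.add hb

end Crest.Agent.N250.Xi

end
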