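import Crest.Agent.N250.Xi.Al2
import Crest.Agent.N250.Xi.Est
import Crest.Agent.N250.Xi.Der
import Crest.Agent.N250.Xi.Soft

/-!
# Row 250 (helper12): `XiS`
-/

namespace Crest.Agent.N250.Xi

theorem xiS_holds : R0.XiS := xiS_of estS_holds alS_holds derS_holds softS_holds

end Crest.Agent.N250.Xi
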