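import Crest.Agent.N250.Xi.Asm
import Crest.Agent.N250.Xi.Inv
import Crest.Agent.N250.Xi.Sc
import Crest.Agent.N250.Xi.Tip

/-!
# Row 250 (helper12): margins and Lipschitz bounds for the inversion
-/

set_option autoImplicit false
set_option linter.unusedSectionVars false
open Set Filter Topology Metric

noncomputable section

namespace Crest.Agent.N250.Xi

open Crest.Agent.N250.B2 (aa ofR)
open Crest.Agent.N250.Gi (KK hat TL DX Fx Lam)
open R0 B1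

theorem margin {K X s : ℝ} {b b' : ℂ} (h : Adm (K + 1) X b) (hK : 0 ≤ K) (hX : 2 ≤ X)
    (hKX : K ≤ X ^ 2) (hs : |s - X| ≤ 1 / (8 * X)) (hb : ‖b' - b‖ ≤ 1 / X ^ 4) : Adm K s b' := by
  have hY : 4 ≤ X ^ 2 := by nlinarith
  have h1 := Tip.norm_le h (by linarith)
  have h2 : |s - X| * X ≤ 1 / 8 := by
    rw [le_div_iff₀ (by positivity)] at hs; linarith
  have h3 : |s - X| ≤ 1 / 16 := by nlinarith [abs_nonneg (s - X)]
  have h4 : |s ^ 2 - X ^ 2| ≤ 13 / 50 := by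
    have e : s ^ 2 - X ^ 2 = (s - X) * (s - X) + 2 * ((s - X) * X) := by ring
    rw [e]
    refine (abs_add_le _ _).trans ?_
    rw [abs_mul, abs_mul, abs_mul, abs_of_nonneg (by linarith : 0 ≤ X), abs_two]
    nlinarith [abs_nonneg (s - X)]
  obtain ⟨h5, h6⟩ := abs_le.1 h4
  have e : b' * (s : ℂ) ^ 2 / 2 - 1 / 8 = (b * (X : ℂ) ^ 2 / 2 - 1 / 8) +
      b * (((s ^ 2 - X ^ 2) / 2 : ℝ) : ℂ) + (b' - b) * ((s ^ 2 / 2 : ℝ) : ℂ) := by
    push_cast; ring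
  have n1 : ‖b * (((s ^ 2 - X ^ 2) / 2 : ℝ) : ℂ)‖ ≤ 13 / 40 / X ^ 2 := by
    rw [norm_mul, Complex.norm_real, Real.norm_eq_abs, abs_div, abs_two,
      le_div_iff₀ (by positivity)]
    nlinarith [norm_nonneg b, abs_nonneg (s ^ 2 - X ^ 2),
      mul_le_mul h1 h4 (abs_nonneg _) (by norm_num)]
  have n2 : ‖(b' - b) * ((s ^ 2 / 2 : ℝ) : ℂ)‖ ≤ 27 / 50 / X ^ 2 := by
    rw [norm_mul, Complex.norm_real, Real.norm_of_nonneg (by positivity)]
    calc _ ≤ 1 / X ^ 4 * (27 / 50 * X ^ 2) := by gcongr; linarith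
      _ = _ := by field_simp
  have n3 : 2 * K / s ^ 2 ≤ 2 * K / X ^ 2 + 1 / X ^ 2 := by
    rw [← add_div, div_le_div_iff₀ (by linarith) (by positivity)]
    nlinarith
  have n4 := norm_add₃_le (a := b * (X : ℂ) ^ 2 / 2 - 1 / 8)
    (b := b * (((s ^ 2 - X ^ 2) / 2 : ℝ) : ℂ)) (c := (b' - b) * ((s ^ 2 / 2 : ℝ) : ℂ))
  have e2 : 2 * (K + 1) / X ^ 2 = 2 * K / X ^ 2 + 2 * (1 / X ^ 2) := by field_simp
  have e3 : 13 / 40 / X ^ 2 = 13 / 40 * (1 / X ^ 2) := by field_simp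
  have e4 : 27 / 50 / X ^ 2 = 27 / 50 * (1 / X ^ 2) := by field_simp
  have p : 0 < 1 / X ^ 2 := by positivity
  unfold Adm at *
  rw [e]
  linarith

theorem adm_re {K X : ℝ} {a : ℂ} (h : Adm K X a) : Adm K X (a.re : ℂ) := by
  have e : ((a.re : ℝ) : ℂ) * (X : ℂ) ^ 2 / 2 - 1 / 8 = (((a * X ^ 2 / 2 - 1 / 8).re : ℝ) : ℂ) := by
    have : a * X ^ 2 / 2 - 1 / 8 = a * ((X ^ 2 / 2 : ℝ) : ℂ) - ((1 / 8 : ℝ) : ℂ) := by
      push_cast; ring
    rw [this, Complex.sub_re, Complex.re_mul_ofReal, Complex.ofReal_re]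
    push_cast; ring
  have := Complex.abs_re_le_norm (a * X ^ 2 / 2 - 1 / 8)
  unfold Adm at *
  rw [e, Complex.norm_real, Real.norm_eq_abs]
  linarith

theorem isOpen_adm (K : ℝ) : IsOpen {p : ℝ × ℂ | 0 < p.1 ∧ Adm K p.1 p.2} := by
  have h : ContinuousOn (fun p : ℝ × ℂ => ‖p.2 * (p.1 : ℂ) ^ 2 / 2 - 1 / 8‖ + 2 * K / p.1 ^ 2)
      {p | 0 < p.1} :=
    (Continuous.continuousOn (by fun_prop)).add (continuousOn_const.div (by fun_prop)
      fun p hp => pow_ne_zero 2 (ne_of_gt hp))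
  exact h.isOpen_inter_preimage (isOpen_lt continuous_const continuous_fst) isOpen_Iio

theorem q_le {K X : ℝ} {a : ℂ} (h : Adm K X a) (hK : 0 ≤ K) (hX : 2 ≤ X) :
    ‖hat X a - a‖ ≤ 7 * (2 * Real.log (X ^ 2) + 2) / X ^ 4 := by
  have h1 := Tip.norm_le h hK
  have h2 := lam_le h hK hX
  have h3 : ‖a‖ ≤ 5 / 2 / X ^ 2 := by rwa [le_div_iff₀ (by positivity)]
  rw [hat, add_sub_cancel_left, norm_mul, norm_pow]
  calc _ ≤ (5 / 2 / X ^ 2) ^ 2 * (2 * Real.log (X ^ 2) + 2) := by gcongr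
    _ = 25 / 4 * (2 * Real.log (X ^ 2) + 2) / X ^ 4 := by field_simp; ring
    _ ≤ _ := by
      have := (norm_nonneg _).trans h2
      gcongr; norm_num

theorem hat_le5 {K X : ℝ} {a : ℂ} (h : Adm K X a) (hK : 0 ≤ K) (hX : 200 ≤ X) :
    ‖hat X a‖ ≤ 5 / X ^ 2 := by
  have h1 := q_le h hK (by linarith)
  have h2 := log_le (X := X) (by linarith)
  have h3 := quarter' (X := X) (by linarith)
  have h4 : ‖a‖ ≤ 5 / 2 / X ^ 2 := by
    rw [le_div_iff₀ (by positivity)]; exact Tip.norm_le h hK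
  have h5 : 7 * (2 * Real.log (X ^ 2) + 2) / X ^ 4 ≤ 5 / 2 / X ^ 2 := by
    rw [div_le_div_iff₀ (by positivity) (by positivity)]
    have : 7 * (2 * Real.log (X ^ 2) + 2) ≤ 5 / 2 * X ^ 2 := by nlinarith
    nlinarith [mul_le_mul_of_nonneg_right this (sq_nonneg X)]
  have h6 := norm_add_le (hat X a - a) a
  rw [sub_add_cancel] at h6
  have e : 5 / X ^ 2 = 5 / 2 / X ^ 2 + 5 / 2 / X ^ 2 := by ring
  linarith

theorem hat_diff {K X : ℝ} {a : ℂ} (h : Adm K X a) (hK : 0 ≤ K) (hX : 2 ≤ X) :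
    DifferentiableAt ℂ (hat X) a := by
  have h4 : 0 ≤ 1 - 2 / X ^ 2 := by
    rw [sub_nonneg, div_le_one (by positivity)]; nlinarith
  have h1 : 0 < (et a X).re := lt_of_lt_of_le (by positivity) (Tip.re_ge h hX)
  exact differentiableAt_id.add (hasDerivAt_q h1).differentiableAt

theorem lg_le {e : ℝ} (he : 0 < e) : ∃ c : ℝ, 0 ≤ c ∧ ∀ X s : ℝ, 1 ≤ X → 1 ≤ s → s ≤ 2 * X →
    2 * Real.log (s ^ 2) + 2 ≤ c * X ^ e := by
  refine ⟨4 / e * 2 ^ e + 2, by positivity, fun X s hX h1 h2 => ?_⟩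
  have a1 := Real.log_le_rpow_div (x := s) (by linarith) he
  have a2 : s ^ e ≤ 2 ^ e * X ^ e := by
    rw [← Real.mul_rpow (by norm_num) (by linarith)]
    exact Real.rpow_le_rpow (by linarith) h2 he.le
  have a3 : 1 ≤ X ^ e := Real.one_le_rpow hX he.le
  have a4 : s ^ e / e ≤ 2 ^ e * X ^ e / e := by gcongr
  rw [Real.log_pow]
  push_cast
  have e1 : (4 / e * 2 ^ e + 2) * X ^ e = 4 * (2 ^ e * X ^ e / e) + 2 * X ^ e := by field_simp
  linarith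

variable {ι κ : Type} [Fintype ι] [Fintype κ]

theorem mk_aa (z : ι ⊕ κ → ℂ) : mk z (aa z) = z := by funext l; cases l <;> rfl

theorem hz_mk (X : ℝ) (z : ι ⊕ κ → ℂ) (a : κ → ℂ) : hz X (mk z a) = mk z fun j => hat X (a j) := by
  funext l; cases l <;> rfl

theorem mk_ball {r : ℝ} (hr : 0 < r) {z : ι ⊕ κ → ℂ} {a : κ → ℂ} (hz : ∀ i, ‖z (Sum.inl i)‖ < r)
    (ha : ∀ j, ‖a j‖ < r) : mk z a ∈ ball (0 : ι ⊕ κ → ℂ) r := by
  rw [mem_ball_zero_iff, pi_norm_lt_iff hr]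
  rintro (i | j)
  exacts [hz i, ha j]

theorem inl_lt {r : ℝ} {z : ι ⊕ κ → ℂ} (hz : z ∈ ball (0 : ι ⊕ κ → ℂ) r) (l : ι ⊕ κ) : ‖z l‖ < r :=
  (norm_le_pi_norm z l).trans_lt (mem_ball_zero_iff.1 hz)

theorem norm_aa (z : ι ⊕ κ → ℂ) : ‖aa z‖ ≤ ‖z‖ :=
  (pi_norm_le_iff_of_nonneg (norm_nonneg _)).2 fun j => norm_le_pi_norm z (Sum.inr j)

section
variable {E : Type*} [NormedAddCommGroup E] [NormedSpace ℂ E]

theorem diff_mk {f : E → ι ⊕ κ → ℂ} {g : E → κ → ℂ} {x : E} (hf : DifferentiableAt ℂ f x)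
    (hg : DifferentiableAt ℂ g x) : DifferentiableAt ℂ (fun y => mk (f y) (g y)) x := by
  rw [differentiableAt_pi] at *
  rintro (i | j)
  exacts [hf (Sum.inl i), hg j]

theorem diff_aa {f : E → ι ⊕ κ → ℂ} {x : E} (hf : DifferentiableAt ℂ f x) :
    DifferentiableAt ℂ (fun y => aa (f y)) x := by
  rw [differentiableAt_pi] at *
  exact fun j => hf (Sum.inr j)

end

theorem isOpen_Om (r K X0 θ : ℝ) (h : 0 ≤ X0) : IsOpen (Om r K X0 θ : Set (ℂ × (ι ⊕ κ → ℂ))) := by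
  refine isOpen_iff_mem_nhds.2 fun q hq => ?_
  have h0 : 0 < q.1.re := h.trans_lt hq.1
  have c1 : Continuous fun q : ℂ × (ι ⊕ κ → ℂ) => q.1.re := by fun_prop
  refine (c1.continuousAt.eventually (lt_mem_nhds hq.1)).and (Eventually.and ?_ (Eventually.and
    (eventually_all.2 fun i => ?_) (eventually_all.2 fun j => ?_)))
  · exact ContinuousAt.eventually_lt (by fun_prop)
      (continuousAt_const.div c1.continuousAt h0.ne') hq.2.1
  · exact ContinuousAt.eventually_lt (by fun_prop) continuousAt_const (hq.2.2.1 i)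
  · have c2 : Continuous fun q : ℂ × (ι ⊕ κ → ℂ) => (q.1.re, q.2 (Sum.inr j)) := by fun_prop
    exact (c2.continuousAt.eventually ((isOpen_adm K).mem_nhds ⟨h0, hq.2.2.2 j⟩)).mono
      fun _ h => h.2

theorem convex_pi (K X : ℝ) : Convex ℝ {a : κ → ℂ | ∀ j, Adm K X (a j)} :=
  fun _ ha _ hb _ _ hs ht hst j => Tip.convex_adm K X (ha j) (hb j) hs ht hst

end Crest.Agent.N250.Xi

end
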