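import Crest.Agent.N250.Xi.Al0

/-!
# Row 250 (helper12): the equation `Z (X, R0.mk z a) = Θ z` on a thin complex strip
-/

set_option autoImplicit false
set_option linter.unusedSectionVars false
open Set Filter Topology Metric

noncomputable section

namespace Crest.Agent.N250.Xi

open Crest.Agent.N250.B2 (aa ofR)
open Crest.Agent.N250.Gi (KK hat TL DX Fx Lam)
open R0 B1

variable {ι κ : Type} [Fintype ι] [Fintype κ]

theorem lipP {G : Type*} [NormedAddCommGroup G] [NormedSpace ℂ G] {K X : ℝ} {f : (κ → ℂ) → G}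
    {ρ ε : ℝ} (hρ : 0 < ρ)
    (hd : ∀ b : κ → ℂ, (∀ j, Adm K X (b j)) → DifferentiableOn ℂ f (ball b ρ))
    (hb : ∀ b : κ → ℂ, (∀ j, Adm K X (b j)) → ∀ x ∈ ball b ρ, ‖f x‖ ≤ ε) {a a' : κ → ℂ}
    (ha : ∀ j, Adm K X (a j)) (ha' : ∀ j, Adm K X (a' j)) : ‖f a - f a'‖ ≤ 2 * ε / ρ * ‖a - a'‖ :=
  (convex_pi K X).norm_image_sub_le_of_norm_fderiv_le (𝕜 := ℂ)
    (fun b h => (hd b h).differentiableAt (ball_mem_nhds b hρ))
    (fun b h => H.fd_le hρ (hd b h) (hb b h)) ha' ha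

/-- the width constant -/
def cw (θ : ℝ) : ℝ := min (θ / 2) (1 / 8)

theorem cw_pos {θ : ℝ} (h : 0 < θ) : 0 < cw θ := lt_min (by positivity) (by norm_num)

/-- the cut is large -/
structure Big (N : ℕ) (C0 r X0 θ C k X : ℝ) : Prop where
  x0 : X0 + 1 < X
  x0' : 0 ≤ X0
  ge : 200 ≤ X
  K : KK N + 1 ≤ X ^ 2
  K10 : 10 ≤ KK N
  small : 5 / X ^ 2 < r / 2
  c1 : 1 ≤ cw θ * X
  c2 : 32 * C ^ 2 ≤ cw θ * X
  del : C0 / ((N : ℝ) + 1) + C * X ^ (-k) ≤ 1 / 32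

/-- the domain of the equation -/
def Om1 (N : ℕ) (r X1 : ℝ) : Set ((ℂ × (ι ⊕ κ → ℂ)) × (κ → ℂ)) :=
  {q | X1 < q.1.1.re ∧ |q.1.1.im| * q.1.1.re ^ 6 < 1 ∧ q.1.2 ∈ ball (0 : ι ⊕ κ → ℂ) r ∧
    ∀ j, Adm (KK N + 1) q.1.1.re (q.2 j)}

/-- the equation -/
def Ph (Z : ℂ × (ι ⊕ κ → ℂ) → ι ⊕ κ → ℂ) (Θ : (ι ⊕ κ → ℂ) → ι ⊕ κ → ℂ)
    (q : (ℂ × (ι ⊕ κ → ℂ)) × (κ → ℂ)) : κ → ℂ := aa (Z (q.1.1, R0.mk q.1.2 q.2)) - aa (Θ q.1.2)

theorem isOpen_Om1 (N : ℕ) (r X1 : ℝ) (h : 0 ≤ X1) :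
    IsOpen (Om1 N r X1 : Set ((ℂ × (ι ⊕ κ → ℂ)) × (κ → ℂ))) := by
  refine isOpen_iff_mem_nhds.2 fun q hq => ?_
  have h0 : 0 < q.1.1.re := h.trans_lt hq.1
  have c1 : Continuous fun q : (ℂ × (ι ⊕ κ → ℂ)) × (κ → ℂ) => q.1.1.re := by fun_prop
  have c3 : Continuous fun q : (ℂ × (ι ⊕ κ → ℂ)) × (κ → ℂ) => q.1.2 := by fun_prop
  refine (c1.continuousAt.eventually (lt_mem_nhds hq.1)).and (Eventually.and ?_ (Eventually.and
    (c3.continuousAt.eventually (isOpen_ball.mem_nhds hq.2.2.1)) (eventually_all.2 fun j => ?_)))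
  · exact ContinuousAt.eventually_lt (by fun_prop) continuousAt_const hq.2.1
  · have c2 : Continuous fun q : (ℂ × (ι ⊕ κ → ℂ)) × (κ → ℂ) => (q.1.1.re, q.2 j) := by fun_prop
    exact (c2.continuousAt.eventually ((isOpen_adm _).mem_nhds ⟨h0, hq.2.2.2 j⟩)).mono
      fun _ h => h.2

variable {N : ℕ} {C0 r X0 θ C k X : ℝ} {Z : ℂ × (ι ⊕ κ → ℂ) → ι ⊕ κ → ℂ}
  {Θ : (ι ⊕ κ → ℂ) → ι ⊕ κ → ℂ} {A : (κ → ℂ) ≃L[ℂ] (κ → ℂ)}

namespace Big

theorem pos (hB : Big N C0 r X0 θ C k X) : 0 < X := by linarith [hB.ge]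

theorem cwp (hB : Big N C0 r X0 θ C k X) : 0 < cw θ :=
  pos_of_mul_pos_left (a := cw θ) (b := X) (by linarith [hB.c1]) hB.pos.le

theorem K0 (hB : Big N C0 r X0 θ C k X) : 0 ≤ KK N := by linarith [hB.K10]

theorem re_near (hB : Big N C0 r X0 θ C k X) {t : ℂ} (ht : t ∈ ball (X : ℂ) (cw θ / X)) :
    |t.re - X| ≤ 1 / (8 * X) ∧ |t.im| < cw θ / X := by
  have h0 := hB.pos
  rw [mem_ball, dist_eq_norm] at ht
  refine ⟨?_, by simpa using (Complex.abs_im_le_norm (t - X)).trans_lt ht⟩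
  have h1 : |t.re - X| < cw θ / X := by simpa using (Complex.abs_re_le_norm (t - X)).trans_lt ht
  refine h1.le.trans ?_
  rw [← div_div]
  gcongr
  exact min_le_right _ _

theorem re_mem (hB : Big N C0 r X0 θ C k X) {s : ℝ} (hs : |s - X| ≤ 1 / (8 * X)) :
    X - 1 ≤ s ∧ s ≤ 2 * X := by
  have h1 : 1 / (8 * X) ≤ 1 := by rw [div_le_one (by linarith [hB.ge])]; linarith [hB.ge]
  obtain ⟨a, b⟩ := abs_le.1 (hs.trans h1)
  exact ⟨by linarith, by linarith [hB.ge]⟩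

theorem adm (hB : Big N C0 r X0 θ C k X) {s : ℝ} (hs : |s - X| ≤ 1 / (8 * X)) {b b' : κ → ℂ}
    (hb : ∀ j, Adm (KK N + 1) X (b j)) (hb' : ‖b' - b‖ ≤ 1 / X ^ 4) (j : κ) : Adm (KK N) s (b' j) :=
  margin (hb j) hB.K0 (by linarith [hB.ge]) (by linarith [hB.K]) hs
    ((norm_le_pi_norm (b' - b) j).trans hb')

theorem self (hB : Big N C0 r X0 θ C k X) : |X - X| ≤ 1 / (8 * X) := by
  have := hB.pos; rw [sub_self, abs_zero]; positivity

theorem memO (hB : Big N C0 r X0 θ C k X) {t : ℂ} (ht : t ∈ ball (X : ℂ) (cw θ / X))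
    {z : ι ⊕ κ → ℂ} (hz : z ∈ ball (0 : ι ⊕ κ → ℂ) r) {b b' : κ → ℂ}
    (hb : ∀ j, Adm (KK N + 1) X (b j)) (hb' : ‖b' - b‖ ≤ 1 / X ^ 4) :
    (t, R0.mk z b') ∈ Om r (KK N) X0 θ := by
  obtain ⟨h1, h2⟩ := hB.re_near ht
  obtain ⟨h3, h4⟩ := hB.re_mem h1
  have h0 := hB.pos
  refine ⟨by linarith [hB.x0], h2.trans_le ?_, fun i => inl_lt hz _, hB.adm h1 hb hb'⟩
  have h5 : 0 < cw θ := hB.cwp
  have h6 : cw θ ≤ θ / 2 := min_le_left _ _
  rw [div_le_div_iff₀ h0 (by linarith [hB.ge])]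
  nlinarith

theorem ctr_mem (hB : Big N C0 r X0 θ C k X) : (X : ℂ) ∈ ball (X : ℂ) (cw θ / X) :=
  mem_ball_self (div_pos hB.cwp hB.pos)

theorem hat_ball (hB : Big N C0 r X0 θ C k X) {K : ℝ} (hK : 0 ≤ K) {b : κ → ℂ}
    (hb : ∀ j, Adm K X (b j)) (j : κ) : ‖hat X (b j)‖ < r / 2 :=
  (hat_le5 (hb j) hK hB.ge).trans_lt hB.small

end Big

namespace Est

theorem Z_at (h : Est N C0 Z Θ A r X0 θ C k) (h0 : 0 ≤ X0) {q : ℂ × (ι ⊕ κ → ℂ)}
    (hq : q ∈ Om r (KK N) X0 θ) : DifferentiableAt ℂ Z q :=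
  h.hZ.differentiableAt ((isOpen_Om _ _ _ _ h0).mem_nhds hq)

theorem Θ_at (h : Est N C0 Z Θ A r X0 θ C k) {z : ι ⊕ κ → ℂ} (hz : z ∈ ball (0 : ι ⊕ κ → ℂ) r) :
    DifferentiableAt ℂ Θ z := h.hol.differentiableAt (isOpen_ball.mem_nhds hz)

section
variable {E : Type*} [NormedAddCommGroup E] [NormedSpace ℂ E]

theorem dZ (h : Est N C0 Z Θ A r X0 θ C k) (h0 : 0 ≤ X0) {t : E → ℂ} {z : E → ι ⊕ κ → ℂ}
    {b : E → κ → ℂ} {x : E} (ht : DifferentiableAt ℂ t x) (hz : DifferentiableAt ℂ z x)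
    (hb : DifferentiableAt ℂ b x) (m : (t x, R0.mk (z x) (b x)) ∈ Om r (KK N) X0 θ) :
    DifferentiableAt ℂ (fun y => aa (Z (t y, R0.mk (z y) (b y)))) x :=
  diff_aa (f := fun y => Z (t y, R0.mk (z y) (b y))) (DifferentiableAt.comp (g := Z)
    (f := fun y => (t y, R0.mk (z y) (b y))) x (h.Z_at h0 m) (ht.prodMk (diff_mk hz hb)))

theorem dT (h : Est N C0 Z Θ A r X0 θ C k) {z : E → ι ⊕ κ → ℂ} {x : E}
    (hz : DifferentiableAt ℂ z x) (m : z x ∈ ball (0 : ι ⊕ κ → ℂ) r) :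
    DifferentiableAt ℂ (fun y => aa (Θ (z y))) x :=
  diff_aa (f := fun y => Θ (z y)) (DifferentiableAt.comp (g := Θ) (f := z) x (h.Θ_at m) hz)

theorem dA (A : (κ → ℂ) ≃L[ℂ] (κ → ℂ)) {f g : E → κ → ℂ} {x : E} (hf : DifferentiableAt ℂ f x)
    (hg : DifferentiableAt ℂ g x) : DifferentiableAt ℂ (fun y => A.symm (f y - g y)) x :=
  DifferentiableAt.comp (g := A.symm) (f := fun y => f y - g y) x A.symm.differentiableAt (hf.sub hg)

end

theorem half (h : Est N C0 Z Θ A r X0 θ C k) {x : ℝ} (hx : x < r / 2) : x < r := by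
  linarith [h.r_pos]

/-- the real cut -/
theorem lipR (h : Est N C0 Z Θ A r X0 θ C k) (hB : Big N C0 r X0 θ C k X) {z : ι ⊕ κ → ℂ}
    (hz : z ∈ ball (0 : ι ⊕ κ → ℂ) r) {a a' : κ → ℂ} (ha : ∀ j, Adm (KK N + 1) X (a j))
    (ha' : ∀ j, Adm (KK N + 1) X (a' j)) :
    ‖a - a' - A.symm (aa (Z (X, R0.mk z a)) - aa (Z (X, R0.mk z a')))‖ ≤ 3 / 4 * ‖a - a'‖ := by
  have h0 := hB.pos
  have hK1 : 0 ≤ KK N + 1 := by linarith [hB.K0]
  set H : (κ → ℂ) → κ → ℂ := fun b j => hat X (b j) with hH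
  set D : (κ → ℂ) → κ → ℂ := fun b => A.symm (aa (Z (X, R0.mk z b)) - aa (Θ (R0.mk z (H b)))) with hD
  have hle : ∀ b : κ → ℂ, ∀ x ∈ ball b (1 / X ^ 4), ‖x - b‖ ≤ 1 / X ^ 4 := fun b x hx =>
    (mem_ball_iff_norm.1 hx).le
  have h1 : ‖D a - D a'‖ ≤ 2 * (1 / 32 / X ^ 4) / (1 / X ^ 4) * ‖a - a'‖ := by
    refine lipP (f := D) (by positivity) (fun b hb x hx => ?_)
      (fun b hb x hx => ?_) ha ha'
    · have m1 := hB.memO hB.ctr_mem hz hb (hle b x hx)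
      have m2 := hB.adm hB.self hb (hle b x hx)
      have d1 : DifferentiableAt ℂ (fun b => aa (Z (X, R0.mk z b))) x :=
        h.dZ hB.x0' (t := fun _ => X) (z := fun _ => z) (b := fun b => b) (by fun_prop)
          (by fun_prop) (by fun_prop) m1
      have d2 : DifferentiableAt ℂ H x := differentiableAt_pi.2 fun j =>
        DifferentiableAt.comp (g := hat X) (f := fun b : κ → ℂ => b j) x
          (hat_diff (m2 j) hB.K0 (by linarith [hB.ge])) (by fun_prop)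
      have d3 : DifferentiableAt ℂ (fun b => aa (Θ (R0.mk z (H b)))) x :=
        h.dT (z := fun b => R0.mk z (H b)) (diff_mk (f := fun _ => z) (differentiableAt_const _) d2)
          (mk_ball h.r_pos (fun i => inl_lt hz _) fun j => h.half (hB.hat_ball hB.K0 m2 j))
      exact (dA A d1 d3).differentiableWithinAt
    · have m1 := hB.memO hB.ctr_mem hz hb (hle b x hx)
      have := h.est X (by linarith [hB.x0]) _ m1.2.2
      rw [hz_mk] at this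
      exact this.trans (by gcongr; exact hB.del)
  have hb : ∀ b : κ → ℂ, (∀ j, Adm (KK N + 1) X (b j)) → H b ∈ ball (0 : κ → ℂ) r := fun b hb => by
    rw [mem_ball_zero_iff, pi_norm_lt_iff h.r_pos]
    exact fun j => h.half (hB.hat_ball hK1 hb j)
  have h2 := h.lin z hz _ (hb a ha) _ (hb a' ha')
  have h3 : ‖H a - H a' - (a - a')‖ ≤ ‖a - a'‖ / 2 := by
    refine (pi_norm_le_iff_of_nonneg (by positivity)).2 fun j => ?_
    have := q_lip (ha j) (ha' j) (by linarith [hB.K10]) hB.ge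
    refine le_trans (le_of_eq ?_) (this.trans ?_)
    · congr 1; simp only [hH, Pi.sub_apply, hat]; ring
    · have := norm_le_pi_norm (a - a') j
      rw [Pi.sub_apply] at this; linarith
  have h4 := norm_add_le (H a - H a' - (a - a')) (a - a')
  rw [sub_add_cancel] at h4
  have e : a - a' - A.symm (aa (Z (X, R0.mk z a)) - aa (Z (X, R0.mk z a'))) =
      (H a - H a' - A.symm (aa (Θ (R0.mk z (H a))) - aa (Θ (R0.mk z (H a'))))) -
        (H a - H a' - (a - a')) - (D a - D a') := by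
    simp only [hD, map_sub]; abel
  have e2 : 2 * (1 / 32 / X ^ 4) / (1 / X ^ 4) = 1 / 16 := by field_simp; norm_num
  rw [e]
  rw [e2] at h1
  refine (norm_sub_le _ _).trans ((add_le_add (norm_sub_le _ _) le_rfl).trans ?_)
  linarith

/-- the complex cut -/
theorem lipC' (h : Est N C0 Z Θ A r X0 θ C k) {t : ℂ} (hB : Big N C0 r X0 θ C k t.re)
    (ht : |t.im| * t.re ^ 6 < 1) {z : ι ⊕ κ → ℂ}
    (hz : z ∈ ball (0 : ι ⊕ κ → ℂ) r) {a a' : κ → ℂ} (ha : ∀ j, Adm (KK N + 1) t.re (a j))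
    (ha' : ∀ j, Adm (KK N + 1) t.re (a' j)) :
    t ∈ ball (t.re : ℂ) (cw θ / t.re) ∧
    ‖a - a' - A.symm (aa (Z (t, R0.mk z a)) - aa (Z (t, R0.mk z a')))‖ ≤ 7 / 8 * ‖a - a'‖ := by
  set X := t.re
  have h0 := hB.pos
  have hC := h.C_nn
  have hc := cw_pos h.θ_pos
  have e1 : ‖t - X‖ = |t.im| := by
    have : t - X = t.im * Complex.I := by rw [sub_eq_iff_eq_add', Complex.re_add_im]
    rw [this]; simp
  have i1 : |t.im| < 1 / X ^ 6 := by rwa [lt_div_iff₀ (by positivity)]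
  have hm : t ∈ ball (X : ℂ) (cw θ / X) := by
    rw [mem_ball_iff_norm, e1]
    refine i1.trans_le ?_
    rw [div_le_div_iff₀ (by positivity) h0]
    have : 1 * (X * 1) ≤ (cw θ * X) * (X * X ^ 4) := by
      gcongr
      exacts [hB.c1, one_le_pow₀ (by linarith [hB.ge])]
    nlinarith
  refine ⟨hm, ?_⟩
  set g : ℂ → κ → ℂ := fun u => A.symm (aa (Z (u, R0.mk z a)) - aa (Z (u, R0.mk z a'))) with hg
  have z0 : ∀ b : κ → ℂ, ‖b - b‖ ≤ 1 / X ^ 4 := fun b => by rw [sub_self, norm_zero]; positivity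
  have d1 : ∀ b : κ → ℂ, (∀ j, Adm (KK N + 1) X (b j)) → ∀ u ∈ ball (X : ℂ) (cw θ / X),
      DifferentiableAt ℂ (fun u => aa (Z (u, R0.mk z b))) u := fun b hb u hu =>
    h.dZ hB.x0' (t := fun u => u) (z := fun _ => z) (b := fun _ => b) (by fun_prop)
      (by fun_prop) (by fun_prop) (hB.memO hu hz hb (z0 b))
  have h1 := H.lip_le (f := g) (M := C * (2 * C / (1 / X ^ 4) * ‖a - a'‖))
    (fun u hu => (dA A (d1 a ha u hu) (d1 a' ha' u hu)).differentiableWithinAt) (fun u hu => by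
      refine (h.A_le _).trans (mul_le_mul_of_nonneg_left ?_ hC)
      refine lipP (f := fun b => aa (Z (u, R0.mk z b))) (by positivity)
        (fun b hb x hx => ?_) (fun b hb x hx => ?_) ha ha'
      · exact (h.dZ hB.x0' (t := fun _ => u) (z := fun _ => z) (b := fun b => b) (by fun_prop)
          (by fun_prop) (by fun_prop)
          (hB.memO hu hz hb (mem_ball_iff_norm.1 hx).le)).differentiableWithinAt
      · exact (norm_aa _).trans (h.bdZ _ (hB.memO hu hz hb (mem_ball_iff_norm.1 hx).le))) hm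
  have h2 := h.lipR hB hz ha ha'
  have h3 : ‖g t - g X‖ ≤ 1 / 8 * ‖a - a'‖ := by
    refine h1.trans ?_
    rw [e1]
    calc _ ≤ 2 * (C * (2 * C / (1 / X ^ 4) * ‖a - a'‖)) / (cw θ / X) * (1 / X ^ 6) := by gcongr
      _ = 32 * C ^ 2 / (cw θ * X) * (1 / 8 * ‖a - a'‖) := by field_simp; ring
      _ ≤ _ := mul_le_of_le_one_left (by positivity) ((div_le_one (by positivity)).2 hB.c2)
  have e : a - a' - g t = (a - a' - g X) - (g t - g X) := by abel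
  change ‖a - a' - g t‖ ≤ _
  rw [e]
  refine (norm_sub_le _ _).trans ?_
  linarith

theorem eq8 (h : Est N C0 Z Θ A r X0 θ C k) {X1 : ℝ} (h1 : 0 ≤ X1)
    (hB : ∀ X, X1 < X → Big N C0 r X0 θ C k X) : Eq8 A (Om1 N r X1) (Ph Z Θ) where
  isOpen := isOpen_Om1 N r X1 h1
  hol q hq := by
    have b := hB _ hq.1
    have m := b.memO (h.lipC' b hq.2.1 hq.2.2.1 hq.2.2.2 hq.2.2.2).1 hq.2.2.1 hq.2.2.2
      (b' := q.2) (by have := b.pos; rw [sub_self, norm_zero]; positivity)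
    exact ((h.dZ b.x0' (t := fun q : (ℂ × (ι ⊕ κ → ℂ)) × (κ → ℂ) => q.1.1) (z := fun q => q.1.2)
      (b := fun q => q.2) (by fun_prop) (by fun_prop) (by fun_prop) m).sub
      (h.dT (z := fun q : (ℂ × (ι ⊕ κ → ℂ)) × (κ → ℂ) => q.1.2) (by fun_prop)
        hq.2.2.1)).differentiableWithinAt
  lip p a a' ha ha' := by
    have := (h.lipC' (hB _ ha.1) ha.2.1 ha.2.2.1 ha.2.2.2 ha'.2.2.2).2
    simpa only [Ph, sub_sub_sub_cancel_right] using this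

end Est

end Crest.Agent.N250.Xi

end
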