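import Crest.Agent.N250.B1.Nest

/-!
Row 250, helper36.  Two-constants lemma: a holomorphic map bounded by `M` on a disc and by `ε` on a
short real segment has a derivative of size `ε / s + M s ^ (n + 1)` at the centre.
-/

set_option autoImplicit false

open Metric Set Complex

noncomputable section

namespace Crest.Agent.N250.Tw

/-- finite difference weights for the first derivative on the nodes `0, 1, …, n + 1` -/
theorem weights (n : ℕ) : ∃ c : Fin (n + 2) → ℂ, ∀ m : Fin (n + 2),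
    ∑ j, c j * ((j : ℕ) : ℂ) ^ (m : ℕ) = if m = 1 then 1 else 0 := by
  classical
  set V : Matrix (Fin (n + 2)) (Fin (n + 2)) ℂ := Matrix.vandermonde fun j => ((j : ℕ) : ℂ) with hV
  have hd : IsUnit V.det := by
    rw [isUnit_iff_ne_zero, hV, Matrix.det_vandermonde_ne_zero_iff]
    intro i j h
    exact Fin.ext (Nat.cast_injective (R := ℂ) h)
  refine ⟨Matrix.vecMul (Pi.single 1 1) V⁻¹, fun m => ?_⟩
  have h : Matrix.vecMul (Matrix.vecMul (Pi.single 1 1) V⁻¹) V = Pi.single (1 : Fin (n + 2)) 1 := by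
    rw [Matrix.vecMul_vecMul, Matrix.nonsing_inv_mul _ hd, Matrix.vecMul_one]
  have h2 := congrFun h m
  rw [Pi.single_apply] at h2
  rw [← h2]
  simp only [Matrix.vecMul, dotProduct, hV, Matrix.vandermonde_apply]

universe u

/-- the two-constants estimate for the derivative at the centre -/
theorem deriv_le (n : ℕ) : ∃ C : ℝ, 0 < C ∧ ∀ {W : Type u} [NormedAddCommGroup W]
    [NormedSpace ℂ W] [CompleteSpace W] (D : ℂ → W) (x : ℂ) (ρ M ε s : ℝ), 0 < ρ → 0 < s → s < 1 →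
    DifferentiableOn ℂ D (ball x ρ) → (∀ z ∈ ball x ρ, ‖D z‖ ≤ M) →
    (∀ t : ℝ, 0 ≤ t → t ≤ s * ρ → ‖D (x + t)‖ ≤ ε) →
    ‖deriv D x‖ ≤ C * (ε / s + M * s ^ (n + 1)) / ρ := by
  obtain ⟨c, hc⟩ := weights n
  set A : ℝ := ∑ j, ‖c j‖ with hA
  have hA0 : 0 ≤ A := Finset.sum_nonneg fun _ _ => norm_nonneg _
  refine ⟨(A + 1) * (n + 1) * 2 ^ (n + 2), by positivity, ?_⟩
  intro W _ _ _ D x ρ M ε s hρ hs hs1 hD hM hε
  have hmem : ∀ z ∈ ball (0 : ℂ) ρ, x + z ∈ ball x ρ := fun z hz => by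
    simpa [mem_ball, dist_eq_norm] using hz
  have hB : Nest.Bd ρ M fun z => D (x + z) :=
    ⟨hD.comp ((differentiableOn_const x).add differentiableOn_id) hmem, fun z hz => hM _ (hmem z hz)⟩
  have hM0 : 0 ≤ M := (norm_nonneg _).trans (hM x (mem_ball_self hρ))
  have hε0 : 0 ≤ ε := (norm_nonneg _).trans (hε 0 le_rfl (by positivity))
  set g : ℂ → W := fun z => D (x + z) with hg
  set h : ℝ := s * ρ / (n + 1) with hh
  have hh0 : 0 < h := by positivity
  have hnode : ∀ j : Fin (n + 2), 0 ≤ (j : ℕ) * h ∧ (j : ℕ) * h ≤ s * ρ := fun j => by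
    refine ⟨by positivity, ?_⟩
    have hj : ((j : ℕ) : ℝ) ≤ n + 1 := by exact_mod_cast Nat.lt_succ_iff.1 j.2
    calc ((j : ℕ) : ℝ) * h ≤ (n + 1) * h := by gcongr
      _ = s * ρ := by rw [hh]; field_simp
  have hR : ∀ j : Fin (n + 2), ‖g (((j : ℕ) * h : ℝ) : ℂ) -
      ∑ m ∈ Finset.range (n + 2), (((j : ℕ) * h : ℝ) : ℂ) ^ m • Nest.co m g‖ ≤
      2 ^ (n + 2) * s ^ (n + 2) * M := fun j => by
    have hn : ‖(((j : ℕ) * h : ℝ) : ℂ)‖ ≤ s * ρ := by
      rw [Complex.norm_real, Real.norm_of_nonneg (hnode j).1]; exact (hnode j).2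
    have hb : (((j : ℕ) * h : ℝ) : ℂ) ∈ ball (0 : ℂ) ρ := by
      rw [mem_ball_zero_iff]; nlinarith
    refine (hB.taylor_le (n + 2) hb).trans ?_
    calc _ ≤ (s * ρ) ^ (n + 2) * ((2 / ρ) ^ (n + 2) * M) := by gcongr
      _ = 2 ^ (n + 2) * s ^ (n + 2) * M := by
        rw [← mul_assoc, ← mul_pow, ← mul_pow]; congr 2; field_simp
  have hsum : ∑ j : Fin (n + 2), c j • ∑ m ∈ Finset.range (n + 2),
      (((j : ℕ) * h : ℝ) : ℂ) ^ m • Nest.co m g = (h : ℂ) • deriv D x := by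
    have e1 : deriv D x = Nest.co 1 g := by
      rw [Nest.co_one, hg, deriv_comp_const_add]; simp
    simp only [Finset.smul_sum]
    rw [Finset.sum_comm, ← Fin.sum_univ_eq_sum_range
      (fun m => ∑ j : Fin (n + 2), c j • (((j : ℕ) * h : ℝ) : ℂ) ^ m • Nest.co m g) (n + 2)]
    have e2 : ∀ m : Fin (n + 2), ∑ j : Fin (n + 2), c j • (((j : ℕ) * h : ℝ) : ℂ) ^ (m : ℕ) •
        Nest.co m g = if m = 1 then (h : ℂ) • Nest.co 1 g else 0 := fun m => by
      simp only [smul_smul, ← Finset.sum_smul]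
      have : ∑ j : Fin (n + 2), c j * (((j : ℕ) * h : ℝ) : ℂ) ^ (m : ℕ) =
          (if m = 1 then 1 else 0) * (h : ℂ) ^ (m : ℕ) := by
        rw [← hc m, Finset.sum_mul]
        refine Finset.sum_congr rfl fun j _ => ?_
        push_cast; ring
      rw [this]
      split_ifs with hm
      · subst hm; simp
      · simp
    simp only [e2, Finset.sum_ite_eq', Finset.mem_univ, if_true, e1]
  have key : h * ‖deriv D x‖ ≤ A * (ε + 2 ^ (n + 2) * s ^ (n + 2) * M) := by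
    have e : (h : ℂ) • deriv D x = ∑ j : Fin (n + 2), c j • (g (((j : ℕ) * h : ℝ) : ℂ) -
        (g (((j : ℕ) * h : ℝ) : ℂ) - ∑ m ∈ Finset.range (n + 2),
          (((j : ℕ) * h : ℝ) : ℂ) ^ m • Nest.co m g)) := by
      rw [← hsum]; simp only [sub_sub_cancel]
    have e' : h * ‖deriv D x‖ = ‖(h : ℂ) • deriv D x‖ := by
      rw [norm_smul, Complex.norm_real, Real.norm_of_nonneg hh0.le]
    rw [e', e, hA, Finset.sum_mul]
    refine (norm_sum_le _ _).trans (Finset.sum_le_sum fun j _ => ?_)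
    rw [norm_smul]
    refine mul_le_mul_of_nonneg_left ((norm_sub_le _ _).trans (add_le_add ?_ (hR j)))
      (norm_nonneg _)
    exact hε _ (hnode j).1 (hnode j).2
  have h2 : (1 : ℝ) ≤ 2 ^ (n + 2) := one_le_pow₀ (by norm_num)
  have k2 : A * (ε + 2 ^ (n + 2) * s ^ (n + 2) * M) ≤
      (A + 1) * (2 ^ (n + 2) * (ε + s ^ (n + 2) * M)) := by
    have : ε + 2 ^ (n + 2) * s ^ (n + 2) * M ≤ 2 ^ (n + 2) * (ε + s ^ (n + 2) * M) := by nlinarith
    gcongr; linarith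
  have e3 : (A + 1) * (n + 1) * 2 ^ (n + 2) * (ε / s + M * s ^ (n + 1)) / ρ =
      (A + 1) * (2 ^ (n + 2) * (ε + s ^ (n + 2) * M)) / h := by
    rw [hh]; field_simp; ring
  rw [e3, le_div_iff₀ hh0, mul_comm]
  exact key.trans k2

/-- strip form: `ρ = c / X`, `ε = A X ^ (-p)` on the segment, loss `X ^ k` -/
theorem rate (p : ℝ) {k c : ℝ} (hk : 0 < k) (hc : 0 < c) : ∃ C : ℝ, 0 < C ∧
    ∀ {W : Type u} [NormedAddCommGroup W] [NormedSpace ℂ W] [CompleteSpace W] (D : ℂ → W) (x : ℂ)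
    (X M A : ℝ), 1 < X → 0 ≤ A → DifferentiableOn ℂ D (ball x (c / X)) →
    (∀ z ∈ ball x (c / X), ‖D z‖ ≤ M) →
    (∀ t : ℝ, 0 ≤ t → t ≤ X ^ (-k) * (c / X) → ‖D (x + t)‖ ≤ A * X ^ (-p)) →
    ‖deriv D x‖ ≤ C * (A + M) * X ^ (1 - p + k) := by
  obtain ⟨n, hn⟩ := exists_nat_ge (p / k)
  obtain ⟨C, hC, h⟩ := deriv_le.{u} n
  refine ⟨C / c, by positivity, ?_⟩
  intro W _ _ _ D x X M A hX hA hD hM hε
  have hX0 : 0 < X := by linarith
  have hM0 : 0 ≤ M := (norm_nonneg _).trans (hM x (mem_ball_self (by positivity)))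
  have hs1 : X ^ (-k) < 1 := Real.rpow_lt_one_of_one_lt_of_neg hX (by linarith)
  refine (h D x (c / X) M (A * X ^ (-p)) (X ^ (-k)) (by positivity) (by positivity) hs1 hD hM
    hε).trans ?_
  have e1 : A * X ^ (-p) / X ^ (-k) = A * X ^ (-p + k) := by
    rw [mul_div_assoc, ← Real.rpow_sub hX0]; ring_nf
  have e2 : (X ^ (-k)) ^ (n + 1) ≤ X ^ (-p + k) := by
    rw [← Real.rpow_natCast, ← Real.rpow_mul hX0.le]
    refine Real.rpow_le_rpow_of_exponent_le hX.le ?_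
    have := (div_le_iff₀ hk).1 hn
    push_cast; nlinarith
  have e3 : X ^ (1 - p + k) = X * X ^ (-p + k) := by
    rw [show 1 - p + k = 1 + (-p + k) by ring, Real.rpow_add hX0, Real.rpow_one]
  rw [e1, e3]
  calc C * (A * X ^ (-p + k) + M * (X ^ (-k)) ^ (n + 1)) / (c / X)
      ≤ C * (A * X ^ (-p + k) + M * X ^ (-p + k)) / (c / X) := by gcongr
    _ = C / c * (A + M) * (X * X ^ (-p + k)) := by field_simp

end Crest.Agent.N250.Tw
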