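import Crest.Agent.N250.Xi.Al1
import Crest.Agent.N250.Xi.Tw

/-!
# Row 250 (helper12): the inversion `AlS`
-/

set_option autoImplicit false
set_option linter.unusedSectionVars false
open Set Filter Topology Metric

noncomputable section

namespace Crest.Agent.N250.Xi

open Crest.Agent.N250.B2 (aa ofR)
open Crest.Agent.N250.Gi (KK hat TL DX Fx Lam)
open R0 B1

variable {ι κ : Type} [Fintype ι] [Fintype κ] {N : ℕ} {C0 r X0 θ C k X X1 : ℝ}
  {Z : ℂ × (ι ⊕ κ → ℂ) → ι ⊕ κ → ℂ} {Θ : (ι ⊕ κ → ℂ) → ι ⊕ κ → ℂ} {A : (κ → ℂ) ≃L[ℂ] (κ → ℂ)}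

theorem ev_big (h : Est N C0 Z Θ A r X0 θ C k) (h0 : 0 ≤ X0) (hK : 10 ≤ KK N)
    (hN : C0 / ((N : ℝ) + 1) ≤ 1 / 64) : ∀ᶠ X in atTop, Big N C0 r X0 θ C k X := by
  have hc := cw_pos h.θ_pos
  have t1 : Tendsto (fun X : ℝ => C * X ^ (-k)) atTop (𝓝 0) := by
    simpa using (tendsto_rpow_neg_atTop h.k_pos).const_mul C
  have t2 : Tendsto (fun X : ℝ => 5 / X ^ 2) atTop (𝓝 0) :=
    tendsto_const_nhds.div_atTop (tendsto_pow_atTop two_ne_zero)
  have t3 : Tendsto (fun X : ℝ => cw θ * X) atTop atTop := tendsto_id.const_mul_atTop hc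
  filter_upwards [eventually_gt_atTop (X0 + 1), eventually_ge_atTop 200,
    (tendsto_pow_atTop (α := ℝ) two_ne_zero).eventually_ge_atTop (KK N + 1),
    t2.eventually (gt_mem_nhds (half_pos h.r_pos)), t3.eventually_ge_atTop 1,
    t3.eventually_ge_atTop (32 * C ^ 2), t1.eventually (ge_mem_nhds (by norm_num : (0 : ℝ) < 1 / 64))]
    with X a1 a2 a3 a4 a5 a6 a7
  exact ⟨a1, h0, a2, a3, hK, a4, a5, a6, by linarith⟩

/-- the standing hypotheses -/
structure St (N : ℕ) (C0 : ℝ) (Z : ℂ × (ι ⊕ κ → ℂ) → ι ⊕ κ → ℂ) (Θ : (ι ⊕ κ → ℂ) → ι ⊕ κ → ℂ)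
    (A : (κ → ℂ) ≃L[ℂ] (κ → ℂ)) (r X0 θ C k X1 : ℝ) : Prop where
  est : Est N C0 Z Θ A r X0 θ C k
  nn : 0 ≤ X1
  big : ∀ X, X1 < X → Big N C0 r X0 θ C k X
  tip : ∀ X, X1 < X → ∀ a ∈ B2.DB (1 / 16) (TL N X - 0 - 1),
    ∃ a0, Adm (KK N + 2) X a0 ∧ hat X a0 = a

theorem z0 (hB : Big N C0 r X0 θ C k X) (b : κ → ℂ) : ‖b - b‖ ≤ 1 / X ^ 4 := by
  have := hB.pos; rw [sub_self, norm_zero]; positivity

namespace St

theorem eq8 (h : St N C0 Z Θ A r X0 θ C k X1) : Eq8 A (Om1 N r X1) (Ph Z Θ) :=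
  h.est.eq8 h.nn h.big

theorem mem1 {z : ι ⊕ κ → ℂ} (hX : X1 < X) (hz : z ∈ ball (0 : ι ⊕ κ → ℂ) r) {a : κ → ℂ}
    (ha : ∀ j, Adm (KK N + 1) X (a j)) : (((X : ℂ), z), a) ∈ Om1 N r X1 :=
  ⟨hX, by simp, hz, ha⟩

theorem main (h : St N C0 Z Θ A r X0 θ C k X1) (hX : X1 < X) {z : ι ⊕ κ → ℂ}
    (hz : z ∈ DX N (r / 2) (1 / 16) X) :
    z ∈ ball (0 : ι ⊕ κ → ℂ) (r / 2) ∧ ((X : ℂ), z) ∈ WW (Om1 N r X1) (Ph Z Θ) := by
  have hB := h.big X hX
  have h0 := hB.pos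
  have hr := h.est.r_pos
  choose a0 h1 h2 using fun j => h.tip X hX _ (hz.2 j)
  have e : (fun j => hat X (a0 j)) = aa z := funext h2
  have m : z ∈ ball (0 : ι ⊕ κ → ℂ) (r / 2) := by
    rw [← mk_aa z, ← e]
    exact mk_ball (by positivity) hz.1 (hB.hat_ball (by linarith [hB.K0]) h1)
  have m' : z ∈ ball (0 : ι ⊕ κ → ℂ) r := ball_subset_ball (by linarith) m
  have h3 : ∀ j, Adm (KK N + 1 + 1) X (a0 j) := fun j => by
    rw [add_assoc, one_add_one_eq_two]; exact h1 j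
  refine ⟨m, (h.eq8.ex (a0 := a0) (ρ := 1 / X ^ 4) (fun a ha => mem1 hX m' fun j => ?_)
    (by positivity) ?_).1⟩
  · exact margin (h3 j) (by linarith [hB.K0]) (by linarith [hB.ge]) hB.K hB.self
      ((norm_le_pi_norm (a - a0) j).trans (mem_closedBall_iff_norm.1 ha))
  · have m1 := hB.memO hB.ctr_mem m' (fun j => adm_mono (h1 j) (by linarith)) (z0 hB a0)
    have := h.est.est X (by linarith [hB.x0]) _ m1.2.2
    rw [hz_mk, e, mk_aa] at this
    refine this.trans ?_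
    rw [div_right_comm]
    gcongr
    linarith [hB.del]

theorem eq_of (h : St N C0 Z Θ A r X0 θ C k X1) {q : ℂ × (ι ⊕ κ → ℂ)}
    (hq : q ∈ WW (Om1 N r X1) (Ph Z Θ)) :
    Z (q.1, R0.mk q.2 (sl (Om1 N r X1) (Ph Z Θ) q)) = Θ q.2 := by
  have m := sl_mem hq
  have b := h.big _ m.1
  have m2 := b.memO (h.est.lipC' b m.2.1 m.2.2.1 m.2.2.2 m.2.2.2).1 m.2.2.1 m.2.2.2 (z0 b _)
  funext l
  rcases l with i | j
  · exact (h.est.inlZ _ m2 i).trans (h.est.inl _ m.2.2.1 i).symm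
  · exact congrFun (sub_eq_zero.1 (sl_eq hq)) j

theorem real (h : St N C0 Z Θ A r X0 θ C k X1) (hX : X1 < X) {x : ι ⊕ κ → ℝ}
    (hz : ofR x ∈ DX N (r / 2) (1 / 16) X) (j : κ) :
    (sl (Om1 N r X1) (Ph Z Θ) (X, ofR x) j).im = 0 := by
  obtain ⟨-, hw⟩ := h.main hX hz
  have hB := h.big X hX
  have m := sl_mem hw
  set a := sl (Om1 N r X1) (Ph Z Θ) (X, ofR x)
  have ha : ∀ j, Adm (KK N + 1) X ((a j).re : ℂ) := fun j => adm_re (m.2.2.2 j)
  refine h.eq8.real m (sl_eq hw) (mem1 hX m.2.2.1 ha) (h.est.A_real _ fun i => ?_) j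
  have e : R0.mk (ofR x) (fun j => ((a j).re : ℂ)) =
      ofR (Sum.elim (fun i => x (Sum.inl i)) fun j => (a j).re) := by
    funext l; cases l <;> rfl
  have m1 := hB.memO hB.ctr_mem m.2.2.1 ha (z0 hB _)
  have h1 := h.est.realZ X (by linarith [hB.x0]) _ (e ▸ m1.2.2) (Sum.inr i)
  have h2 := h.est.real x (by
    rw [pi_norm_lt_iff h.est.r_pos]
    exact fun l => by simpa [ofR] using inl_lt m.2.2.1 l) (Sum.inr i)
  simp only [Ph, Pi.sub_apply, Complex.sub_im, aa, e, h1, h2, sub_zero]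

/-- comparison of `A⁻¹ (Z (s, mk z a) - Θ z)` with `hat s a - aa z` -/
theorem cmp (h : St N C0 Z Θ A r X0 θ C k X1) {s : ℝ} (hs : X1 < s) {z : ι ⊕ κ → ℂ}
    (hz : z ∈ ball (0 : ι ⊕ κ → ℂ) r) {a : κ → ℂ} (ha : ∀ j, Adm (KK N) s (a j)) :
    ‖(fun j => hat s (a j)) - aa z - A.symm (Ph Z Θ ((s, z), a))‖ ≤
      ‖(fun j => hat s (a j)) - aa z‖ / 8 + (C0 / ((N : ℝ) + 1) + C * s ^ (-k)) / s ^ 4 := by
  have hB := h.big s hs
  have hr := h.est.r_pos
  have h1 := h.est.est s (by linarith [hB.x0]) (R0.mk z a) ⟨fun i => inl_lt hz _, ha⟩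
  rw [hz_mk] at h1
  have h2 := h.est.lin z hz (fun j => hat s (a j)) (by
    rw [mem_ball_zero_iff, pi_norm_lt_iff hr]
    exact fun j => h.est.half (hB.hat_ball hB.K0 ha j)) (aa z)
    (mem_ball_zero_iff.2 ((norm_aa z).trans_lt (mem_ball_zero_iff.1 hz)))
  rw [mk_aa] at h2
  refine le_trans (le_of_eq ?_) ((norm_sub_le _ _).trans (add_le_add h2 h1))
  congr 1
  simp only [Ph, map_sub]
  abel

theorem pos (h : St N C0 Z Θ A r X0 θ C k X1) (hX : X1 < X) {z : ι ⊕ κ → ℂ}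
    (hz : z ∈ DX N (r / 2) (1 / 16) X) :
    ‖(fun j => hat X (sl (Om1 N r X1) (Ph Z Θ) (X, z) j)) - aa z‖ ≤
      2 * ((C0 / ((N : ℝ) + 1) + C * X ^ (-k)) / X ^ 4) := by
  obtain ⟨-, hw⟩ := h.main hX hz
  have m := sl_mem hw
  have := h.cmp hX m.2.2.1 (a := sl (Om1 N r X1) (Ph Z Θ) (X, z))
    fun j => adm_mono (m.2.2.2 j) (by linarith)
  rw [sl_eq hw, map_zero, sub_zero] at this
  linarith [norm_nonneg ((fun j => hat X (sl (Om1 N r X1) (Ph Z Θ) (X, z) j)) - aa z)]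

theorem Ph_le (h : St N C0 Z Θ A r X0 θ C k X1) {t : ℂ} {z : ι ⊕ κ → ℂ} {a : κ → ℂ}
    (m : (t, R0.mk z a) ∈ Om r (KK N) X0 θ) (hz : z ∈ ball (0 : ι ⊕ κ → ℂ) r) :
    ‖A.symm (Ph Z Θ ((t, z), a))‖ ≤ C * (2 * C) := by
  refine (h.est.A_le _).trans (mul_le_mul_of_nonneg_left ((norm_sub_le _ _).trans ?_) h.est.C_nn)
  linarith [(norm_aa _).trans (h.est.bdZ _ m), (norm_aa _).trans (h.est.bdd _ hz)]

theorem dz (h : St N C0 Z Θ A r X0 θ C k X1) (hX : X1 < X) {z : ι ⊕ κ → ℂ}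
    (hz : z ∈ DX N (r / 2) (1 / 16) X) (v : ι ⊕ κ → ℂ) :
    ‖fderiv ℂ (sl (Om1 N r X1) (Ph Z Θ)) (X, z) (0, v)‖ ≤
      8 * (2 * (C * (2 * C)) / (r / 2)) * ‖v‖ := by
  obtain ⟨hb, hw⟩ := h.main hX hz
  have hB := h.big X hX
  have hr := h.est.r_pos
  have m := sl_mem hw
  set a := sl (Om1 N r X1) (Ph Z Θ) (X, z) with ha
  have hs : ball z (r / 2) ⊆ ball 0 r := ball_subset_ball' (by rw [mem_ball] at hb; linarith)
  set F : (ι ⊕ κ → ℂ) → κ → ℂ := fun w => A.symm (Ph Z Θ ((X, w), a)) with hF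
  have hm : ∀ w ∈ ball z (r / 2), ((X : ℂ), R0.mk w a) ∈ Om r (KK N) X0 θ := fun w hw =>
    hB.memO hB.ctr_mem (hs hw) m.2.2.2 (z0 hB a)
  have hd : ∀ w ∈ ball z (r / 2), DifferentiableAt ℂ F w := fun w hw =>
    Est.dA A (h.est.dZ hB.x0' (t := fun _ => X) (z := fun w => w) (b := fun _ => a) (by fun_prop)
      (by fun_prop) (by fun_prop) (hm w hw)) (h.est.dT (z := fun w => w) (by fun_prop) (hs hw))
  have h1 := H.fd_le (half_pos hr) (fun w hw => (hd w hw).differentiableWithinAt)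
    fun w hw => h.Ph_le (hm w hw) (hs hw)
  have g1 : HasDerivAt (fun t : ℂ => z + t • v) v 0 := by
    simpa using ((hasDerivAt_id (0 : ℂ)).smul_const v).const_add z
  have g2 : HasDerivAt (fun t : ℂ => ((X : ℂ), z + t • v)) (0, v) 0 :=
    (hasDerivAt_const _ _).prodMk g1
  have e0 : z + (0 : ℂ) • v = z := by simp
  have h2 := h.eq8.deriv_le g2.differentiableAt (by simpa using hw)
  have h3 := ((h.eq8.sl_diffAt hw).hasFDerivAt.comp_hasDerivAt_of_eq 0 g2 (by simp)).deriv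
  have h4 := ((hd z (mem_ball_self (half_pos hr))).hasFDerivAt.comp_hasDerivAt_of_eq 0 g1
    (by simp)).deriv
  simp only [e0] at h2
  rw [← h3, mul_assoc]
  refine h2.trans (mul_le_mul_of_nonneg_left ?_ (by norm_num))
  exact (congrArg norm h4).trans_le (ContinuousLinearMap.le_of_opNorm_le _ h1 v)

theorem dX (h : St N C0 Z Θ A r X0 θ C k X1) {e : ℝ} (he : 0 < e) : ∃ C' : ℝ, ∀ X : ℝ, X1 < X →
    ∀ z ∈ DX N (r / 2) (1 / 16) X,
      ‖fderiv ℂ (sl (Om1 N r X1) (Ph Z Θ)) (X, z) (1, 0)‖ ≤ C' * X ^ e / X ^ 3 := by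
  have hc := cw_pos h.est.θ_pos
  obtain ⟨c, c0, hl⟩ := lg_le (half_pos he)
  obtain ⟨Ct, -, hT⟩ := Tw.rate.{0} (4 - e / 2) (half_pos he) hc
  refine ⟨8 * (Ct * (16 * c + 1 + C * (2 * C))), fun X hX z hz => ?_⟩
  obtain ⟨-, hw⟩ := h.main hX hz
  have hB := h.big X hX
  have h0 := hB.pos
  have h1X : 1 ≤ X := by linarith [hB.ge]
  have m := sl_mem hw
  have hp := h.pos hX hz
  set a := sl (Om1 N r X1) (Ph Z Θ) (X, z) with ha
  have hzb : z ∈ ball (0 : ι ⊕ κ → ℂ) r := m.2.2.1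
  have haa : ∀ j, Adm (KK N + 1) X (a j) := m.2.2.2
  have hm : ∀ t ∈ ball (X : ℂ) (cw θ / X), (t, R0.mk z a) ∈ Om r (KK N) X0 θ := fun t ht =>
    hB.memO ht hzb haa (z0 hB a)
  have h1 := hT (fun t => A.symm (Ph Z Θ ((t, z), a))) X X (C * (2 * C)) (16 * c + 1)
    (by linarith [hB.ge]) (by positivity) (fun t ht => (Est.dA A (h.est.dZ hB.x0' (t := fun t => t)
      (z := fun _ => z) (b := fun _ => a) (by fun_prop) (by fun_prop) (by fun_prop) (hm t ht))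
      (differentiableAt_const (aa (Θ z)))).differentiableWithinAt)
    (fun t ht => h.Ph_le (hm t ht) hzb) fun t t0 t1 => by
      have x1 : X ^ (-(e / 2)) ≤ 1 := Real.rpow_le_one_of_one_le_of_nonpos h1X (by linarith)
      have x2 : |X + t - X| ≤ 1 / (8 * X) := by
        rw [add_sub_cancel_left, abs_of_nonneg t0, ← div_div]
        refine t1.trans ((mul_le_of_le_one_left (by positivity) x1).trans ?_)
        gcongr
        exact min_le_right _ _
      have x3 := (hB.re_mem x2).2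
      have x4 := hB.adm x2 haa (z0 hB a)
      have hS := h.big (X + t) (by linarith)
      have y1 := h.cmp (s := X + t) (by linarith) hzb x4
      have p4 : 0 < X ^ 4 := by positivity
      have p5 : 1 ≤ X ^ (e / 2) := Real.one_le_rpow h1X (by linarith)
      have y2 : (C0 / ((N : ℝ) + 1) + C * (X + t) ^ (-k)) / (X + t) ^ 4 ≤ 1 / 32 / X ^ 4 := by
        gcongr
        exacts [hS.del, by linarith]
      have y3 : (C0 / ((N : ℝ) + 1) + C * X ^ (-k)) / X ^ 4 ≤ 1 / 32 / X ^ 4 := by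
        gcongr
        exact hB.del
      have y4 : ‖(fun j => hat (X + t) (a j)) - fun j => hat X (a j)‖ ≤
          14 * (c * X ^ (e / 2)) / X ^ 4 := by
        refine (pi_norm_le_iff_of_nonneg (by positivity)).2 fun j => ?_
        have b1 := q_le (x4 j) hB.K0 (by linarith [hB.ge])
        have b2 := q_le (haa j) (by linarith [hB.K0]) (by linarith [hB.ge])
        have b3 : 7 * (2 * Real.log ((X + t) ^ 2) + 2) / (X + t) ^ 4 ≤
            7 * (c * X ^ (e / 2)) / X ^ 4 := by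
          gcongr
          exacts [hl X _ h1X (by linarith) x3, by linarith]
        have b4 : 7 * (2 * Real.log (X ^ 2) + 2) / X ^ 4 ≤ 7 * (c * X ^ (e / 2)) / X ^ 4 := by
          gcongr
          exact hl X _ h1X h1X (by linarith)
        have b5 := norm_sub_le (hat (X + t) (a j) - a j) (hat X (a j) - a j)
        rw [sub_sub_sub_cancel_right] at b5
        have e1 : 14 * (c * X ^ (e / 2)) / X ^ 4 = 2 * (7 * (c * X ^ (e / 2)) / X ^ 4) := by ring
        rw [Pi.sub_apply]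
        linarith
      have y5 := norm_sub_le_norm_sub_add_norm_sub (fun j => hat (X + t) (a j))
        (fun j => hat X (a j)) (aa z)
      have y6 := norm_sub_le ((fun j => hat (X + t) (a j)) - aa z)
        ((fun j => hat (X + t) (a j)) - aa z - A.symm (Ph Z Θ ((((X + t : ℝ) : ℂ), z), a)))
      rw [sub_sub_cancel] at y6
      have e2 : X ^ (-(4 - e / 2)) = X ^ (e / 2) / X ^ 4 := by
        rw [neg_sub, Real.rpow_sub h0]; norm_cast
      rw [← Complex.ofReal_add, e2]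
      have e3 : 14 * (c * X ^ (e / 2)) / X ^ 4 = 14 * (c * (X ^ (e / 2) / X ^ 4)) := by ring
      have e4 : 1 / 32 / X ^ 4 ≤ 1 / 32 * (X ^ (e / 2) / X ^ 4) := by
        rw [← mul_div_assoc]; gcongr; linarith
      have e5 : 0 ≤ c * (X ^ (e / 2) / X ^ 4) := by positivity
      have e6 : 0 ≤ X ^ (e / 2) / X ^ 4 := by positivity
      rw [add_mul, mul_assoc]
      linarith
  have g2 : HasDerivAt (fun t : ℂ => (t, z)) (1, 0) X :=
    (hasDerivAt_id _).prodMk (hasDerivAt_const _ _)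
  have h2 := h.eq8.deriv_le g2.differentiableAt hw
  have h3 := ((h.eq8.sl_diffAt hw).hasFDerivAt.comp_hasDerivAt (X : ℂ) g2).deriv
  have e2 : X ^ (1 - (4 - e / 2) + e / 2) = X ^ e / X ^ 3 := by
    rw [show 1 - (4 - e / 2) + e / 2 = e - 3 by ring, Real.rpow_sub h0]; norm_cast
  rw [← h3, mul_div_assoc, mul_assoc, ← e2]
  exact h2.trans (mul_le_mul_of_nonneg_left h1 (by norm_num))

end St

theorem Est.mx (h : Est N C0 Z Θ A r X0 θ C k) : Est N C0 Z Θ A r (max X0 0) θ C k :=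
  have hs : (Om r (KK N) (max X0 0) θ : Set (ℂ × (ι ⊕ κ → ℂ))) ⊆ Om r (KK N) X0 θ :=
    fun _ hq => ⟨(le_max_left _ _).trans_lt hq.1, hq.2⟩
  { h with
    hZ := h.hZ.mono hs
    bdZ := fun q hq => h.bdZ q (hs hq)
    inlZ := fun q hq => h.inlZ q (hs hq)
    realZ := fun X hX => h.realZ X ((le_max_left _ _).trans_lt hX)
    est := fun X hX => h.est X ((le_max_left _ _).trans_lt hX) }

theorem alS_holds : AlS := by
  intro C0
  obtain ⟨N1, h1⟩ := tip
  refine ⟨2 * C0, max (max N1 6) ⌈64 * C0⌉₊, fun N hN ι κ _ _ Z Θ A r X0 θ C k h => ?_⟩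
  obtain ⟨X2, h2⟩ := h1 N (((le_max_left _ _).trans (le_max_left _ _)).trans hN)
  have n1 : (6 : ℝ) ≤ N := by exact_mod_cast ((le_max_right _ _).trans (le_max_left _ _)).trans hN
  have n2 : 64 * C0 ≤ N := Nat.ceil_le.1 ((le_max_right _ _).trans hN)
  obtain ⟨X3, h3⟩ := eventually_atTop.1 (ev_big h.mx (le_max_right _ _)
    (by unfold KK; linarith) (by rw [div_le_div_iff₀ (by positivity) (by norm_num)]; linarith))
  set X1 := max (max X0 0) (max X2 X3)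
  have S : St N C0 Z Θ A r (max X0 0) θ C k X1 :=
    ⟨h.mx, (le_max_right _ _).trans (le_max_left _ _),
      fun X hX => h3 X (((le_max_right _ _).trans (le_max_right _ _)).trans hX.le),
      fun X hX => h2 X (((le_max_left _ _).trans (le_max_right _ _)).trans hX.le)⟩
  have hr := h.r_pos
  have hC := h.C_nn
  set D1 := 8 * (2 * (C * (2 * C)) / (r / 2))
  set D2 := 2 * C / (r / 2)
  have d1 : 0 ≤ D1 := by positivity
  have d2 : 0 ≤ D2 := by positivity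
  have hs : ∀ z ∈ ball (0 : ι ⊕ κ → ℂ) (r / 2), ball z (r / 2) ⊆ ball 0 r := fun z hz =>
    ball_subset_ball' (by rw [mem_ball] at hz; linarith)
  refine ⟨sl (Om1 N r X1) (Ph Z Θ), X1, 2 * C + D1 + D2, (le_max_left _ _).trans (le_max_left _ _),
    half_pos hr, by positivity, fun X hX z hz => (S.main hX hz).1,
    fun X hX z hz => ?_, fun X hX z hz => (sl_mem (S.main hX hz).2).2.2.2, fun X hX z hz => ?_,
    fun X hX x hx => S.real hX hx, fun X hX z hz j => ?_, fun e he => ?_,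
    fun X hX z hz v => (S.dz hX hz v).trans ?_, fun z hz => ⟨h.Θ_at (hs z hz
      (mem_ball_self (half_pos hr))), (H.fd_le (half_pos hr) (h.hol.mono (hs z hz))
        fun w hw => h.bdd w (hs z hz hw)).trans (by change D2 ≤ _; linarith)⟩⟩
  · filter_upwards [S.eq8.isOpen_WW.mem_nhds (S.main hX hz).2] with q hq using S.eq8.sl_diffAt hq
  · filter_upwards [S.eq8.isOpen_WW.mem_nhds (S.main hX hz).2] with q hq using S.eq_of hq
  · refine ((norm_le_pi_norm _ j).trans (S.pos hX hz)).trans ?_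
    have h0 := (S.big X hX).pos
    have : 0 ≤ (D1 + D2) * X ^ (-k) := by positivity
    rw [← mul_div_assoc]
    gcongr
    rw [mul_div_assoc]
    linarith
  · obtain ⟨C', hC'⟩ := S.dX he
    exact ⟨C', X1, hC'⟩
  · have h4 : 1 ≤ X ^ 4 := one_le_pow₀ (by linarith [(S.big X hX).ge])
    refine mul_le_mul_of_nonneg_right ?_ (norm_nonneg v)
    change D1 ≤ _
    nlinarith

end Crest.Agent.N250.Xi

end
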