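import Crest.Agent.N250.R0.Stm

/-!
# Row 250 (helper12): the parts of `XiS`
-/

set_option autoImplicit false
open Set Filter Topology Metric

noncomputable section

namespace Crest.Agent.N250.Xi

open Crest.Agent.N250.B2 (aa ofR)
open Crest.Agent.N250.Gi (KK hat TL DX Fx)
open R0

variable {ι κ : Type} [Fintype ι] [Fintype κ]

/-- the normalised form of the comparison of `Z` with `Θ` -/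
structure Est (N : ℕ) (C0 : ℝ) (Z : ℂ × (ι ⊕ κ → ℂ) → ι ⊕ κ → ℂ) (Θ : (ι ⊕ κ → ℂ) → ι ⊕ κ → ℂ)
    (A : (κ → ℂ) ≃L[ℂ] (κ → ℂ)) (r X0 θ C k : ℝ) : Prop where
  r_pos : 0 < r
  θ_pos : 0 < θ
  k_pos : 0 < k
  C0_nn : 0 ≤ C0
  C_nn : 0 ≤ C
  hZ : DifferentiableOn ℂ Z (Om r (KK N) X0 θ)
  bdZ : ∀ q ∈ Om r (KK N) X0 θ, ‖Z q‖ ≤ C
  inlZ : ∀ q ∈ Om r (KK N) X0 θ, ∀ i, Z q (Sum.inl i) = q.2 (Sum.inl i)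
  realZ : ∀ X : ℝ, X0 < X → ∀ x : ι ⊕ κ → ℝ, ofR x ∈ DomA r (KK N) X →
    ∀ l, (Z (X, ofR x) l).im = 0
  hol : DifferentiableOn ℂ Θ (ball 0 r)
  bdd : ∀ z ∈ ball (0 : ι ⊕ κ → ℂ) r, ‖Θ z‖ ≤ C
  real : ∀ x : ι ⊕ κ → ℝ, ‖x‖ < r → ∀ l, (Θ (ofR x) l).im = 0
  inl : ∀ z ∈ ball (0 : ι ⊕ κ → ℂ) r, ∀ i, Θ z (Sum.inl i) = z (Sum.inl i)
  A_le : ∀ v, ‖A.symm v‖ ≤ C * ‖v‖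
  A_ge : ∀ v, ‖A v‖ ≤ C * ‖v‖
  A_real : ∀ v : κ → ℂ, (∀ j, (v j).im = 0) → ∀ j, (A.symm v j).im = 0
  lin : ∀ z ∈ ball (0 : ι ⊕ κ → ℂ) r, ∀ a ∈ ball (0 : κ → ℂ) r, ∀ a' ∈ ball (0 : κ → ℂ) r,
    ‖a - a' - A.symm (aa (Θ (mk z a)) - aa (Θ (mk z a')))‖ ≤ ‖a - a'‖ / 8
  est : ∀ X : ℝ, X0 < X → ∀ w ∈ DomA r (KK N) X,
    ‖A.symm (aa (Z (X, w)) - aa (Θ (hz X w)))‖ ≤ (C0 / ((N : ℝ) + 1) + C * X ^ (-k)) / X ^ 4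
  onto : ∀ ε : ℝ, 0 < ε → ∃ η : ℝ, 0 < η ∧ ∀ ζ : ι ⊕ κ → ℝ, ‖ζ‖ < η →
    ∃ x : ι ⊕ κ → ℝ, ‖x‖ < ε ∧ Θ (ofR x) = ofR ζ

/-- part 1: normalisation -/
def EstS : Prop := ∀ (C0 : ℝ) (N : ℕ) (ι κ : Type) [Fintype ι] [Fintype κ]
  (FF : ℂ × (ι ⊕ κ → ℂ) → ℂ) (Z cc : ℂ × (ι ⊕ κ → ℂ) → ι ⊕ κ → ℂ)
  (Θ : (ι ⊕ κ → ℂ) → ι ⊕ κ → ℂ) (A0 r X0 θ C k : ℝ), Glued N C0 FF Z cc Θ A0 r X0 θ C k →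
    ∃ A r' C', r' ≤ r ∧ Est N (C0 ^ 2) Z Θ A r' (max X0 1) θ C' k

/-- the far parameters in the intrinsic coordinates: `σ` is holomorphic near the real cuts -/
structure Al (N : ℕ) (C1 : ℝ) (Z : ℂ × (ι ⊕ κ → ℂ) → ι ⊕ κ → ℂ) (Θ : (ι ⊕ κ → ℂ) → ι ⊕ κ → ℂ)
    (σ : ℂ × (ι ⊕ κ → ℂ) → κ → ℂ) (r X0 k C : ℝ) : Prop where
  r_pos : 0 < r
  C_nn : 0 ≤ C
  sub : ∀ X : ℝ, X0 < X → DX N r (1 / 16) X ⊆ ball (0 : ι ⊕ κ → ℂ) r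
  hol : ∀ X : ℝ, X0 < X → ∀ z ∈ DX N r (1 / 16) X, ∀ᶠ q in 𝓝 ((X : ℂ), z), DifferentiableAt ℂ σ q
  adm : ∀ X : ℝ, X0 < X → ∀ z ∈ DX N r (1 / 16) X, ∀ j, B1.Adm (KK N + 1) X (σ (X, z) j)
  eq : ∀ X : ℝ, X0 < X → ∀ z ∈ DX N r (1 / 16) X,
    ∀ᶠ q in 𝓝 ((X : ℂ), z), Z (q.1, mk q.2 (σ q)) = Θ q.2
  real : ∀ X : ℝ, X0 < X → ∀ x : ι ⊕ κ → ℝ, ofR x ∈ DX N r (1 / 16) X → ∀ j,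
    (σ (X, ofR x) j).im = 0
  pos : ∀ X : ℝ, X0 < X → ∀ z ∈ DX N r (1 / 16) X, ∀ j,
    ‖hat X (σ (X, z) j) - aa z j‖ ≤ (C1 / ((N : ℝ) + 1) + C * X ^ (-k)) / X ^ 4
  dX : ∀ e : ℝ, 0 < e → ∃ C' X1 : ℝ, ∀ X : ℝ, X1 < X → ∀ z ∈ DX N r (1 / 16) X,
    ‖fderiv ℂ σ (X, z) (1, 0)‖ ≤ C' * X ^ e / X ^ 3
  dz : ∀ X : ℝ, X0 < X → ∀ z ∈ DX N r (1 / 16) X, ∀ v : ι ⊕ κ → ℂ,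
    ‖fderiv ℂ σ (X, z) (0, v)‖ ≤ C * X ^ 4 * ‖v‖
  dΘ : ∀ z ∈ ball (0 : ι ⊕ κ → ℂ) r, DifferentiableAt ℂ Θ z ∧ ‖fderiv ℂ Θ z‖ ≤ C

/-- part 2: the inversion -/
def AlS : Prop := ∀ C0 : ℝ, ∃ (C1 : ℝ) (N0 : ℕ), ∀ N, N0 ≤ N →
  ∀ (ι κ : Type) [Fintype ι] [Fintype κ] (Z : ℂ × (ι ⊕ κ → ℂ) → ι ⊕ κ → ℂ)
    (Θ : (ι ⊕ κ → ℂ) → ι ⊕ κ → ℂ) (A : (κ → ℂ) ≃L[ℂ] (κ → ℂ)) (r X0 θ C k : ℝ),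
    Est N C0 Z Θ A r X0 θ C k → ∃ σ X1 C', X0 ≤ X1 ∧ Al N C1 Z Θ σ (r / 2) X1 k C'

/-- the reduced function -/
def ff (FF : ℂ × (ι ⊕ κ → ℂ) → ℂ) (σ : ℂ × (ι ⊕ κ → ℂ) → κ → ℂ) (X : ℝ) (z : ι ⊕ κ → ℂ) : ℂ :=
  FF (X, mk z (σ (X, z)))

/-- part 3: the derivatives of the reduced function -/
def DerS : Prop := ∀ (C0 C1 : ℝ) (N : ℕ) (ι κ : Type) [Fintype ι] [Fintype κ]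
  (FF : ℂ × (ι ⊕ κ → ℂ) → ℂ) (Z cc : ℂ × (ι ⊕ κ → ℂ) → ι ⊕ κ → ℂ)
  (Θ : (ι ⊕ κ → ℂ) → ι ⊕ κ → ℂ) (σ : ℂ × (ι ⊕ κ → ℂ) → κ → ℂ) (A0 r X0 θ C k r' X1 k1 C' : ℝ),
    Glued N C0 FF Z cc Θ A0 r X0 θ C k → Al N C1 Z Θ σ r' X1 k1 C' → r' ≤ r → X0 ≤ X1 →
    ∃ X2 C2 : ℝ, 0 ≤ C2 ∧ ∀ X : ℝ, X2 < X → ∀ z ∈ DX N r' (1 / 16) X,
      ‖deriv (fun s : ℝ => ff FF σ s z) X +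
          2 * Real.pi * ∑ j, HJ.R N X (B1.et (σ (X, z) j) X)‖ ≤
        Fintype.card κ * (C2 * Real.exp (-X ^ 2 / 4) * X ^ (-(2 + k / 2))) ∧
      ‖fderiv ℂ (ff FF σ X) z‖ ≤ C2 * (‖cc (X, mk z (σ (X, z)))‖ + Real.exp (-X ^ 2 / 5))

/-- part 4: the soft properties -/
def SoftS : Prop := ∀ (C0 C1 : ℝ) (N : ℕ) (ι κ : Type) [Fintype ι] [Fintype κ]
  (FF : ℂ × (ι ⊕ κ → ℂ) → ℂ) (Z cc : ℂ × (ι ⊕ κ → ℂ) → ι ⊕ κ → ℂ)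
  (Θ : (ι ⊕ κ → ℂ) → ι ⊕ κ → ℂ) (σ : ℂ × (ι ⊕ κ → ℂ) → κ → ℂ) (A0 r X0 θ C k r' X1 k1 C' : ℝ),
    Glued N C0 FF Z cc Θ A0 r X0 θ C k → Al N C1 Z Θ σ r' X1 k1 C' → r' ≤ r → X0 ≤ X1 → 0 < k1 →
    6 ≤ N → ∃ X2 : ℝ,
      (∀ X, X2 < X → DifferentiableOn ℂ (ff FF σ X) (DX N r' (1 / 16) X)) ∧
      (∀ X, X2 < X → ∀ z ∈ DX N r' (1 / 16) X, ‖ff FF σ X z‖ ≤ C) ∧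
      (∀ X, X2 < X → ∀ x : ι ⊕ κ → ℝ, ofR x ∈ DX N r' (1 / 16) X → (ff FF σ X (ofR x)).im = 0) ∧
      ContDiffOn ℝ 1 (fun p : ℝ × (ι ⊕ κ → ℂ) => ff FF σ p.1 p.2)
        {p | X2 < p.1 ∧ p.2 ∈ DX N r' (1 / 16) p.1} ∧
      (∀ j, ContinuousOn (fun p : ℝ × (ι ⊕ κ → ℂ) => σ (p.1, p.2) j)
        {p | X2 < p.1 ∧ p.2 ∈ DX N r' (1 / 16) p.1}) ∧
      (∀ X, X2 < X → ∀ z : ι ⊕ κ → ℂ, (∀ i, ‖z (Sum.inl i)‖ < r') → ‖aa z‖ * X ^ 2 ≤ 1 / 2 →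
        z ∈ DX N r' (1 / 16) X ∧ ‖σ (X, z)‖ * X ^ 2 ≤ 1) ∧
      Tendsto (fun X => ff FF σ X 0) atTop (𝓝 (A0 : ℂ))

end Crest.Agent.N250.Xi

end
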