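import Crest.Agent.N250.B1.Nest

/-!
# Row 250 (helper37): the derivative of a bounded holomorphic map from its real oscillation
-/

set_option autoImplicit false
open Set Metric

noncomputable section

namespace Crest.Agent.N250.Xi

/-- five point difference formula -/
theorem fd5 {G : Type*} [NormedAddCommGroup G] [NormedSpace ℂ G] [CompleteSpace G] {g : ℂ → G}
    {c : ℂ} {r M ε h : ℝ} (hd : DifferentiableOn ℂ g (ball c r)) (hM : ∀ z ∈ ball c r, ‖g z‖ ≤ M)
    (h0 : 0 < h) (hr : 2 * h < r) (hε : ∀ t : ℝ, |t| ≤ 2 * h → ‖g (c + t) - g c‖ ≤ ε) :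
    ‖deriv g c‖ ≤ 2 * ε / h + 300 * M * h ^ 4 / r ^ 5 := by
  have hr0 : 0 < r := by linarith
  have hmem : ∀ a ∈ ball (0 : ℂ) r, c + a ∈ ball c r := fun a ha => by simpa using ha
  have hB : Nest.Bd r M fun a => g (c + a) :=
    ⟨hd.comp (by fun_prop) hmem, fun a ha => hM _ (hmem a ha)⟩
  have hM0 : 0 ≤ M := (norm_nonneg _).trans (hM c (mem_ball_self hr0))
  have hε0 : 0 ≤ ε := (norm_nonneg _).trans (hε 0 (by simp; linarith))
  set f : ℂ → G := fun a => g (c + a) with hf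
  have h1 : Nest.co 1 f = deriv g c := by
    rw [Nest.co_one, hf, deriv_comp_const_add, add_zero]
  set K := h ^ 5 * ((2 / r) ^ 5 * M) with hK
  set P : ℂ → G := fun a => ∑ n ∈ Finset.range 5, a ^ n • Nest.co n f with hP
  have key : ∀ k : ℝ, |k| ≤ 2 → ‖f (k * h : ℝ) - g c‖ ≤ ε ∧
      ‖f (k * h : ℝ) - P (k * h : ℝ)‖ ≤ |k| ^ 5 * K := fun k hk => by
    have hk' : |k * h| ≤ 2 * h := by
      rw [abs_mul, abs_of_pos h0]
      gcongr
    refine ⟨hε _ hk', (hB.taylor_le 5 (a := ((k * h : ℝ) : ℂ)) ?_).trans (le_of_eq ?_)⟩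
    · rw [mem_ball_zero_iff, Complex.norm_real, Real.norm_eq_abs]
      linarith
    · rw [Complex.norm_real, Real.norm_eq_abs, abs_mul, abs_of_pos h0, hK]
      ring
  obtain ⟨a1, b1⟩ := key 1 (by norm_num)
  obtain ⟨a2, b2⟩ := key (-1) (by norm_num)
  obtain ⟨a3, b3⟩ := key 2 (by norm_num)
  obtain ⟨a4, b4⟩ := key (-2) (by norm_num)
  have e : ((12 * h : ℝ) : ℂ) • deriv g c =
      (8 : ℂ) • ((f (1 * h : ℝ) - g c) - (f (-1 * h : ℝ) - g c)) -
        ((f (2 * h : ℝ) - g c) - (f (-2 * h : ℝ) - g c)) -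
      ((8 : ℂ) • ((f (1 * h : ℝ) - P (1 * h : ℝ)) - (f (-1 * h : ℝ) - P (-1 * h : ℝ))) -
        ((f (2 * h : ℝ) - P (2 * h : ℝ)) - (f (-2 * h : ℝ) - P (-2 * h : ℝ)))) := by
    simp only [hP, Finset.sum_range_succ, Finset.sum_range_zero, h1]
    push_cast
    module
  have n8 : ∀ u v : G, ‖(8 : ℂ) • (u - v)‖ ≤ 8 * (‖u‖ + ‖v‖) := fun u v => by
    rw [norm_smul]
    exact mul_le_mul (by simp) (norm_sub_le _ _) (norm_nonneg _) (by norm_num)
  have b : 12 * h * ‖deriv g c‖ ≤ 18 * ε + 80 * K := by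
    have := congrArg norm e
    rw [norm_smul, Complex.norm_real, Real.norm_of_nonneg (by positivity)] at this
    rw [this]
    refine (norm_sub_le _ _).trans ?_
    refine (add_le_add ((norm_sub_le _ _).trans (add_le_add (n8 _ _) (norm_sub_le _ _)))
      ((norm_sub_le _ _).trans (add_le_add (n8 _ _) (norm_sub_le _ _)))).trans ?_
    norm_num at b1 b2 b3 b4 a1 a2 a3 a4 ⊢
    linarith
  have e2 : 12 * h * (2 * ε / h + 300 * M * h ^ 4 / r ^ 5) = 24 * ε + 3600 / 32 * K := by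
    rw [hK]
    field_simp
    ring
  have hK0 : 0 ≤ K := by positivity
  refine le_of_mul_le_mul_left (a := 12 * h) ?_ (by positivity)
  rw [e2]
  linarith

end Crest.Agent.N250.Xi

end
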