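import Crest.Agent.N250.B1.Nest

/-!
# Row 250 (helper37): finite differences of arbitrary order for bounded holomorphic maps
-/

set_option autoImplicit false
open Set Metric

noncomputable section

namespace Crest.Agent.N250.Xi

/-- weights reproducing the first coefficient of a polynomial of degree `< N` -/
theorem exists_weights (N : ℕ) : ∃ t w : Fin N → ℝ, (∀ i, |t i| ≤ 1) ∧
    ∀ k : Fin N, ∑ i, w i * t i ^ (k : ℕ) = if (k : ℕ) = 1 then 1 else 0 := by
  set t : Fin N → ℝ := fun i => (i : ℝ) / N with ht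
  have hinj : Function.Injective t := fun i j h => by
    have hN : (N : ℝ) ≠ 0 := by exact_mod_cast (Fin.pos i).ne'
    have := (div_left_inj' hN).1 h
    exact Fin.ext (by exact_mod_cast this)
  have hd : IsUnit (Matrix.vandermonde t).det :=
    (Matrix.det_vandermonde_ne_zero_iff.2 hinj).isUnit
  refine ⟨t, Matrix.vecMul (fun k : Fin N => if (k : ℕ) = 1 then 1 else 0) (Matrix.vandermonde t)⁻¹,
    fun i => ?_, fun k => ?_⟩
  · have hN : (0 : ℝ) < N := by exact_mod_cast Fin.pos i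
    rw [ht, abs_of_nonneg (by positivity), div_le_one hN]
    exact_mod_cast i.2.le
  · have := congrFun (Matrix.vecMul_vecMul (fun k : Fin N => if (k : ℕ) = 1 then (1 : ℝ) else 0)
      (Matrix.vandermonde t)⁻¹ (Matrix.vandermonde t)) k
    rw [Matrix.nonsing_inv_mul _ hd, Matrix.vecMul_one] at this
    rw [← this]
    rfl

/-- the derivative from the real oscillation, to any order -/
theorem fdn (n : ℕ) : ∃ Cn : ℝ, 0 < Cn ∧ ∀ {G : Type*} [NormedAddCommGroup G] [NormedSpace ℂ G]
    [CompleteSpace G] {g : ℂ → G} {c : ℂ} {r M ε h : ℝ}, DifferentiableOn ℂ g (ball c r) →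
    (∀ z ∈ ball c r, ‖g z‖ ≤ M) → 0 < h → 2 * h ≤ r → (∀ t : ℝ, |t| ≤ h → ‖g (c + t) - g c‖ ≤ ε) →
    ‖deriv g c‖ ≤ Cn * (ε / h + M * h ^ n / r ^ (n + 1)) := by
  obtain ⟨t, w, ht, hw⟩ := exists_weights (n + 2)
  set W := ∑ i, |w i| with hW
  have hW0 : 0 ≤ W := Finset.sum_nonneg fun _ _ => abs_nonneg _
  refine ⟨(W + 1) * 2 ^ (n + 1), by positivity, ?_⟩
  intro G _ _ _ g c r M ε h hd hM h0 hr hε
  have hr0 : 0 < r := by linarith
  have hmem : ∀ a ∈ ball (0 : ℂ) r, c + a ∈ ball c r := fun a ha => by simpa using ha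
  have hB : Nest.Bd r M fun a => g (c + a) :=
    ⟨hd.comp (by fun_prop) hmem, fun a ha => hM _ (hmem a ha)⟩
  have hM0 : 0 ≤ M := (norm_nonneg _).trans (hM c (mem_ball_self hr0))
  have hε0 : 0 ≤ ε := (norm_nonneg _).trans (hε 0 (by simp; linarith))
  set f : ℂ → G := fun a => g (c + a) with hf
  have h1 : Nest.co 1 f = deriv g c := by
    rw [Nest.co_one, hf, deriv_comp_const_add, add_zero]
  set K := h ^ (n + 2) * ((2 / r) ^ (n + 2) * M) with hK
  have hK0 : 0 ≤ K := by positivity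
  set P : ℂ → G := fun a => ∑ k ∈ Finset.range (n + 2), a ^ k • Nest.co k f with hP
  have key : ∀ i, ‖P (t i * h : ℝ) - g c‖ ≤ ε + K := fun i => by
    have hk' : |t i * h| ≤ h := by
      rw [abs_mul, abs_of_pos h0]
      exact mul_le_of_le_one_left h0.le (ht i)
    have a1 := hε _ hk'
    have a2 := hB.taylor_le (n + 2) (a := ((t i * h : ℝ) : ℂ)) (by
      rw [mem_ball_zero_iff, Complex.norm_real, Real.norm_eq_abs]
      linarith)
    rw [Complex.norm_real, Real.norm_eq_abs] at a2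
    have a3 : |t i * h| ^ (n + 2) * ((2 / r) ^ (n + 2) * M) ≤ K := by
      rw [hK]
      gcongr
    have a4 := norm_sub_le_norm_sub_add_norm_sub (P (t i * h : ℝ)) (f (t i * h : ℝ)) (g c)
    rw [norm_sub_rev (P _) (f _)] at a4
    exact a4.trans (by linarith [a2.trans a3])
  have hw' : ∀ k : Fin (n + 2), ∑ i, (w i : ℂ) * (t i : ℂ) ^ (k : ℕ) =
      if (k : ℕ) = 1 then 1 else 0 := fun k => by
    have := congrArg (fun x : ℝ => (x : ℂ)) (hw k)
    push_cast at this
    rw [this]
    split_ifs <;> simp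
  have e : (h : ℂ) • deriv g c = ∑ i, (w i : ℂ) • (P (t i * h : ℝ) - g c) := by
    have e0 : ∑ i, (w i : ℂ) = 0 := by simpa using hw' 0
    simp only [smul_sub, Finset.sum_sub_distrib, ← Finset.sum_smul, e0, zero_smul, sub_zero, hP,
      Finset.smul_sum, smul_smul]
    rw [Finset.sum_comm, Finset.sum_range]
    have e1 : ∀ k : Fin (n + 2), ∑ i, ((w i : ℂ) * ((t i * h : ℝ) : ℂ) ^ (k : ℕ)) • Nest.co k f =
        if k = 1 then (h : ℂ) • deriv g c else 0 := fun k => by
      rw [← Finset.sum_smul]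
      have : ∑ i, (w i : ℂ) * ((t i * h : ℝ) : ℂ) ^ (k : ℕ) =
          (∑ i, (w i : ℂ) * (t i : ℂ) ^ (k : ℕ)) * (h : ℂ) ^ (k : ℕ) := by
        rw [Finset.sum_mul]
        refine Finset.sum_congr rfl fun i _ => ?_
        push_cast
        ring
      rw [this, hw' k]
      by_cases hk : k = 1
      · subst hk
        simp [h1]
      · have : (k : ℕ) ≠ 1 := fun h => hk (Fin.ext (by simpa using h))
        simp [hk, this]
    simp only [e1, Finset.sum_ite_eq', Finset.mem_univ, if_true]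
  have b : h * ‖deriv g c‖ ≤ W * (ε + K) := by
    have := congrArg norm e
    rw [norm_smul, Complex.norm_real, Real.norm_of_nonneg h0.le] at this
    rw [this, hW, Finset.sum_mul]
    refine (norm_sum_le _ _).trans (Finset.sum_le_sum fun i _ => ?_)
    rw [norm_smul, Complex.norm_real, Real.norm_eq_abs]
    exact mul_le_mul_of_nonneg_left (key i) (abs_nonneg _)
  have e2 : K = 2 * h / r * (2 ^ (n + 1) * (h * (M * h ^ n / r ^ (n + 1)))) := by
    rw [hK, div_pow]
    field_simp
    ring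
  have b2 : K ≤ 2 ^ (n + 1) * (h * (M * h ^ n / r ^ (n + 1))) := by
    rw [e2]
    exact mul_le_of_le_one_left (by positivity) ((div_le_one hr0).2 hr)
  have b3 : ε ≤ 2 ^ (n + 1) * ε := le_mul_of_one_le_left hε0 (one_le_pow₀ one_le_two)
  refine le_of_mul_le_mul_left (a := h) (b.trans ?_) h0
  have e3 : h * ((W + 1) * 2 ^ (n + 1) * (ε / h + M * h ^ n / r ^ (n + 1))) =
      (W + 1) * (2 ^ (n + 1) * ε + 2 ^ (n + 1) * (h * (M * h ^ n / r ^ (n + 1)))) := by
    field_simp
  rw [e3]
  exact mul_le_mul (by linarith) (add_le_add b3 b2) (by positivity) (by positivity)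

end Crest.Agent.N250.Xi

end
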