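import Crest.Agent.N250.EX.Core

/-!
# Row 250 (helper12): second order jets of a family on shrinking balls with polynomial increments

`F ρ` is holomorphic on `U × ball 0 ρ`, neighbouring scales differ by `C ρ ^ (2 + k)`.  Then the fixed
map `tr ρ0 F 3` (holomorphic on `U × ball 0 1`) is `K ρ ^ (2 + k)` close to `F ρ`.
-/

set_option autoImplicit false
set_option linter.unusedSectionVars false

open Metric Set Filter Topology Complex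

noncomputable section

namespace Crest.Agent.N250.Xi

open Nest EX

variable {Y A G : Type*} [NormedAddCommGroup Y] [NormedSpace ℂ Y] [NormedAddCommGroup A]
  [NormedSpace ℂ A] [NormedAddCommGroup G] [NormedSpace ℂ G] [CompleteSpace G]

/-- balls at all scales `ρ ≤ ρ0`, polynomial increments -/
structure Sp (U : Set Y) (ρ0 M C k : ℝ) (F : ℝ → Y × A → G) : Prop where
  isOpen : IsOpen U
  pos : 0 < ρ0
  le1 : ρ0 ≤ 1
  kpos : 0 < k
  k1 : k < 1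
  Cnn : 0 ≤ C
  hd : ∀ ρ ∈ Ioc 0 ρ0, DifferentiableOn ℂ (F ρ) (U ×ˢ ball 0 ρ)
  le : ∀ z ∈ U ×ˢ ball (0 : A) ρ0, ‖F ρ0 z‖ ≤ M
  inc : ∀ ρ ∈ Ioc 0 ρ0, ∀ ρ' ∈ Icc (ρ / 2) ρ, ∀ z ∈ U ×ˢ ball (0 : A) ρ',
    ‖F ρ' z - F ρ z‖ ≤ C * (ρ ^ 2 * ρ ^ k)

variable {U : Set Y} {ρ0 M C k : ℝ} {F : ℝ → Y × A → G}

/-- the ratio -/
def qk (k : ℝ) : ℝ := (1 / 2 : ℝ) ^ k

theorem qk_lt (hk : 0 < k) : qk k < 1 := Real.rpow_lt_one (by norm_num) (by norm_num) hk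

theorem qk_gt (hk : k < 1) : 1 / 2 < qk k := by
  have := Real.rpow_lt_rpow_of_exponent_gt (x := 1 / 2) (by norm_num) (by norm_num) hk
  rwa [Real.rpow_one] at this

theorem e_succ (h : 0 < ρ0) (k : ℝ) (m : ℕ) : rr ρ0 (m + 1) ^ k = qk k * rr ρ0 m ^ k := by
  rw [rr_succ, qk, ← Real.mul_rpow (by norm_num) (rr_pos h m).le]
  congr 1; ring

theorem e_add (h : 0 < ρ0) (k : ℝ) (m j : ℕ) : rr ρ0 (m + j) ^ k = rr ρ0 m ^ k * qk k ^ j := by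
  induction j with
  | zero => simp
  | succ j ih => rw [← add_assoc, e_succ h, ih]; ring

theorem Sp.fam (h : Sp U ρ0 M C k F) : Fam (U ×ˢ ball (0 : A) 1) (rr ρ0)
    (fun m => C * (rr ρ0 m ^ 2 * rr ρ0 m ^ k)) M (ray ρ0 F) where
  pos := rr_pos h.pos
  anti k := rr_le h.pos k 1
  le0 z hz μ hμ := by
    have : rr ρ0 0 = ρ0 := by simp [rr]
    rw [this] at hμ
    simpa [ray, this] using h.le _ (mem_ray hz hμ)
  hd k z hz := (h.hd _ (rr_mem h.pos k)).comp (f := fun μ : ℂ => ((z.1, μ • z.2) : Y × A))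
    (by fun_prop) fun μ hμ => mem_ray hz hμ
  par k μ hμ := (h.hd _ (rr_mem h.pos k)).comp (f := fun z : Y × A => ((z.1, μ • z.2) : Y × A))
    (by fun_prop) fun z hz => mem_ray hz hμ
  inc k z hz μ hμ := h.inc _ (rr_mem h.pos k) _ ⟨(rr_succ ρ0 k).ge, rr_le h.pos k 1⟩ _
    (mem_ray hz hμ)

theorem Sp.term (h : Sp U ρ0 M C k F) {n : ℕ} (hn : n < 3) (m j : ℕ) :
    (2 / rr ρ0 (m + j + 1)) ^ n * (C * (rr ρ0 (m + j) ^ 2 * rr ρ0 (m + j) ^ k)) ≤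
      16 * C * rr ρ0 m ^ (2 - n) * rr ρ0 m ^ k * qk k ^ j := by
  have h0 := rr_pos h.pos (m + j)
  have h1 := rr_le h.pos m j
  have h2 : 0 ≤ rr ρ0 m ^ k * qk k ^ j := by
    have := (qk_gt h.k1).le
    have := rr_pos h.pos m
    positivity
  have h3 : (2 / rr ρ0 (m + j + 1)) ^ n * rr ρ0 (m + j) ^ 2 ≤ 16 * rr ρ0 m ^ (2 - n) := by
    rw [rr_succ]
    have e : (2 / (rr ρ0 (m + j) / 2)) ^ n * rr ρ0 (m + j) ^ 2 = 4 ^ n * rr ρ0 (m + j) ^ (2 - n) := by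
      interval_cases n <;> simp <;> field_simp <;> norm_num
    rw [e]
    refine mul_le_mul ?_ (pow_le_pow_left₀ h0.le h1 _) (by positivity) (by norm_num)
    interval_cases n <;> norm_num
  rw [e_add h.pos]
  have := mul_le_mul_of_nonneg_right (mul_le_mul_of_nonneg_left h3 h.Cnn) h2
  linarith

theorem Sp.term_nn (h : Sp U ρ0 M C k F) (n m : ℕ) :
    0 ≤ (2 / rr ρ0 (m + 1)) ^ n * (C * (rr ρ0 m ^ 2 * rr ρ0 m ^ k)) := by
  have := rr_pos h.pos (m + 1); have := rr_pos h.pos m; have := h.Cnn; positivity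

theorem Sp.geo (h : Sp U ρ0 M C k F) : Summable fun j : ℕ => qk k ^ j :=
  summable_geometric_of_lt_one (by linarith [qk_gt h.k1]) (qk_lt h.kpos)

theorem Sp.summ' (h : Sp U ρ0 M C k F) {n : ℕ} (hn : n < 3) (m : ℕ) : Summable fun j =>
    (2 / rr ρ0 (m + j + 1)) ^ n * (C * (rr ρ0 (m + j) ^ 2 * rr ρ0 (m + j) ^ k)) :=
  .of_nonneg_of_le (fun j => h.term_nn n (m + j)) (h.term hn m) (h.geo.mul_left _)

theorem Sp.summ (h : Sp U ρ0 M C k F) {n : ℕ} (hn : n < 3) : Summable fun j =>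
    (2 / rr ρ0 (j + 1)) ^ n * (C * (rr ρ0 j ^ 2 * rr ρ0 j ^ k)) := by
  simpa using h.summ' hn 0

theorem Sp.tsum_le (h : Sp U ρ0 M C k F) {n : ℕ} (hn : n < 3) (m : ℕ) :
    ∑' j, (2 / rr ρ0 (m + j + 1)) ^ n * (C * (rr ρ0 (m + j) ^ 2 * rr ρ0 (m + j) ^ k)) ≤
      16 * C * rr ρ0 m ^ (2 - n) * rr ρ0 m ^ k * (1 - qk k)⁻¹ := by
  refine ((h.summ' hn m).tsum_le_tsum (h.term hn m) (h.geo.mul_left _)).trans_eq ?_
  rw [tsum_mul_left, tsum_geometric_of_lt_one (by linarith [qk_gt h.k1]) (qk_lt h.kpos)]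

theorem Sp.part (h : Sp U ρ0 M C k F) (m : ℕ) :
    ∑ j ∈ Finset.range m, (2 / rr ρ0 (j + 1)) ^ 3 * (C * (rr ρ0 j ^ 2 * rr ρ0 j ^ k)) ≤
      64 * C * (2 * qk k - 1)⁻¹ * (rr ρ0 m ^ k / rr ρ0 m) := by
  have hq : 0 < 2 * qk k - 1 := by linarith [qk_gt h.k1]
  induction m with
  | zero =>
    have := rr_pos h.pos 0; have := h.Cnn
    simp only [Finset.range_zero, Finset.sum_empty]; positivity
  | succ m ih =>
    have := rr_pos h.pos m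
    rw [Finset.sum_range_succ, e_succ h.pos, rr_succ]
    refine (add_le_add ih le_rfl).trans_eq ?_
    field_simp
    ring

theorem Sp.cf_diff (h : Sp U ρ0 M C k F) {n : ℕ} (hn : n < 3) :
    DifferentiableOn ℂ (cf ρ0 F n) (U ×ˢ ball 0 1) :=
  h.fam.cl_diff (h.isOpen.prod isOpen_ball) (h.summ hn)

theorem Sp.tr_diff (h : Sp U ρ0 M C k F) : DifferentiableOn ℂ (tr ρ0 F 3) (U ×ˢ ball 0 1) :=
  DifferentiableOn.fun_sum fun _ hn => h.cf_diff (Finset.mem_range.1 hn)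

theorem Sp.cf_smul (h : Sp U ρ0 M C k F) {n : ℕ} (hn : n < 3) {z : Y × A}
    (hz : z ∈ U ×ˢ ball (0 : A) 1) {s : ℂ} (hs : (z.1, s • z.2) ∈ U ×ˢ ball (0 : A) 1) :
    cf ρ0 F n (z.1, s • z.2) = s ^ n • cf ρ0 F n z := by
  refine tendsto_nhds_unique (h.fam.tendsto (h.summ hn) hs) ?_
  refine ((h.fam.tendsto (h.summ hn) hz).const_smul (s ^ n)).congr fun k => ?_
  rw [← co_scale]
  congr 1
  funext μ
  simp only [ray, smul_smul, mul_comm]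

/-- **the expansion** -/
theorem Sp.expand (h : Sp U ρ0 M C k F) : ∃ K, 0 ≤ K ∧ ∀ ρ ∈ Ioc 0 ρ0,
    ∀ z ∈ U ×ˢ ball (0 : A) ρ, ‖F ρ z - tr ρ0 F 3 z‖ ≤ K * (ρ ^ 2 * ρ ^ k) := by
  have hq : 0 < 2 * qk k - 1 := by linarith [qk_gt h.k1]
  have hq' : 0 < 1 - qk k := by linarith [qk_lt h.kpos]
  have hC := h.Cnn
  have p0 := rr_pos h.pos 0
  set K1 := (2 / rr ρ0 0) ^ 3 * max M 0 + 64 * C * (2 * qk k - 1)⁻¹ + 3 * (16 * C * (1 - qk k)⁻¹) + C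
    with hK1
  have k1 : 0 ≤ K1 := by positivity
  refine ⟨8 * K1, by positivity, fun ρ hρ z hz => ?_⟩
  obtain ⟨m, hk⟩ := exists_scale h.pos hρ
  have pk := rr_pos h.pos m
  have r1 : rr ρ0 m ≤ 1 := (rr_mem h.pos m).2.trans h.le1
  have ha := mem_ball_zero_iff.1 hz.2
  obtain ⟨s, b, h0, h1, -, h3, h4⟩ := exists_ray (ha.trans_le hk.2)
  have hb : (z.1, b) ∈ U ×ˢ ball (0 : A) 1 := ⟨hz.1, mem_ball_zero_iff.2 h3⟩
  have hz1 : z ∈ U ×ˢ ball (0 : A) 1 :=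
    ⟨hz.1, mem_ball_zero_iff.2 (ha.trans_le (hρ.2.trans h.le1))⟩
  have hs : ‖(s : ℂ)‖ = s := by rw [Complex.norm_real, Real.norm_of_nonneg h0]
  have e1 := h.fam.rem 3 (fun n hn => h.summ hn) hb m (a := s) (by rwa [mem_ball_zero_iff, hs])
  have e2 : ∑ n ∈ Finset.range 3, (s : ℂ) ^ n • cl (ray ρ0 F) n (z.1, b) = tr ρ0 F 3 z :=
    Finset.sum_congr rfl fun n hn => by
      have := h.cf_smul (Finset.mem_range.1 hn) hb (s := s) (by simpa only [h4] using hz1)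
      simp only [h4] at this
      exact this.symm
  have e3 : ray ρ0 F m (z.1, b) s = F (rr ρ0 m) z := by simp only [ray, h4]
  rw [e2, e3, hs] at e1
  have e4 := h.inc _ (rr_mem h.pos m) ρ hk z hz
  set r := rr ρ0 m
  have pe : 0 < r ^ k := by positivity
  have x0 : r ≤ r ^ k := by
    have := Real.rpow_le_rpow_of_exponent_ge pk r1 h.k1.le
    rwa [Real.rpow_one] at this
  have y2 : s ^ 3 * ((2 / rr ρ0 0) ^ 3 * M + ∑ j ∈ Finset.range m,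
      (2 / rr ρ0 (j + 1)) ^ 3 * (C * (rr ρ0 j ^ 2 * rr ρ0 j ^ k))) ≤
      ((2 / rr ρ0 0) ^ 3 * max M 0 + 64 * C * (2 * qk k - 1)⁻¹) * (r ^ 2 * r ^ k) := by
    calc _ ≤ r ^ 3 * ((2 / rr ρ0 0) ^ 3 * max M 0 + 64 * C * (2 * qk k - 1)⁻¹ * (r ^ k / r)) := by
          refine (mul_le_mul_of_nonneg_left (add_le_add (mul_le_mul_of_nonneg_left
            (le_max_left M 0) (by positivity)) (h.part m)) (by positivity)).trans ?_
          gcongr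
      _ = (2 / rr ρ0 0) ^ 3 * max M 0 * (r ^ 2 * r) + 64 * C * (2 * qk k - 1)⁻¹ * (r ^ 2 * r ^ k) := by
          field_simp
      _ ≤ _ := by rw [add_mul]; gcongr
  have y3 : ∑ n ∈ Finset.range 3, s ^ n * ∑' j, (2 / rr ρ0 (m + j + 1)) ^ n *
      (C * (rr ρ0 (m + j) ^ 2 * rr ρ0 (m + j) ^ k)) ≤
      3 * (16 * C * (1 - qk k)⁻¹) * (r ^ 2 * r ^ k) := by
    refine (Finset.sum_le_card_nsmul _ _ (16 * C * (1 - qk k)⁻¹ * (r ^ 2 * r ^ k))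
      fun n hn => ?_).trans_eq (by simp; ring)
    have hn := Finset.mem_range.1 hn
    calc _ ≤ r ^ n * (16 * C * r ^ (2 - n) * r ^ k * (1 - qk k)⁻¹) :=
          mul_le_mul (pow_le_pow_left₀ h0 h1.le n) (h.tsum_le hn m)
            (tsum_nonneg fun j => h.term_nn n (m + j)) (by positivity)
      _ = 16 * C * (1 - qk k)⁻¹ * (r ^ (n + (2 - n)) * r ^ k) := by rw [pow_add]; ring
      _ = _ := by rw [show n + (2 - n) = 2 by omega]
  have y4 : r ^ 2 * r ^ k ≤ 8 * (ρ ^ 2 * ρ ^ k) := by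
    have a1 : r ≤ 2 * ρ := by linarith [hk.1]
    have a2 : r ^ k ≤ 2 * ρ ^ k := by
      refine (Real.rpow_le_rpow pk.le a1 h.kpos.le).trans ?_
      rw [Real.mul_rpow (by norm_num) hρ.1.le]
      refine mul_le_mul_of_nonneg_right ?_ (Real.rpow_nonneg hρ.1.le _)
      have := Real.rpow_le_rpow_of_exponent_le (x := 2) (by norm_num) h.k1.le
      rwa [Real.rpow_one] at this
    calc _ ≤ (2 * ρ) ^ 2 * (2 * ρ ^ k) := by gcongr
      _ = _ := by ring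
  have := norm_sub_le_norm_sub_add_norm_sub (F ρ z) (F r z) (tr ρ0 F 3 z)
  calc _ ≤ K1 * (r ^ 2 * r ^ k) := by rw [hK1]; linarith
    _ ≤ K1 * (8 * (ρ ^ 2 * ρ ^ k)) := by gcongr
    _ = _ := by ring

/-- reality -/
theorem Sp.tr_conj (h : Sp U ρ0 M C k F) (κ : G →L[ℝ] G)
    (hκ : ∀ (s : ℂ) (g : G), κ (s • g) = (starRingEnd ℂ s) • κ g) (σ : Y → Y) (τ : A → A)
    (hτ : ∀ (s : ℂ) (a : A), τ (s • a) = (starRingEnd ℂ s) • τ a) {z : Y × A}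
    (hz : z ∈ U ×ˢ ball (0 : A) 1) (hz' : (σ z.1, τ z.2) ∈ U ×ˢ ball (0 : A) 1)
    (hF : ∀ ρ ∈ Ioc 0 ρ0, ∀ w ∈ U ×ˢ ball (0 : A) ρ, F ρ (σ w.1, τ w.2) = κ (F ρ w)) :
    tr ρ0 F 3 (σ z.1, τ z.2) = κ (tr ρ0 F 3 z) := by
  simp only [tr, map_sum]
  refine Finset.sum_congr rfl fun n hn => ?_
  exact h.fam.cl_conj (h.summ (Finset.mem_range.1 hn)) κ hκ hz hz' fun k μ hμ => by
    simpa only [ray, hτ] using hF _ (rr_mem h.pos k) _ (mem_ray hz hμ)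

end Crest.Agent.N250.Xi

end
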